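import Claimed.Agent.R256.Act.E2.Hy
import Claimed.Agent.R256.Nm.Mem.Y5a
import Claimed.Agent.R256.Og.Def

/-!
# Row 256, section Act, block E2, file 8: THE EXITS      (architect helper46; prefix `ae2_`)

* `ae2_bdry`   = field `bdry` of `AcStr.RBd` for `acStrK S Lip` (classical and hybrid, `De = 1`, `v0 = 0`, memory `μ(L_raw)`)
* `ae2_strong` = field `strong` (classical, virtual endpoint `De = 1 - (t0 + t1) / 2`, memory `1 - d + 2Γ`, reflattened sequence)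
Both are GLUE on `ae2_cl_step` (Cl.lean), `ae2_hy_step` (Hy.lean), `ae2_dini` (Kit.lean) and the contract of Nm (`nm_tr_ng`, `nm_U_basic`, `nm_U_incr`, `nm_H_lip`, `nm_pred_end`, `nm_me_mem_final`, `nm_m_slab`, `nm_mr`, `nm_mr_strong`, `nm_reflat`, `nm_E_zero`, `nm_E_nonneg`).
-/

set_option autoImplicit false

namespace Claimed.Agent.R256

open Claimed.Agent.R255
open Claimed.Agent.R255.FLaw (pair)
open Filter Topology MeasureTheory
open Classical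

noncomputable section

/-- the artificial template is a query of the strict family -/
theorem ae2_fam (π : SfPar) (h1 : π.c2 = 1) (h2 : π.q < 1) (De : ℝ) (h0 : 0 < De) (hD1 : De ≤ 1) (hh : π.hyb = true → De = 1) :
    (ae2Q π De).Fam π :=
  ⟨le_rfl, fun h => (by cases h), Or.inr (Or.inr ⟨h1, h2, fun h => (by cases h), De, h0, hD1, hh, rfl⟩)⟩

/-- `L_raw` in the strict family -/
theorem ae2_lraw (π : SfPar) (h1 : π.c2 = 1) (h2 : π.q < 1) : π.Lraw = 1 + max 0 (π.q - π.J) := by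
  have hQ : π.Qm = π.q := by
    unfold SfPar.Qm
    rw [if_neg (by rw [h1]; norm_num)]
  unfold SfPar.Lraw SfPar.Cr
  rw [hQ]
  rcases le_total 0 (π.q - π.J) with h | h
  · rw [max_eq_right h, max_eq_right (a := (1 + π.q) / 2) (by linarith), max_eq_right (by linarith)]
  · rw [max_eq_left h, max_eq_left (max_le (by linarith) (by linarith))]
    ring

/-- `L_S = 1` in the strict family -/
theorem ae2_ls (π : SfPar) (h1 : π.c2 = 1) (h2 : π.q < 1) : π.LS = 1 := by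
  have hQ : π.Qm = π.q := by
    unfold SfPar.Qm
    rw [if_neg (by rw [h1]; norm_num)]
  unfold SfPar.LS
  rw [hQ, max_eq_left (by linarith)]

/-- the increment of the benchmark exponent along the boundary -/
theorem ae2_Z_incr (π : SfPar) (hπ : π.Valid) (De a a' v : ℝ) :
    (ae2Q π De).Z π a v - (ae2Q π De).Z π a' v = (2 + 3 * π.d - 2 * π.Γ - π.η) * (a - a') := by
  have hp := hπ.pd
  have hp' : π.p = 1 + 2 * π.d - 2 * π.Γ := by linarith
  simp only [NmQ.Z, NmQ.W, NmQ.w, ae2Q, NmDs.b, nmDsStr]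
  rw [hp']
  ring

section seq

variable {π : SfPar} {C0 : ℝ} {κ : ℝ → ℝ} (S : NmSeq π C0 κ)

/-- (ng) at a fixed width, at almost every time -/
theorem ae2_ng (hπ : π.Valid) (q : NmQ) (hq : q.Fam π) (v : ℝ) : ∀ᵐ a : ℝ, a ∈ Set.Ioo (0 : ℝ) 1 → ∀ G : ℝ, 0 ≤ G →
    Tendsto (fun h : ℝ => (S.U q (v + G * h) a v - S.U q (v + G * h) (a + G * h) v) / h) (𝓝[>] 0) (𝓝 0) := by
  obtain ⟨hi, C, hC⟩ := nm_U_incr S hπ q hq
  exact (nm_tr_ng (fun x a v => S.U q x a v) 0 1 (v - 1) (v + 1) C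
    (fun a _ v _ => (nm_U_basic S hπ q hq a v).1)
    (fun a _ v _ x x' h1 h2 _ => (nm_U_basic S hπ q hq a v).2 x x' h1 h2)
    (fun a _ a' _ v _ v' _ x x' h1 h2 h3 h4 _ => hi a a' v v' x x' h1 h2 h3 h4)
    (fun a _ a' _ v _ v' _ x => hC a a' v v' x)).1 v ⟨by linarith, by linarith⟩

/-- **the boundary memory at `De = 1`** (classical and hybrid): the final label lists the names of the boundary (`nm_pred_end`), memory of the final label (`nm_me_mem_final`).   Copy of `nm_me_m_left` (Nm/Mem/Y5a). -/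
theorem ae2_mem_one (hπ : π.Valid) (h1 : π.c2 = 1) (h2 : π.q < 1) (hX : S.HasX) (a : ℝ) (ha : 0 < a ∧ a < 1) :
    ∀ z : ℝ, 0 < z → z < π.Lraw → π.mu π.Lraw * z ≤ S.U (ae2Q π 1) (π.u 1 + z) a (π.u 1) := by
  intro z hz0 hz1
  have hu : π.u 1 = 0 := by simp [SfPar.u]
  have hb2 : π.b2 1 = 0 := by simp [SfPar.b2]
  have hb1 : π.b1 1 = 0 := by simp [SfPar.b1]
  have hq := ae2_fam π h1 h2 1 one_pos le_rfl (fun _ => rfl)
  have hP := nm_pred_end π hπ C0 1 (κ 1) (ae2Q π 1) hq rfl rfl a ha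
    (by
      show π.b2 1 + 1 * (a - 1) + π.u 1 ≤ π.b1 1
      rw [hu, hb2, hb1]; linarith [ha.2])
    (fun _ => by
      show π.b2 1 + 1 * (a - 1) + 2 * π.u 1 < 0
      rw [hu, hb2]; linarith [ha.2])
  refine nm_me_HC_lb S _ _ (nm_me_ubdd_X S _ _) _ fun e he => ?_
  have hacc : 0 < e / (2 * z) := by positivity
  filter_upwards [nm_me_uf S hX 1 one_pos _ (nm_me_mem_final π hπ C0 1 (κ 1) z ⟨hz0, hz1⟩) (e / (2 * z)) hacc,
    nm_me_uf S hX 1 one_pos _ hP (e / 2) (by positivity),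
    nm_me_pow_small S (a := e / 8) (by positivity) he] with n hn hpr hsm cl hcl
  obtain ⟨h0, hs1⟩ := nm_me_s S n
  choose Ls hLs hLm using fun lam => hpr lam ()
  have e2 : e / (2 * z) * z / 4 = e / 8 := by field_simp; ring
  have h3 := hn (fun lam => (Ls lam).biUnion cl) (fun lam => by
    have e1 : -((π.mu π.Lraw - e / (2 * z)) * z) = -(e / 2) + -(π.mu π.Lraw * z - e) := by field_simp; ring
    rw [e1, Real.rpow_add h0]
    have hb : ∀ c₀ ∈ Ls lam, ((cl c₀).card : ℝ) ≤ (S.D n).s ^ (-(π.mu π.Lraw * z - e)) := fun c₀ _ => hcl c₀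
    have h3 : (((Ls lam).biUnion cl).card : ℝ) ≤ ∑ c₀ ∈ Ls lam, ((cl c₀).card : ℝ) := by
      exact_mod_cast Finset.card_biUnion_le
    have h4 := Finset.sum_le_card_nsmul (Ls lam) (fun c₀ => ((cl c₀).card : ℝ)) _ hb
    rw [nsmul_eq_mul] at h4
    exact h3.trans (h4.trans (mul_le_mul_of_nonneg_right (hLs lam) (Real.rpow_nonneg h0.le _))))
  rw [e2] at h3
  refine le_trans (ent_pr_mono _ fun ω _ hω => ?_) (h3.trans hsm)
  rw [Finset.mem_biUnion]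
  refine ⟨(S.D n).nm π (ae2Q π 1) a (π.u 1) ω, hLm _ ω ?_ trivial rfl, ?_⟩
  · unfold SfDoc.Met
    have hgt : (S.D n).gt (ae2Q π 1).ds.De = 1 := nm_gt_self (S.D n) (nm_me_core S n).gate.1
    rw [if_pos hgt]
  · have : (S.D n).Xc z ω = S.Xc (π.u 1 + z) n ω := by
      rw [hu, zero_add]; rfl
    rw [this]
    exact hω

/-- **from the step to the Dini bound of the excess** (backward time) -/
theorem ae2_core (hπ : π.Valid) (h1 : π.c2 = 1) (h2 : π.q < 1) (De : ℝ) (hD0 : 0 < De) (hD1 : De ≤ 1) (hh : π.hyb = true → De = 1)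
    (hstep : ∀ a : ℝ, 0 < a → a < De →
      Tendsto (fun h : ℝ => (S.U (ae2Q π De) (π.u De + 40 * h) a (π.u De) - S.U (ae2Q π De) (π.u De + 40 * h) (a + 40 * h) (π.u De)) / h)
        (𝓝[>] 0) (𝓝 0) →
      ∀ ε : ℝ, 0 < ε → ∀ᶠ h in 𝓝[>] (0 : ℝ), (2 + 3 * π.d - ε) * h ≤ S.H (ae2Q π De) (a + h) (π.u De) - S.H (ae2Q π De) a (π.u De)) :
    ∀ᵐ t : ℝ, 1 - De < t → t < 1 → OgDiniLe (fun s => S.E (ae2Q π De) (1 - s) (π.u De)) t (-(2 * π.Γ)) := by
  have hq := ae2_fam π h1 h2 De hD0 hD1 hh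
  obtain ⟨C, hC⟩ := nm_H_lip S hπ (ae2Q π De) hq
  have hd := ae2_dini (fun a => S.H (ae2Q π De) a (π.u De)) C (2 + 3 * π.d) 0 De
    (fun a a' => by simpa using hC a a' (π.u De) (π.u De))
    (by
      filter_upwards [ae2_ng S hπ (ae2Q π De) hq (π.u De)] with a hng ha0 haD ε hε
      exact (hstep a ha0 haD (hng ⟨ha0, lt_of_lt_of_le haD hD1⟩ 40 (by norm_num)) ε hε).frequently)
  have hmp := (Measure.measurePreserving_sub_left (volume : Measure ℝ) 1).quasiMeasurePreserving.ae hd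
  filter_upwards [hmp] with t ht ht0 ht1 ε hε
  filter_upwards [ht (by linarith) (by linarith) ε hε, self_mem_nhdsWithin] with h hh' hpos
  have hpos' : (0 : ℝ) < h := hpos
  have hZ := ae2_Z_incr π hπ De (1 - t) (1 - t - h) (π.u De)
  have e1 : 1 - (t + h) = 1 - t - h := by ring
  have hη := hπ.eta.1
  show S.E (ae2Q π De) (1 - (t + h)) (π.u De) - S.E (ae2Q π De) (1 - t) (π.u De) ≤ (-(2 * π.Γ) + ε) * h
  rw [e1]
  unfold NmSeq.E
  have e2 : 1 - t - (1 - t - h) = h := by ring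
  rw [e2] at hZ
  have e3 : 0 ≤ π.η * h := mul_nonneg hη.le hpos'.le
  have hh'' : (2 + 3 * π.d - ε) * h ≤ S.H (ae2Q π De) (1 - t) (π.u De) - S.H (ae2Q π De) (1 - t - h) (π.u De) := hh'
  nlinarith

/-- **EXIT 1** = field `bdry` of `AcStr.RBd` for `acStrK S Lip` -/
theorem ae2_bdry (hπ : π.Valid) (h1 : π.c2 = 1) (h2 : π.q < 1) (hκ : ∀ τ : ℝ, 0 < τ → 0 < κ τ) (hX : S.HasX) (hF : S.Flat {1})
    (hY : π.hyb = true → S.E2Hy) (hm0 : 0 < π.mu π.Lraw) (hm1 : 1 - 2 * π.d ≤ π.mu π.Lraw) :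
    ∀ᵐ t : ℝ, 0 < t → t < 1 → OgDiniLe (fun s => S.E (ae2Q π 1) (1 - s) 0) t (-(2 * π.Γ)) := by
  have hu : π.u 1 = 0 := by simp [SfPar.u]
  have hL : 0 < π.Lraw := lt_of_lt_of_le one_pos (nm_me_Lraw π).1
  have hd := hπ.d1
  have hg0 : 0 < min (π.mu π.Lraw) 1 := lt_min hm0 one_pos
  have hgd : 1 - 2 * π.d ≤ min (π.mu π.Lraw) 1 := le_min hm1 (by linarith [hd.1])
  have hmem : ∀ a : ℝ, 0 < a → a < 1 → ∀ z : ℝ, 0 < z → z < π.Lraw →
      min (π.mu π.Lraw) 1 * z ≤ S.U (ae2Q π 1) (π.u 1 + z) a (π.u 1) := fun a ha0 ha1 z hz0 hz1 =>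
    (mul_le_mul_of_nonneg_right (min_le_left _ _) hz0.le).trans (ae2_mem_one S hπ h1 h2 hX a ⟨ha0, ha1⟩ z hz0 hz1)
  have key := ae2_core S hπ h1 h2 1 one_pos le_rfl (fun _ => rfl) (fun a ha0 ha1 hng ε hε => by
    cases hc : π.hyb
    · exact ae2_cl_step S hπ h1 h2 hc hκ hX {1} hF 1 rfl le_rfl a ha0 ha1 _ hg0 (min_le_right _ _) hgd π.Lraw hL (hmem a ha0 ha1) hng ε hε
    · exact ae2_hy_step S hπ h1 h2 hc hκ hX hF (hY hc) a ha0 ha1 _ hg0 (min_le_right _ _) hgd π.Lraw hL (hmem a ha0 ha1) hng ε hε)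
  filter_upwards [key] with t ht ht0 ht1
  have := ht (by linarith) ht1
  rwa [hu] at this

/-- reflattening does not change `p_*` -/
theorem ae2_pst_eq (h1 : π.c2 = 1) (h2 : π.q < 1) {κ' : ℝ → ℝ} (S' : NmSeq π C0 κ')
    (hEq : ∀ L L' : List NmAt, (∀ x ∈ L, x ≠ NmAt.y0 ∧ x.Ok π {1}) → (∀ x ∈ L', x.Ok π {1}) → S'.HC (S'.ats L) (S'.ats L') = S.HC (S.ats L) (S.ats L'))
    (a : ℝ) : S'.pst (nmDsStr π 1) a = S.pst (nmDsStr π 1) a := by
  have hHP : ∀ x z : ℝ, S'.HP (nmDsStr π 1) x z = S.HP (nmDsStr π 1) x z := by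
    intro x z
    rw [nm_HP_HM, nm_HP_HM]
    unfold NmSeq.HM
    refine hEq _ _ ?_ ?_
    · intro y hy
      rw [List.mem_singleton] at hy
      subst hy
      exact ⟨fun h => (by cases h), rfl, Or.inl ⟨ae2Q π 1, ae2_fam π h1 h2 1 one_pos le_rfl (fun _ => rfl), rfl⟩⟩
    · intro y hy
      simp only [List.mem_cons, List.not_mem_nil, or_false] at hy
      rcases hy with rfl | rfl <;> exact trivial
  unfold NmSeq.pst
  simp only [hHP]

/-- **EXIT 2** = field `strong` of `AcStr.RBd` for `acStrK S Lip` -/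
theorem ae2_strong (hπ : π.Valid) (h1 : π.c2 = 1) (h2 : π.q < 1) (hc : π.hyb = false) (hκ : ∀ τ : ℝ, 0 < τ → 0 < κ τ) (hX : S.HasX) (hF : S.Flat {1})
    (hb : 0 < π.Cr) (t0 t1 σ : ℝ) (ht0 : 0 < t0) (ht01 : t0 < t1) (ht1 : t1 < 1) (hσ : 0 < σ)
    (hs : ∀ t : ℝ, t0 < t → t < t1 → -(π.Cr * t) + σ ≤ S.pst (nmDsStr π 1) (1 - t))
    (hm0 : 0 < 1 - π.d + 2 * π.Γ) (hm1 : 1 - 2 * π.d ≤ 1 - π.d + 2 * π.Γ) :
    ∃ (φ : ℝ → ℝ) (tD ρ M : ℝ), 0 < ρ ∧ 0 ≤ M ∧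
      (∀ x ∈ Set.Icc tD (tD + ρ), ∀ y ∈ Set.Icc tD (tD + ρ), |φ x - φ y| ≤ M * |x - y|) ∧
      φ tD = 0 ∧ 0 ≤ φ (tD + ρ) ∧ ∀ᵐ x : ℝ, x ∈ Set.Ioo tD (tD + ρ) → OgDiniLe φ x (-(2 * π.Γ)) := by
  obtain ⟨De, hDe⟩ : ∃ De : ℝ, De = 1 - (t0 + t1) / 2 := ⟨_, rfl⟩
  have hD0 : 0 < De := by rw [hDe]; linarith
  have hD1 : De < 1 := by rw [hDe]; linarith
  have hh : π.hyb = true → De = 1 := fun h => by rw [hc] at h; cases h
  obtain ⟨S', hX', hF', -, hEq⟩ := nm_reflat hπ S hX {1} (Set.countable_singleton 1) hF De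
  have hκ' : ∀ τ : ℝ, 0 < τ → 0 < (fun τ => κ τ / 2) τ := fun τ hτ => half_pos (hκ τ hτ)
  have hq := ae2_fam π h1 h2 De hD0 hD1.le hh
  have hJ := hπ.J0
  have hu0 : 0 ≤ π.u De := mul_nonneg hJ (by linarith)
  obtain ⟨C, hC⟩ := nm_H_lip S' hπ (ae2Q π De) hq
  -- memory
  obtain ⟨lam0, hl0, hslab⟩ := nm_m_slab S' hπ hX' hc hb (ae2Q π De) hq rfl
  have hmr := (nm_mr S' hπ hX' hc De ⟨hD0, hD1⟩).1
  have hLS := ae2_ls π h1 h2
  obtain ⟨ρ', hρ'⟩ : ∃ ρ' : ℝ, ρ' = min (σ / (2 * π.Cr)) ((t1 - t0) / 2) := ⟨_, rfl⟩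
  have hρ0 : 0 < ρ' := by rw [hρ']; exact lt_min (by positivity) (by linarith)
  have hρ1 : ρ' ≤ σ / (2 * π.Cr) := by rw [hρ']; exact min_le_left _ _
  have hρ2 : ρ' ≤ (t1 - t0) / 2 := by rw [hρ']; exact min_le_right _ _
  have hρ3 : π.Cr * ρ' ≤ σ / 2 := by
    have := mul_le_mul_of_nonneg_left hρ1 hb.le
    have e : π.Cr * (σ / (2 * π.Cr)) = σ / 2 := by field_simp
    linarith
  have hstr := nm_mr_strong S' hπ hX' (insert De {1}) (by simp) hF' hc hb (nmDsStr π 1)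
    ⟨rfl, Or.inl ⟨ae2Q π 1, ae2_fam π h1 h2 1 one_pos le_rfl (fun _ => rfl), rfl⟩⟩ De (σ / 2) ρ' ⟨hD0, hD1⟩ (by positivity) hρ0
    (fun i hi1 hi2 => by
      rw [ae2_pst_eq S h1 h2 S' hEq i]
      have h3 := hs (1 - i) (by rw [hDe] at hi2; linarith) (by rw [hDe] at hi1; linarith)
      rw [sub_sub_cancel] at h3
      refine le_trans ?_ h3
      have e : π.b1 De = π.Cr * (De - 1) := rfl
      rw [e]
      have : π.Cr * (De - i) ≤ π.Cr * ρ' := mul_le_mul_of_nonneg_left (by linarith) hb.le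
      nlinarith)
  rw [hLS] at hstr
  have hmu : π.mu 1 = 1 - π.d + 2 * π.Γ := by
    unfold SfPar.mu SfPar.mnum
    ring
  rw [hmu] at hstr
  have hd := hπ.d1
  have hg0 : 0 < min (1 - π.d + 2 * π.Γ) 1 := lt_min hm0 one_pos
  have hgd : 1 - 2 * π.d ≤ min (1 - π.d + 2 * π.Γ) 1 := le_min hm1 (by linarith [hd.1])
  have hz0 : 0 < min ρ' De := lt_min hρ0 hD0
  have hmem : ∀ a : ℝ, 0 < a → a < De → ∀ z : ℝ, 0 < z → z < min ρ' De →
      min (1 - π.d + 2 * π.Γ) 1 * z ≤ S'.U (ae2Q π De) (π.u De + z) a (π.u De) := by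
    intro a ha0 haD z hz hzz
    have h3 := hslab a De (π.u De) (π.u De + z) ha0 haD le_rfl (fun _ => rfl) le_rfl
      (by rw [sub_self]; exact mul_nonneg hl0.le (by linarith))
      (by
        show π.b2 De + 1 * (a - De) + π.u De ≤ π.b1 De
        unfold SfPar.b2 SfPar.u SfPar.b1
        nlinarith)
      (by linarith)
    rw [hmr, sub_zero] at h3
    have h4 := hstr z hz (by rw [one_mul]; exact lt_of_lt_of_le hzz (min_le_left _ _)) (by rw [one_mul]; exact lt_of_lt_of_le hzz (min_le_right _ _))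
    exact ((mul_le_mul_of_nonneg_right (min_le_left _ _) hz.le).trans h4).trans h3
  have key := ae2_core S' hπ h1 h2 De hD0 hD1.le hh (fun a ha0 haD hng ε hε =>
    ae2_cl_step S' hπ h1 h2 hc hκ' hX' (insert De {1}) hF' De (by simp) hD1.le a ha0 haD _ hg0 (min_le_right _ _) hgd _ hz0 (hmem a ha0 haD) hng ε hε)
  refine ⟨fun x => S'.E (ae2Q π De) (1 - x) (π.u De), 1 - De, De / 2, |C| + |2 + 3 * π.d - 2 * π.Γ - π.η|, by positivity, by positivity, ?_, ?_, ?_, ?_⟩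
  · intro x _ y _
    have h3 := hC (1 - x) (1 - y) (π.u De) (π.u De)
    have h4 := ae2_Z_incr π hπ De (1 - x) (1 - y) (π.u De)
    have e1 : (1 - x) - (1 - y) = -(x - y) := by ring
    rw [sub_self, abs_zero, add_zero, e1, abs_neg] at h3
    rw [e1] at h4
    show |S'.E (ae2Q π De) (1 - x) (π.u De) - S'.E (ae2Q π De) (1 - y) (π.u De)| ≤ _
    unfold NmSeq.E
    have e2 : S'.H (ae2Q π De) (1 - x) (π.u De) - S'.D0 - (ae2Q π De).Z π (1 - x) (π.u De)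
        - (S'.H (ae2Q π De) (1 - y) (π.u De) - S'.D0 - (ae2Q π De).Z π (1 - y) (π.u De))
        = (S'.H (ae2Q π De) (1 - x) (π.u De) - S'.H (ae2Q π De) (1 - y) (π.u De))
          - ((ae2Q π De).Z π (1 - x) (π.u De) - (ae2Q π De).Z π (1 - y) (π.u De)) := by ring
    rw [e2, h4, add_mul]
    refine (abs_sub _ _).trans (add_le_add (h3.trans (mul_le_mul_of_nonneg_right (le_abs_self C) (abs_nonneg _))) ?_)
    rw [abs_mul, abs_neg]
  · show S'.E (ae2Q π De) (1 - (1 - De)) (π.u De) = 0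
    rw [sub_sub_cancel]
    refine nm_E_zero S' hπ hX' _ hq De (π.u De) ⟨rfl, ?_, Or.inr (Or.inr ⟨hc, rfl, rfl, rfl⟩)⟩
    show π.b2 De + 1 * (De - De) + π.u De = π.b1 De
    unfold SfPar.b2 SfPar.u SfPar.b1
    ring
  · show 0 ≤ S'.E (ae2Q π De) (1 - (1 - De + De / 2)) (π.u De)
    refine nm_E_nonneg S' hπ hX' _ hq _ _ ⟨by linarith, ?_⟩ hu0 (fun h => by rw [hc] at h; cases h)
    show 1 - (1 - De + De / 2) ≤ De
    linarith
  · filter_upwards [key] with x hx hx'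
    exact hx hx'.1 (by linarith [hx'.2])

end seq

end

end Claimed.Agent.R256
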