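import Claimed.Agent.R256.Nm.Grid
import Claimed.Agent.R256.Act.LtTan

/-!
# Row 256, section Act, block E2 = Prop. act:strict-boundary (06-cylinder-actions.tex l.432-663), file 1: DEFINITIONS      (architect helper46; prefix `ae2_`, types `Ae2*`)

Strict family `c2 = 1`, `q < 1`.   Artificial quadratic template ending at `De` (`ae2Q π De`), boundary width `v0 = u(De)`, `ζ = b2(De) - De`, `b(a) = a + ζ`.
CLASSICAL SIMPLIFICATION (helper46).  The experiment is the STANDARD one-record tangent datum `nmTan` at the boundary root `(a, v0)` with the coarse quadratic side `(A0, V)` (names, marks, common phase, display: all from Nm, label at `De`);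
only the SIDE is refined by the bins of depth `30` (units `δ = s^h`) of the line coefficients of the label met at a depth `j ∈ (a, De)`:
  `e2K = (K_j - k̄) s^(-ζ)`,      `e2B = (β_j(t_a) - k̄ t_a - R_a) s^(-b(a))`      (`k̄`, `t_a`, `R_a` = the data of the standard side).
The marks of the label at `De` are within `s^(j-a-3t) ≪ δ^100` of the marks of the label at `j`, which lie EXACTLY on the line `r = e2B + e2K θ`.   No names `𝒞^[j]` are needed.
* `Ae2P` = `(De, a, j, A0, V, h, Rm, B)`;  `p.rt π : NmRt` the root;  `p.Ok π Λ`.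
* `D.e2K`, `D.e2B` (for ANY label `lam`; classical: `lam = D.labAt j ω`),  `D.e2Z π p` the refined side (the map `Z` of `Act/LtTan.lean`),  `ae2Tan D π p dsp = nmTan D π (p.rt π) dsp`,  `ae2Be δ`, `ae2Ka δ` the line as a function of the refined side.
-/

set_option autoImplicit false

namespace Claimed.Agent.R256

open Claimed.Agent.R255
open Claimed.Agent.R255.FLaw (pair)
open Filter Topology
open Classical

noncomputable section

/-- the artificial quadratic template ending at `De` -/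
def ae2Q (π : SfPar) (De : ℝ) : NmQ := ⟨nmDsStr π De, NmTp.quad, 0⟩

/-- the parameters of the boundary experiment -/
structure Ae2P where
  De : ℝ
  a : ℝ
  j : ℝ
  A0 : ℝ
  V : ℝ
  h : ℝ
  Rm : ℝ
  B : ℝ

namespace Ae2P

/-- the boundary root with the coarse quadratic side -/
def rt (p : Ae2P) (π : SfPar) : NmRt := ⟨ae2Q π p.De, ⟨false, false, p.A0, p.V, 0⟩, p.a, π.u p.De, p.h, p.Rm, p.B⟩

/-- the fixed gaps: everything which must be `≫ h` -/
def gap (p : Ae2P) (π : SfPar) : ℝ := min (p.j - p.a) (min (p.De - p.j) ((1 - π.q) * (p.De - p.j)))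

/-- admissible parameters; `Λ` = the constant of `NmRt.Ok` -/
structure Ok (p : Ae2P) (π : SfPar) (Λ : ℝ) : Prop where
  root : (p.rt π).Ok π Λ
  haj : p.a < p.j
  hjD : p.j < p.De
  hD1 : p.De ≤ 1
  h0 : 0 < p.h
  hgap : 400 * p.h ≤ p.gap π
  hRm : 130 ≤ p.Rm
  hB : 4 ≤ p.B

end Ae2P

namespace SfDoc

variable (D : SfDoc) (π : SfPar)

/-- the normalised slope of the label `lam` in the frame of the final row `ω` -/
def e2K (De : ℝ) (lam : SfTest) (ω : D.Row 1) : ℝ :=
  (lam.K - D.kbar π (nmDsStr π De) ω) / D.s ^ (π.b2 De - De)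

/-- the normalised value at `t_a` of the residual curvature trajectory of the label `lam` in the frame of the final row `ω` -/
def e2B (De a : ℝ) (lam : SfTest) (ω : D.Row 1) : ℝ :=
  (lam.beAt ((D.raw π (nmDsStr π De) ω).ta D.s a) - D.kbar π (nmDsStr π De) ω * (D.raw π (nmDsStr π De) ω).ta D.s a
    - (D.raw π (nmDsStr π De) ω).Ra D.s (ae2Q π De) a) / D.s ^ ((nmDsStr π De).b a)

/-- the bins of depth `30` of the line of the label met at the depth `j` -/
def e2bin (p : Ae2P) : D.Row 1 → ℤ × ℤ := fun ω =>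
  (tcell (D.s ^ p.h) 30 (D.e2B π p.De p.a (D.labAt p.j ω) ω), tcell (D.s ^ p.h) 30 (D.e2K π p.De (D.labAt p.j ω) ω))

/-- **the refined side** -/
def e2Z (p : Ae2P) : D.Row 1 → NmZv D.Idx × (ℤ × ℤ) := fun ω =>
  (D.side π (ae2Q π p.De) (p.rt π).σ p.a ω, D.e2bin π p ω)

end SfDoc

/-- **the tangent datum of the boundary experiment**: the standard `nmTan` at the boundary root; the refined side `D.e2Z π p` is passed separately to `Act/LtTan` -/
def ae2Tan (D : SfDoc) (π : SfPar) (p : Ae2P) (dsp : ℝ → NmNm → NmNm → ItDsp) : Tan := nmTan D π (p.rt π) dsp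

/-- the value of the line at `θ = 0`, as a function of the refined side -/
def ae2Be (δ : ℝ) {I : Type} (z : NmZv I × (ℤ × ℤ)) : ℝ := (z.2.1 : ℝ) / 2 ^ tlev δ 30

/-- the slope of the line, as a function of the refined side -/
def ae2Ka (δ : ℝ) {I : Type} (z : NmZv I × (ℤ × ℤ)) : ℝ := (z.2.2 : ℝ) / 2 ^ tlev δ 30

theorem ae2_defs_eqns_cite : True := by
  have := @ae2Q.eq_1; have := @Ae2P.rt.eq_1; have := @Ae2P.gap.eq_1; have := @SfDoc.e2K.eq_1; have := @SfDoc.e2B.eq_1
  have := @SfDoc.e2bin.eq_1; have := @SfDoc.e2Z.eq_1; have := @ae2Tan.eq_1; have := @ae2Be.eq_1; have := @ae2Ka.eq_1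
  trivial

/-! ## first facts (definitional) -/

section first

variable (D : SfDoc) (π : SfPar) (p : Ae2P) (dsp : ℝ → NmNm → NmNm → ItDsp)

theorem ae2_tan_P : (ae2Tan D π p dsp).P = D.P 1 := rfl
theorem ae2_tan_δ : (ae2Tan D π p dsp).δ = D.s ^ p.h := rfl
theorem ae2_tan_Cs : (ae2Tan D π p dsp).Cs = D.cs π (p.rt π) := rfl
theorem ae2_tan_F : (ae2Tan D π p dsp).F = (nmTan D π (p.rt π) dsp).F := rfl
theorem ae2_tan_mrk : (ae2Tan D π p dsp).mrk = fun _ => D.smk π (p.rt π) := rfl
theorem ae2_tan_O (l : ℝ) : (ae2Tan D π p dsp).O l = fun ω => (D.nm π (ae2Q π p.De) (p.a + l * p.h) (π.u p.De) ω, D.cs π (p.rt π) ω) := rfl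
theorem ae2_tan_be (ω : D.Row 1) : ae2Be (D.s ^ p.h) (D.e2Z π p ω) = trep (D.s ^ p.h) 30 (D.e2B π p.De p.a (D.labAt p.j ω) ω) := rfl
theorem ae2_tan_ka (ω : D.Row 1) : ae2Ka (D.s ^ p.h) (D.e2Z π p ω) = trep (D.s ^ p.h) 30 (D.e2K π p.De (D.labAt p.j ω) ω) := rfl

end first

end

end Claimed.Agent.R256
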