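import Claimed.Agent.R256.Act.E2.Kit
import Claimed.Agent.R256.Nm.Pred.Row

/-!
# Row 256, section Act, block E2, file 3: GEOMETRY OF THE BOUNDARY EXPERIMENT ON ONE CONFIGURATION      (architect helper46; prefix `ae2_`)

PAPER FREE: everything is derived below.   Input: `SfDoc.Core` (`hs, gate, hlen, base, grid, split, trans, clPath, clUniq`), `SfDoc.Aff` (`cmpA`), gates `nm_gt_near`, `nm_gt_mem`, `nm_gt_self`, labels `nm_labAt_one`, `nm_labAt_eq`, `nm_conn_uniq` (Nm/Pred/Doc), `lay_near`, `lay_start`, `lay_sep_count`, `lay_floor_count`, `lay_rpow_*` (Lay/SepKit).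
NOTATION.  `s = D.s`, `t` = tolerance, `ds = nmDsStr π De`, `ζ = b2 De - De`, `b x = ds.b x = b2 De + (x - De) = x + ζ`, `x = D.raw π ds ω`:  `x.T = T_1 ω`, `x.Te = T_De` (time of `D.labAt De ω`), `x.be = β_De(T_De) - k̄ T_De`, `x.K = K_De - k̄`.
 `t_a = x.ta s a = nmRep s a T_1 ∈ (T_1 - s^a, T_1]`,   `R_a = x.Ra s q a = nmRep s (b a) x.be` (constant cut: `Rraw = be`, `kraw = 0`, `ka = 0`).
 MARKS (quadratic): `th = (T_De - t_a) / s^a`, `r = (x.be - R_a) / s^(b a) ∈ [0, 1)`, `k = 0`.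
 j0 = `D.gt j`, e0 = `D.gt De` (`|j0 - j|, |e0 - De| ≤ t`; `e0 = 1` if `De = 1`).   For `Conn j0 1 ρ ω`, `lam = lab j0 ρ`, `T_j = lam.T`:
 (A) on `(j0, e0)`:  `|lam.beAt T_De - β_De(T_De)| ≤ s^(min (b2 j0) (b2 e0) - t)`,   `|lam.K - K_De| ≤ s^(min (b2 j0 - j0) (b2 e0 - e0) - t) = s^(b2 e0 - e0 - t)`  (`x ↦ b2 x - x` is decreasing: `q < 1`).
 EXACT IDENTITY:  `lam.beAt T - k̄ T - R_a = s^(b a) (e2B + e2K (T - t_a) / s^a)` for every `T`  (`b a = a + ζ`).   With `T = T_De`:  `r - e2B - e2K th = (β_De(T_De) - lam.beAt T_De) / s^(b a)`.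
 EXPONENTS:  `b2 e0 - b a ≥ De - a - (|q|+1) t`;   `b2 j0 - b a = (De - a) - q (De - j0) ≥ min (De - a) (j - a) - (|q|+1) t`.   So `|r - e2B - e2K th| ≤ s^(gap - (|q|+2) t) ≤ s^(gap / 2)`.
 `|e2K| ≤ (|lam.K - K_De| + |K_De - k̄|) / s^ζ ≤ s^(-(|q|+2) t) + 1`;   `|e2B| ≤ |r| + |e2K| |th| + 1`.
-/

set_option autoImplicit false

namespace Claimed.Agent.R256

open Claimed.Agent.R255
open Claimed.Agent.R255.FLaw (pair)
open Classical

noncomputable section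

/-! ## the root -/

/-- `NmRt.Ok` is monotone in the constant -/
theorem ae2_ok_mono {r : NmRt} {π : SfPar} {Λ Λ' : ℝ} (hπ : π.Valid) (h : r.Ok π Λ) (hΛ : Λ' ≤ Λ) : r.Ok π Λ' := by
  exact NmRt.Ok.mono hπ h hΛ

/-- LEAF L-256-E2-G1.  **the boundary root is admissible.**   `Λ' = max Λ 0 * (2 + |q| + J)`, `x = a - A0 := min (a / 2) (min 1 (1 - (q - J)) * (De - a) / (2 (Λ' + 1)))`, `V := u De + Λ' x`.
Fields: `q`: third alternative of `Fam`;  `rate`: `c = ds.bs = 1`;  `hyb`: `De = 1`, `w = b a + 2 u 1 = a - 1 < 0`;  `brq`: `rfl`;  `brl`: vacuous;  `anc`: by the choice (hybrid: `w(A0, V) = A0 - 1 + 2 Λ' x < 0`: `2 Λ' x ≤ De - a`);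
`cq`: `b a + u De = b1 De + (a - De) < min (b1 a) (b1 De)` (`b1 a = b1 De + (q - J)(a - De)`, `q - J < 1`), the same at `(A0, V)` with the loss `Λ' x < min 1 (1 - (q - J)) (De - A0)`;  `eq`: vacuous. -/
theorem ae2_root_ok (π : SfPar) (hπ : π.Valid) (h1 : π.c2 = 1) (h2 : π.q < 1) (De a Λ : ℝ) (ha : 0 < a) (haD : a < De) (hD1 : De ≤ 1)
    (hh : π.hyb = true → De = 1) : ∃ A0 V : ℝ, ∀ h Rm B : ℝ,
      NmRt.Ok ⟨ae2Q π De, ⟨false, false, A0, V, 0⟩, a, π.u De, h, Rm, B⟩ π Λ := by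
  have hJ := hπ.J0
  have hq0 := abs_nonneg π.q
  obtain ⟨Λ', hΛ'⟩ : ∃ Λ' : ℝ, Λ' = max Λ 0 * (2 + |π.q| + π.J) := ⟨_, rfl⟩
  have hΛ0 : 0 ≤ Λ' := by
    rw [hΛ']
    exact mul_nonneg (le_max_right _ _) (by linarith)
  obtain ⟨m, hm⟩ : ∃ m : ℝ, m = min 1 (1 - (π.q - π.J)) := ⟨_, rfl⟩
  have hm0 : 0 < m := by
    rw [hm]
    exact lt_min one_pos (by linarith)
  have hm1 : m ≤ 1 := hm ▸ min_le_left _ _
  have hm2 : m ≤ 1 - (π.q - π.J) := hm ▸ min_le_right _ _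
  obtain ⟨x, hx⟩ : ∃ x : ℝ, x = min (a / 2) (m * (De - a) / (2 * (Λ' + 1))) := ⟨_, rfl⟩
  have hDa : 0 < De - a := by linarith
  have hx0 : 0 < x := by
    rw [hx]
    exact lt_min (by linarith) (by positivity)
  have hx1 : x ≤ a / 2 := hx ▸ min_le_left _ _
  have hx2 : x ≤ m * (De - a) / (2 * (Λ' + 1)) := hx ▸ min_le_right _ _
  have hK : 2 * (Λ' * x) ≤ m * (De - a) := by
    rw [le_div_iff₀ (by positivity)] at hx2
    nlinarith
  have hmD : 0 < m * (De - a) := mul_pos hm0 hDa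
  have hmD1 : m * (De - a) ≤ De - a := by nlinarith
  have hb1 : ∀ y : ℝ, π.b1 y = π.b2 De + π.u De + (π.q - π.J) * (y - De) := by
    intro y
    unfold SfPar.b1 SfPar.b2 SfPar.u
    ring
  refine ⟨a - x, π.u De + Λ' * x, fun h Rm B => ?_⟩
  refine ⟨?_, rfl, ⟨ha, haD⟩, ?_, ?_, ?_, ?_, ?_, ?_, ?_, ?_⟩
  · refine ⟨le_refl _, ?_, Or.inr (Or.inr ⟨h1, h2, ?_, De, by linarith, hD1, hh, rfl⟩)⟩
    · intro hc
      cases hc
    · intro hc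
      cases hc
  · show 0 ≤ π.J * (1 - De)
    exact mul_nonneg hJ (by linarith)
  · show (0 : ℝ) < if false = true then π.q - π.J else 1
    simp
  · intro hy
    refine ⟨rfl, ?_⟩
    have hD := hh hy
    show π.b2 De + 1 * (a - De) + 2 * π.u De < 0
    rw [hD]
    unfold SfPar.b2 SfPar.u
    linarith
  · intro _
    refine ⟨?_, rfl⟩
    intro hc
    cases hc
  · intro hc
    cases hc
  · intro _
    refine ⟨by show 0 ≤ a - x; linarith, by show a - x < a; linarith, ?_, ?_⟩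
    · show Λ * (1 + (if false = true then π.q - π.J else 1) + |π.q| + π.J) * (a - (a - x)) ≤ π.u De + Λ' * x - π.u De
      simp only [Bool.false_eq_true, if_false]
      have e1 : Λ * (1 + 1 + |π.q| + π.J) ≤ Λ' := by
        rw [hΛ']
        have : 1 + 1 + |π.q| + π.J = 2 + |π.q| + π.J := by ring
        rw [this]
        exact mul_le_mul_of_nonneg_right (le_max_left _ _) (by linarith)
      have := mul_le_mul_of_nonneg_right e1 hx0.le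
      linarith
    · intro hy
      have hD := hh hy
      show π.b2 De + 1 * (a - x - De) + 2 * (π.u De + Λ' * x) < 0
      rw [hD] at hmD1 hK ⊢
      unfold SfPar.b2 SfPar.u
      linarith
  · intro _ _
    constructor
    · show π.b2 De + 1 * (a - De) + π.u De < min (π.b1 a) (π.b1 De)
      rw [hb1 a, hb1 De]
      refine lt_min ?_ ?_
      · nlinarith
      · linarith
    · show π.b2 De + 1 * (a - x - De) + (π.u De + Λ' * x) < min (π.b1 (a - x)) (π.b1 De)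
      rw [hb1 (a - x), hb1 De]
      refine lt_min ?_ ?_
      · have : m * (De - a) ≤ (1 - (π.q - π.J)) * (De - (a - x)) := by
          have t1 : m * (De - a) ≤ (1 - (π.q - π.J)) * (De - a) := mul_le_mul_of_nonneg_right hm2 hDa.le
          have t2 : (1 - (π.q - π.J)) * (De - a) ≤ (1 - (π.q - π.J)) * (De - (a - x)) :=
            mul_le_mul_of_nonneg_left (by linarith) (by linarith)
          linarith
        nlinarith
      · linarith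
  · intro hc
    cases hc

/-! ## the adapter -/

/-- the geometric input of `ltt_main` from `NmGeo` (definitional: the refined side refines the standard one) -/
theorem ae2_geo (D : SfDoc) (π : SfPar) (p : Ae2P) (dsp : ℝ → NmNm → NmNm → ItDsp) (a : ItPar) (pk : ItPk) (acc : ℝ) (hacc : 0 < acc)
    (h : NmGeo (nmTan D π (p.rt π) dsp) a pk acc) (hc : a.c = 1) (hB : a.B0 ≤ (D.s ^ p.h) ^ (-acc)) (hC : (10 : ℝ) ^ 6 ≤ (D.s ^ p.h) ^ (-acc)) :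
    (ae2Tan D π p dsp).LtGeo (D.e2Z π p) a pk.K acc ∧ ∀ l ∈ pk.Lam, (ae2Tan D π p dsp).LtDsp a pk.K acc l := by
  have hside : ∀ ω ω' : D.Row 1, D.e2Z π p ω = D.e2Z π p ω' →
      D.side π (ae2Q π p.De) (p.rt π).σ p.a ω = D.side π (ae2Q π p.De) (p.rt π).σ p.a ω' := fun ω ω' e => congrArg Prod.fst e
  refine ⟨⟨h.small.1, h.small.2.2, rfl, hc, hacc, hB, hC, fun ω ω' e => ?_, fun ω ω' e => ?_, h.bdF, h.bdM⟩, fun l hl => ⟨fun ω ω' e1 e2 => ?_, h.tg.dsp l hl⟩⟩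
  · show D.cst π (p.rt π) (D.side π (ae2Q π p.De) (p.rt π).σ p.a ω) = D.cst π (p.rt π) (D.side π (ae2Q π p.De) (p.rt π).σ p.a ω')
    rw [hside ω ω' e]
  · show D.fst π (p.rt π) (D.side π (ae2Q π p.De) (p.rt π).σ p.a ω) = D.fst π (p.rt π) (D.side π (ae2Q π p.De) (p.rt π).σ p.a ω')
    rw [hside ω ω' e]
  · have e1' : (D.nm π (ae2Q π p.De) (p.a + l * p.h) (π.u p.De) ω, D.cs π (p.rt π) ω) = (D.nm π (ae2Q π p.De) (p.a + l * p.h) (π.u p.De) ω', D.cs π (p.rt π) ω') := e1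
    show dsp l (D.nm π (ae2Q π p.De) (p.a + l * p.h) (π.u p.De) ω) (D.cs π (p.rt π) ω) = dsp l (D.nm π (ae2Q π p.De) (p.a + l * p.h) (π.u p.De) ω') (D.cs π (p.rt π) ω')
    obtain ⟨e3, e4⟩ := Prod.mk.inj e1'
    exact congrArg₂ (dsp l) e3 e4

/-! ## the line -/

/-- small tolerance for `ae2_line_core` -/
theorem ae2_g2x_small (g e q m : ℝ) (hg : 0 < g) (he : 0 < e) (hm : 0 < m) : ∃ t0 : ℝ, 0 < t0 ∧ t0 ≤ m ∧ (|q| + 3) * t0 ≤ g / 2 ∧ (|q| + 3) * t0 ≤ e / 2 ∧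
    ∀ s : ℝ, 0 < s → s ≤ t0 → s < 1 ∧ (10 : ℝ) ≤ s ^ (-(e / 2)) := by
  obtain ⟨s1, hs1, H1⟩ := lay_s0 (e / 2) (by positivity)
  have hq : 0 < |q| + 3 := by positivity
  refine ⟨min (min m (min (1 / 2) (s1 / 2))) (min (g / 2 / (|q| + 3)) (e / 2 / (|q| + 3))), by positivity,
    (min_le_left _ _).trans (min_le_left _ _), ?_, ?_, fun s h0 hs => ?_⟩
  · have := (min_le_right (min m (min (1 / 2) (s1 / 2))) (min (g / 2 / (|q| + 3)) (e / 2 / (|q| + 3)))).trans (min_le_left _ _)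
    rw [le_div_iff₀ hq] at this
    linarith
  · have := (min_le_right (min m (min (1 / 2) (s1 / 2))) (min (g / 2 / (|q| + 3)) (e / 2 / (|q| + 3)))).trans (min_le_right _ _)
    rw [le_div_iff₀ hq] at this
    linarith
  · have a0 : s ≤ min (1 / 2) (s1 / 2) := hs.trans ((min_le_left _ _).trans (min_le_right _ _))
    have a1 : s ≤ 1 / 2 := a0.trans (min_le_left _ _)
    have a2 : s ≤ s1 / 2 := a0.trans (min_le_right _ _)
    exact ⟨by linarith, H1 s h0 (by linarith)⟩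

/-- real arithmetic of `ae2_line_core` -/
theorem ae2_g2x_real {sa sz G M Y r th Bv Kv dK dk db : ℝ} (hsa : 0 < sa) (hsz : 0 < sz) (hG1 : G ≤ 1) (hM : 1 ≤ M) (hY : 10 * M ≤ Y)
    (hKv : Kv = (dK + dk) / sz) (hdK : |dK| ≤ sz * M) (hdk : |dk| ≤ sz) (hr : |r| ≤ 1) (hth : |th| ≤ 2)
    (hline : r - Bv - Kv * th = db / (sa * sz)) (hdb : |db| ≤ sa * sz * G) :
    |Kv| ≤ Y ∧ |Bv| ≤ Y ∧ |r - Bv - Kv * th| ≤ G := by
  have k1 : |Kv| ≤ M + 1 := by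
    rw [hKv, abs_div, abs_of_pos hsz, div_le_iff₀ hsz]
    have := abs_add_le dK dk
    nlinarith
  have l1 : |r - Bv - Kv * th| ≤ G := by
    rw [hline, abs_div, abs_of_pos (mul_pos hsa hsz), div_le_iff₀ (mul_pos hsa hsz)]
    linarith
  have p1 : |Kv * th| ≤ (M + 1) * 2 := by
    rw [abs_mul]
    exact mul_le_mul k1 hth (abs_nonneg _) (by linarith)
  refine ⟨by linarith, ?_, l1⟩
  rw [abs_le] at hr l1 p1 ⊢
  constructor <;> linarith [hr.1, hr.2, l1.1, l1.2, p1.1, p1.2]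

/-- LEAF L-256-E2-G2.  **the actual marks lie on the line of every connected label of the gate near `j`** (classical AND hybrid).   Derivation: header.   `e` = allowed loss. -/
theorem ae2_line_core (π : SfPar) (hπ : π.Valid) (h1 : π.c2 = 1) (h2 : π.q < 1) (C0 τ κ0 Λ : ℝ) (p : Ae2P) (hp : p.Ok π Λ) (e : ℝ) (he : 0 < e) :
    ∃ t0 : ℝ, 0 < t0 ∧ ∀ D : SfDoc, D.Fine π C0 τ κ0 t0 → ∀ (ρ : D.Row (D.gt p.j)) (ω : D.Row 1), D.Conn (D.gt p.j) 1 ρ ω →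
      (p.De < 1 → ∃ ρ', D.Conn (D.gt p.j) (D.gt p.De) ρ ρ' ∧ D.Conn (D.gt p.De) 1 ρ' ω ∧ D.labAt p.De ω = D.lab (D.gt p.De) ρ') →
      |D.e2K π p.De (D.lab (D.gt p.j) ρ) ω| ≤ D.s ^ (-e) ∧ |D.e2B π p.De p.a (D.lab (D.gt p.j) ρ) ω| ≤ D.s ^ (-e) ∧
      |((D.raw π (nmDsStr π p.De) ω).mark D.s π (ae2Q π p.De) p.a true).th| ≤ 2 ∧
      |((D.raw π (nmDsStr π p.De) ω).mark D.s π (ae2Q π p.De) p.a true).r| ≤ 2 ∧
      ((D.raw π (nmDsStr π p.De) ω).mark D.s π (ae2Q π p.De) p.a true).k = 0 ∧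
      |((D.raw π (nmDsStr π p.De) ω).mark D.s π (ae2Q π p.De) p.a true).r - D.e2B π p.De p.a (D.lab (D.gt p.j) ρ) ω
        - D.e2K π p.De (D.lab (D.gt p.j) ρ) ω * ((D.raw π (nmDsStr π p.De) ω).mark D.s π (ae2Q π p.De) p.a true).th| ≤ D.s ^ (p.gap π / 2) := by
  have hh := hp.h0
  have hgap := hp.hgap
  have hg0 : 0 < p.gap π := by linarith
  obtain ⟨m, hm0, hm⟩ : ∃ m : ℝ, 0 < m ∧ (p.De < 1 → m ≤ (1 - p.De) / 2) := by
    by_cases h : p.De < 1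
    · exact ⟨(1 - p.De) / 2, by linarith, fun _ => le_rfl⟩
    · exact ⟨1, one_pos, fun h' => absurd h' h⟩
  obtain ⟨t, ht, htm, htg, hte, Hs⟩ := ae2_g2x_small (p.gap π) e π.q m hg0 he hm0
  refine ⟨t, ht, fun D hD ρ ω hω hpath => ?_⟩
  have hcore := hD.ok.core
  have hs0 : 0 < D.s := hcore.hs.1
  obtain ⟨hs1, hs10⟩ := Hs D.s hs0 hD.sm
  have ha0 : 0 < p.a := hp.root.ha.1
  have g1 : p.gap π ≤ p.j - p.a := min_le_left _ _
  have g2 : p.gap π ≤ p.De - p.j := (min_le_right _ _).trans (min_le_left _ _)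
  have hD1 := hp.hD1
  have hne : D.G.Nonempty := ⟨1, hcore.gate.1⟩
  have hjG : D.gt p.j ∈ D.G := nm_gt_mem D hne p.j
  have heG : D.gt p.De ∈ D.G := nm_gt_mem D hne p.De
  have nj := abs_le.1 (nm_gt_near hD (i := p.j) (by linarith) (by linarith))
  have ne := abs_le.1 (nm_gt_near hD (i := p.De) (by linarith) (by linarith))
  have h3t : 3 * t ≤ p.gap π / 2 := by
    have := mul_nonneg (abs_nonneg π.q) ht.le
    linarith
  have hj1 : D.gt p.j < 1 := by linarith [nj.2]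
  obtain ⟨lam, hlam⟩ : ∃ lam : SfTest, lam = D.lab (D.gt p.j) ρ := ⟨_, rfl⟩
  obtain ⟨lE, hlE⟩ : ∃ lE : SfTest, lE = D.labAt p.De ω := ⟨_, rfl⟩
  -- the comparison with the label at `De`
  have F : |lam.beAt lE.T - lE.be| ≤ D.s ^ (min (π.b2 (D.gt p.j)) (π.b2 (D.gt p.De)) - t) ∧
      |lam.K - lE.K| ≤ D.s ^ (min (π.b2 (D.gt p.j) - D.gt p.j) (π.b2 (D.gt p.De) - D.gt p.De) - t) ∧
      0 ≤ D.T 1 ω - lE.T ∧ D.T 1 ω - lE.T ≤ D.s ^ p.a := by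
    rcases eq_or_lt_of_le hD1 with hDe | hDe
    · have e0 : D.gt p.De = 1 := by rw [hDe]; exact nm_gt_self D hcore.gate.1
      have e1 : lE = D.lab 1 ω := by rw [hlE, hDe, nm_labAt_one]
      obtain ⟨A1, A2, -⟩ := hD.ok.aff.cmpA _ hjG 1 hcore.gate.1 hj1 ρ ω hω
      have eT : D.T 1 ω = lE.T := by rw [e1]; rfl
      rw [e0, hlam, e1]
      refine ⟨A1, A2, ?_, ?_⟩
      · rw [eT, e1]; linarith
      · rw [eT, e1, sub_self]; exact (Real.rpow_pos_of_pos hs0 _).le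
    · obtain ⟨ρ', c1, c2, c3⟩ := hpath hDe
      have hje : D.gt p.j < D.gt p.De := by linarith [nj.2, ne.1]
      have he1 : D.gt p.De < 1 := by linarith [ne.2, hm hDe]
      obtain ⟨A1, A2, -⟩ := hD.ok.aff.cmpA _ hjG _ heG hje ρ ρ' c1
      have e1 : lE = D.lab (D.gt p.De) ρ' := by rw [hlE, c3]
      have eT : D.T (D.gt p.De) ρ' = lE.T := by rw [e1]; rfl
      obtain ⟨n1, n2, n3⟩ := lay_near D π C0 t _ 1 hcore heG hcore.gate.1 he1 ρ' ω c2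
      rw [eT] at A1 n1 n2
      rw [← e1, ← hlam] at A1 A2
      refine ⟨A1, A2, n1, ?_⟩
      have r2 : D.s ^ (D.gt p.De - t) ≤ D.s ^ p.a := Real.rpow_le_rpow_of_exponent_ge hs0 hs1.le (by linarith [ne.1])
      linarith
  obtain ⟨F1, F2, F3, F4⟩ := F
  -- the frame
  obtain ⟨ζ, hζ⟩ : ∃ ζ : ℝ, ζ = π.b2 p.De - p.De := ⟨_, rfl⟩
  have hba : (nmDsStr π p.De).b p.a = p.a + ζ := by
    rw [hζ]; unfold NmDs.b nmDsStr; ring
  obtain ⟨kb, hkb⟩ : ∃ kb : ℝ, kb = D.kbar π (nmDsStr π p.De) ω := ⟨_, rfl⟩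
  obtain ⟨ta, hta⟩ : ∃ ta : ℝ, ta = (D.raw π (nmDsStr π p.De) ω).ta D.s p.a := ⟨_, rfl⟩
  obtain ⟨Ra, hRa⟩ : ∃ Ra : ℝ, Ra = (D.raw π (nmDsStr π p.De) ω).Ra D.s (ae2Q π p.De) p.a := ⟨_, rfl⟩
  have hsa : 0 < D.s ^ p.a := Real.rpow_pos_of_pos hs0 _
  have hsz : 0 < D.s ^ ζ := Real.rpow_pos_of_pos hs0 _
  have hka : (D.raw π (nmDsStr π p.De) ω).ka D.s (ae2Q π p.De) p.a = 0 := nm_rep_zero _ _
  have ebe : (D.raw π (nmDsStr π p.De) ω).be = lE.be - kb * lE.T := by rw [hlE, hkb]; rfl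
  have eth : ((D.raw π (nmDsStr π p.De) ω).mark D.s π (ae2Q π p.De) p.a true).th = (lE.T - ta) / D.s ^ p.a := by
    rw [hlE, hta]; rfl
  have er : ((D.raw π (nmDsStr π p.De) ω).mark D.s π (ae2Q π p.De) p.a true).r = (lE.be - kb * lE.T - Ra) / (D.s ^ p.a * D.s ^ ζ) := by
    have : ((D.raw π (nmDsStr π p.De) ω).mark D.s π (ae2Q π p.De) p.a true).r
        = ((D.raw π (nmDsStr π p.De) ω).be - ((D.raw π (nmDsStr π p.De) ω).Ra D.s (ae2Q π p.De) p.a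
          + ((D.raw π (nmDsStr π p.De) ω).Te - (D.raw π (nmDsStr π p.De) ω).ta D.s p.a) * (D.raw π (nmDsStr π p.De) ω).ka D.s (ae2Q π p.De) p.a))
            / D.s ^ ((nmDsStr π p.De).b p.a) := rfl
    rw [this, hka, mul_zero, add_zero, ebe, ← hRa, hba, Real.rpow_add hs0]
  have ek : ((D.raw π (nmDsStr π p.De) ω).mark D.s π (ae2Q π p.De) p.a true).k = 0 := by
    show ((D.raw π (nmDsStr π p.De) ω).kraw (ae2Q π p.De) - (D.raw π (nmDsStr π p.De) ω).ka D.s (ae2Q π p.De) p.a) * _ = 0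
    rw [hka]
    have : (D.raw π (nmDsStr π p.De) ω).kraw (ae2Q π p.De) = 0 := rfl
    rw [this, sub_zero, zero_mul]
  have eK : D.e2K π p.De lam ω = ((lam.K - lE.K) + (lE.K - kb)) / D.s ^ ζ := by
    unfold SfDoc.e2K
    rw [← hkb, ← hζ]
    congr 1
    ring
  have eB : D.e2B π p.De p.a lam ω = (lam.beAt ta - kb * ta - Ra) / (D.s ^ p.a * D.s ^ ζ) := by
    unfold SfDoc.e2B
    rw [← hkb, ← hta, ← hRa, hba, Real.rpow_add hs0]
  rw [← hlam, eth, er, ek]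
  -- bounds
  have bth : |(lE.T - ta) / D.s ^ p.a| ≤ 2 := by
    have r1 : |D.T 1 ω - ta| ≤ D.s ^ p.a := by
      rw [hta]; exact nm_rep_abs hs0 hs1 p.a (D.T 1 ω)
    rw [abs_div, abs_of_pos hsa, div_le_iff₀ hsa]
    rw [abs_le] at r1 ⊢
    constructor <;> linarith [r1.1, r1.2]
  have br : |(lE.be - kb * lE.T - Ra) / (D.s ^ p.a * D.s ^ ζ)| ≤ 1 := by
    rw [abs_div, abs_of_pos (mul_pos hsa hsz), div_le_one (mul_pos hsa hsz), ← Real.rpow_add hs0, ← hba, ← ebe, hRa]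
    exact nm_rep_abs hs0 hs1 _ _
  have bk : |lE.K - kb| ≤ D.s ^ ζ := by
    have : kb = nmRep D.s (π.b2 p.De - p.De) lE.K := by rw [hkb, hlE]; rfl
    rw [this, hζ]
    exact nm_rep_abs hs0 hs1 _ _
  have hq1 : 1 - π.q ≤ |π.q| + 1 := by linarith [neg_abs_le π.q]
  have hq0 : 0 < 1 - π.q := by linarith
  have hqt : (1 - π.q) * t ≤ (|π.q| + 1) * t := mul_le_mul_of_nonneg_right hq1 ht.le
  have hqa : 0 ≤ |π.q| * t := mul_nonneg (abs_nonneg π.q) ht.le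
  have E2 : ζ + -(e / 2) ≤ min (π.b2 (D.gt p.j) - D.gt p.j) (π.b2 (D.gt p.De) - D.gt p.De) - t := by
    have e1 : ∀ y : ℝ, π.b2 y - y - ζ = (1 - π.q) * (p.De - y) := fun y => by rw [hζ]; unfold SfPar.b2; ring
    have f1 : 0 ≤ (1 - π.q) * (p.De - D.gt p.j) := mul_nonneg hq0.le (by linarith [nj.2])
    have f2 : (1 - π.q) * (-t) ≤ (1 - π.q) * (p.De - D.gt p.De) := mul_le_mul_of_nonneg_left (by linarith [ne.2]) hq0.le
    have := e1 (D.gt p.j)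
    have := e1 (D.gt p.De)
    rw [le_sub_iff_add_le, le_min_iff]
    constructor <;> linarith
  have E1 : p.a + ζ + p.gap π / 2 ≤ min (π.b2 (D.gt p.j)) (π.b2 (D.gt p.De)) - t := by
    have e1 : ∀ y : ℝ, π.b2 y - (p.a + ζ) = (1 - π.q) * (p.De - y) + (y - p.a) := fun y => by rw [hζ]; unfold SfPar.b2; ring
    have f1 : 0 ≤ (1 - π.q) * (p.De - D.gt p.j) := mul_nonneg hq0.le (by linarith [nj.2])
    have f2 : (1 - π.q) * (-t) ≤ (1 - π.q) * (p.De - D.gt p.De) := mul_le_mul_of_nonneg_left (by linarith [ne.2]) hq0.le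
    have := e1 (D.gt p.j)
    have := e1 (D.gt p.De)
    rw [le_sub_iff_add_le, le_min_iff]
    constructor <;> linarith [nj.1, ne.1]
  have B1 : |lE.be - lam.beAt lE.T| ≤ D.s ^ p.a * D.s ^ ζ * D.s ^ (p.gap π / 2) := by
    rw [abs_sub_comm, ← Real.rpow_add hs0, ← Real.rpow_add hs0]
    exact F1.trans (Real.rpow_le_rpow_of_exponent_ge hs0 hs1.le E1)
  have B2 : |lam.K - lE.K| ≤ D.s ^ ζ * D.s ^ (-(e / 2)) := by
    rw [← Real.rpow_add hs0]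
    exact F2.trans (Real.rpow_le_rpow_of_exponent_ge hs0 hs1.le E2)
  have hY : 10 * D.s ^ (-(e / 2)) ≤ D.s ^ (-e) := by
    have e' : D.s ^ (-e) = D.s ^ (-(e / 2)) * D.s ^ (-(e / 2)) := by rw [← Real.rpow_add hs0]; congr 1; ring
    rw [e']
    exact mul_le_mul_of_nonneg_right hs10 (by linarith)
  have hG1 : D.s ^ (p.gap π / 2) ≤ 1 := Real.rpow_le_one hs0.le hs1.le (by linarith)
  have hline : (lE.be - kb * lE.T - Ra) / (D.s ^ p.a * D.s ^ ζ) - D.e2B π p.De p.a lam ω - D.e2K π p.De lam ω * ((lE.T - ta) / D.s ^ p.a)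
      = (lE.be - lam.beAt lE.T) / (D.s ^ p.a * D.s ^ ζ) := by
    rw [eB, eK]
    unfold SfTest.beAt
    field_simp
    ring
  obtain ⟨R1, R2, R3⟩ := ae2_g2x_real hsa hsz hG1 (by linarith : (1 : ℝ) ≤ D.s ^ (-(e / 2))) hY eK B2 bk br bth hline B1
  exact ⟨R1, R2, bth, br.trans (by norm_num), rfl, R3⟩

/-- classical: a charged final row has its rows at the gates near `j` and `De`, connected to each other; the encountered labels are their labels   (`clPath`, `split`, `nm_conn_uniq`, `nm_labAt_eq`; `t0 < (1 - De) / 2` if `De < 1`, `t0 < (De - j) / 4`) -/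
theorem ae2_cl_path (π : SfPar) (hπ : π.Valid) (hc : π.hyb = false) (C0 τ κ0 Λ : ℝ) (p : Ae2P) (hp : p.Ok π Λ) :
    ∃ t0 : ℝ, 0 < t0 ∧ ∀ D : SfDoc, D.Fine π C0 τ κ0 t0 → ∀ ω : D.Row 1, (D.P 1).p ω ≠ 0 →
      ∃ ρ : D.Row (D.gt p.j), D.Conn (D.gt p.j) 1 ρ ω ∧ D.labAt p.j ω = D.lab (D.gt p.j) ρ ∧
        (p.De < 1 → ∃ ρ', D.Conn (D.gt p.j) (D.gt p.De) ρ ρ' ∧ D.Conn (D.gt p.De) 1 ρ' ω ∧ D.labAt p.De ω = D.lab (D.gt p.De) ρ') := by
  have hΔ : 0 < p.De - p.j := by linarith [hp.hjD]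
  have ha0 : 0 < p.a := hp.root.ha.1
  have hj0' : 0 < p.j := by linarith [hp.haj]
  have hD1 := hp.hD1
  have hx : 0 < if p.De < 1 then (1 - p.De) / 2 else 1 := by
    split_ifs with h
    · linarith
    · exact one_pos
  obtain ⟨t0, ht0, T1, T2⟩ : ∃ t0 : ℝ, 0 < t0 ∧ t0 ≤ (p.De - p.j) / 4 ∧ (p.De < 1 → t0 ≤ (1 - p.De) / 2) :=
    ⟨min ((p.De - p.j) / 4) (if p.De < 1 then (1 - p.De) / 2 else 1), lt_min (by linarith) hx, min_le_left _ _,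
      fun h => (min_le_right _ _).trans (by rw [if_pos h])⟩
  refine ⟨t0, ht0, ?_⟩
  intro D hD ω hω
  have hcore := hD.ok.core
  have hne : D.G.Nonempty := ⟨1, hcore.gate.1⟩
  have hjG : D.gt p.j ∈ D.G := nm_gt_mem D hne _
  have heG : D.gt p.De ∈ D.G := nm_gt_mem D hne _
  obtain ⟨nj1, nj2⟩ := abs_le.1 (nm_gt_near hD hj0'.le (by linarith : p.j ≤ 1))
  obtain ⟨ne1, ne2⟩ := abs_le.1 (nm_gt_near hD (by linarith : 0 ≤ p.De) hD1)
  have hje : D.gt p.j < D.gt p.De := by linarith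
  have hj1 : D.gt p.j < 1 := lt_of_lt_of_le hje (hcore.gate.2 _ heG).2
  have hω' : 0 < (D.P 1).p ω := lt_of_le_of_ne ((D.P 1).nonneg ω) (Ne.symm hω)
  obtain ⟨ρ, hρ, -⟩ := hcore.clPath hc _ hjG 1 hcore.gate.1 hj1 ω hω'
  refine ⟨ρ, hρ, nm_labAt_eq hcore hc (by linarith) hj1 hρ, fun hDe => ?_⟩
  have he1 : D.gt p.De < 1 := by linarith [T2 hDe]
  obtain ⟨ρ', h3, h4⟩ := hcore.split _ hjG _ heG 1 hcore.gate.1 hje he1 ρ ω hρ
  exact ⟨ρ', h3, h4, nm_labAt_eq hcore hc hDe.ne he1 h4⟩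

/-- numerics of `ae2_line`: small scale -/
theorem ae2_g3_small (h tl : ℝ) (hh : 0 < h) (htl : 0 < tl) : ∃ t0 : ℝ, 0 < t0 ∧ ∀ s : ℝ, 0 < s → s ≤ t0 →
    s < 1 ∧ s ^ h ≤ 1 / 10 ∧ (2 : ℝ) ≤ s ^ (-(h * tl / 2)) := by
  obtain ⟨s1, hs1, H1⟩ := lay_s0 h hh
  obtain ⟨s2, hs2, H2⟩ := lay_s0 (h * tl / 2) (by positivity)
  refine ⟨min (1 / 2) (min (s1 / 2) (s2 / 2)), by positivity, fun s h0 hs => ?_⟩
  have a1 : s ≤ 1 / 2 := hs.trans (min_le_left _ _)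
  have a2 : s ≤ s1 / 2 := hs.trans ((min_le_right _ _).trans (min_le_left _ _))
  have a3 : s ≤ s2 / 2 := hs.trans ((min_le_right _ _).trans (min_le_right _ _))
  refine ⟨by linarith, ?_, ?_⟩
  · have := H1 s h0 (by linarith)
    rw [Real.rpow_neg h0.le] at this
    have hp : 0 < s ^ h := Real.rpow_pos_of_pos h0 _
    rw [le_div_iff₀ (by norm_num)]
    have h3 : s ^ h * (s ^ h)⁻¹ = 1 := mul_inv_cancel₀ hp.ne'
    nlinarith
  · have := H2 s h0 (by linarith)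
    linarith

/-- real arithmetic of `ae2_line` -/
theorem ae2_g3_arith {r th Bv Kv r' th' b' k' e1 e2 e3 M : ℝ} (h0 : |r - Bv - Kv * th| ≤ e1) (hr : |r' - r| ≤ e2) (hth : |th' - th| ≤ e2)
    (hb : |b' - Bv| ≤ e3) (hk : |k' - Kv| ≤ e3) (hM : |k'| ≤ M) (ht2 : |th| ≤ 2) :
    |r' - b' - k' * th'| ≤ e1 + e2 + e3 + M * e2 + 2 * e3 := by
  have e : r' - b' - k' * th' = (r - Bv - Kv * th) + (r' - r) - (b' - Bv) - k' * (th' - th) - (k' - Kv) * th := by ring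
  have p1 : |k' * (th' - th)| ≤ M * e2 := by
    rw [abs_mul]
    exact mul_le_mul hM hth (abs_nonneg _) ((abs_nonneg _).trans hM)
  have p2 : |(k' - Kv) * th| ≤ 2 * e3 := by
    rw [abs_mul, mul_comm]
    exact mul_le_mul ht2 hk (abs_nonneg _) (by norm_num)
  rw [e]
  rw [abs_le] at *
  constructor <;> linarith [h0.1, h0.2, hr.1, hr.2, hb.1, hb.2, p1.1, p1.2, p2.1, p2.2]

/-- LEAF L-256-E2-G3.  **(s-line) for the tangent datum**, classical.   `ae2_cl_path`, `ae2_line_core` with `e = h tl / 2`.   The stored mark: `|th|, |r|, |k| ≤ 2 ≤ B` so `D.smk = ⟨trep δ Rm th, trep δ Rm r, 0⟩`, `|trep δ R x - x| ≤ δ^R` (`δ = s^h`);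
`be = trep δ 30 e2B`, `ka = trep δ 30 e2K`.   Total error `s^(gap/2) + δ^Rm (1 + |ka|) + δ^30 (1 + 2) ≤ δ^200 + 2 δ^(130 - tl) + 3 δ^30 ≤ δ^(10 - tl)` (`gap ≥ 400 h`; `δ ≤ 1/10` from `D.s ≤ t0`).   `hA`: `pr True = 1`. -/
theorem ae2_line (π : SfPar) (hπ : π.Valid) (h1 : π.c2 = 1) (h2 : π.q < 1) (hc : π.hyb = false) (C0 τ κ0 Λ : ℝ) (p : Ae2P) (hp : p.Ok π Λ)
    (tl : ℝ) (htl : 0 < tl) : ∃ t0 : ℝ, 0 < t0 ∧ ∀ D : SfDoc, D.Fine π C0 τ κ0 t0 → ∀ dsp : ℝ → NmNm → NmNm → ItDsp,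
      (ae2Tan D π p dsp).LtLine (fun _ => True) (D.e2Z π p) (ae2Be (D.s ^ p.h)) (ae2Ka (D.s ^ p.h)) tl := by
  obtain ⟨t1, ht1, H1⟩ := ae2_cl_path π hπ hc C0 τ κ0 Λ p hp
  obtain ⟨t2, ht2, H2⟩ := ae2_line_core π hπ h1 h2 C0 τ κ0 Λ p hp (p.h * tl / 2) (by have := hp.h0; positivity)
  obtain ⟨t3, ht3, H3⟩ := ae2_g3_small p.h tl hp.h0 htl
  refine ⟨min t1 (min t2 t3), by positivity, fun D hD dsp => ?_⟩
  have hD1 : D.Fine π C0 τ κ0 t1 := nm_pro_fine_mono hD (min_le_left _ _) le_rfl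
  have hD2 : D.Fine π C0 τ κ0 t2 := nm_pro_fine_mono hD ((min_le_right _ _).trans (min_le_left _ _)) le_rfl
  have hs0 : 0 < D.s := hD.ok.core.hs.1
  obtain ⟨hs1, hδ10, hs2⟩ := H3 D.s hs0 (hD.sm.trans ((min_le_right _ _).trans (min_le_right _ _)))
  obtain ⟨δ, hδ⟩ : ∃ δ : ℝ, δ = D.s ^ p.h := ⟨_, rfl⟩
  have hδ0 : 0 < δ := by rw [hδ]; exact Real.rpow_pos_of_pos hs0 _
  have hδ1 : δ < 1 := by rw [hδ]; linarith
  have hh := hp.h0
  -- powers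
  have hpw : ∀ x : ℝ, δ ^ x = D.s ^ (p.h * x) := fun x => by rw [hδ, ← Real.rpow_mul hs0.le]
  have hanti : ∀ x y : ℝ, y ≤ x → δ ^ x ≤ δ ^ y := fun x y h => Real.rpow_le_rpow_of_exponent_ge hδ0 hδ1.le h
  have hM : D.s ^ (-(p.h * tl / 2)) + 1 ≤ δ ^ (-tl) := by
    have e : δ ^ (-tl) = D.s ^ (-(p.h * tl / 2)) * D.s ^ (-(p.h * tl / 2)) := by
      rw [hpw, ← Real.rpow_add hs0]; congr 1; ring
    rw [e]
    nlinarith
  -- the pointwise facts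
  have key : ∀ ω : D.Row 1, (D.P 1).p ω ≠ 0 →
      |trep δ 30 (D.e2B π p.De p.a (D.labAt p.j ω) ω)| ≤ δ ^ (-tl) ∧ |trep δ 30 (D.e2K π p.De (D.labAt p.j ω) ω)| ≤ δ ^ (-tl) ∧
      |(D.smk π (p.rt π) ω).r - trep δ 30 (D.e2B π p.De p.a (D.labAt p.j ω) ω)
        - trep δ 30 (D.e2K π p.De (D.labAt p.j ω) ω) * (D.smk π (p.rt π) ω).th| ≤ δ ^ (10 - tl) := by
    intro ω hω
    obtain ⟨ρ, hρ, hlab, hpath⟩ := H1 D hD1 ω hω
    obtain ⟨c1, c2, c3, c4, c5, c6⟩ := H2 D hD2 ρ ω hρ hpath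
    rw [← hlab] at c1 c2 c6
    obtain ⟨μ, hμ⟩ : ∃ μ : ItMk, μ = (D.raw π (nmDsStr π p.De) ω).mark D.s π (ae2Q π p.De) p.a true := ⟨_, rfl⟩
    rw [← hμ] at c3 c4 c5 c6
    have hsm : D.smk π (p.rt π) ω = ⟨trep δ p.Rm μ.th, trep δ p.Rm μ.r, trep δ p.Rm μ.k⟩ := by
      have e : D.smk π (p.rt π) ω = nmStore δ p.Rm p.B μ := by rw [hμ, hδ]; rfl
      rw [e]
      unfold nmStore
      rw [if_pos]
      have := hp.hB
      refine ⟨by linarith, by linarith, ?_⟩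
      rw [c5, abs_zero]; linarith
    have b1 : |trep δ 30 (D.e2B π p.De p.a (D.labAt p.j ω) ω)| ≤ δ ^ (-tl) :=
      ((ltm_aux_trep_abs _ _ _).trans (by linarith)).trans hM
    have b2 : |trep δ 30 (D.e2K π p.De (D.labAt p.j ω) ω)| ≤ δ ^ (-tl) :=
      ((ltm_aux_trep_abs _ _ _).trans (by linarith)).trans hM
    refine ⟨b1, b2, ?_⟩
    rw [hsm]
    have hRm : (0 : ℝ) ≤ p.Rm := by have := hp.hRm; linarith
    have d1 : |trep δ p.Rm μ.r - μ.r| ≤ δ ^ p.Rm := by rw [abs_sub_comm]; exact ltmo_trep_dist hδ0 hδ1 hRm _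
    have d2 : |trep δ p.Rm μ.th - μ.th| ≤ δ ^ p.Rm := by rw [abs_sub_comm]; exact ltmo_trep_dist hδ0 hδ1 hRm _
    have d3 : |trep δ 30 (D.e2B π p.De p.a (D.labAt p.j ω) ω) - D.e2B π p.De p.a (D.labAt p.j ω) ω| ≤ δ ^ (30 : ℝ) := by
      rw [abs_sub_comm]; exact ltmo_trep_dist hδ0 hδ1 (by norm_num) _
    have d4 : |trep δ 30 (D.e2K π p.De (D.labAt p.j ω) ω) - D.e2K π p.De (D.labAt p.j ω) ω| ≤ δ ^ (30 : ℝ) := by
      rw [abs_sub_comm]; exact ltmo_trep_dist hδ0 hδ1 (by norm_num) _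
    have tot := ae2_g3_arith c6 d1 d2 d3 d4 b2 c3
    refine tot.trans ?_
    -- numerics
    obtain ⟨W, hW⟩ : ∃ W : ℝ, W = δ ^ (30 - tl) := ⟨_, rfl⟩
    have hW0 : 0 < W := by rw [hW]; exact Real.rpow_pos_of_pos hδ0 _
    have n1 : D.s ^ (p.gap π / 2) ≤ W := by
      rw [hW, hpw]
      apply Real.rpow_le_rpow_of_exponent_ge hs0 hs1.le
      have := hp.hgap
      nlinarith
    have n2 : δ ^ p.Rm ≤ W := by rw [hW]; exact hanti _ _ (by have := hp.hRm; linarith)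
    have n3 : δ ^ (30 : ℝ) ≤ W := by rw [hW]; exact hanti _ _ (by linarith)
    have n4 : δ ^ (-tl) * δ ^ p.Rm ≤ W := by
      rw [hW, ← Real.rpow_add hδ0]; exact hanti _ _ (by have := hp.hRm; linarith)
    have n5 : 6 * W ≤ δ ^ (10 - tl) := by
      have e : W = δ ^ (20 : ℝ) * δ ^ (10 - tl) := by rw [hW, ← Real.rpow_add hδ0]; congr 1; ring
      have f : δ ^ (20 : ℝ) ≤ 1 / 10 := by
        calc δ ^ (20 : ℝ) ≤ δ ^ (1 : ℝ) := hanti _ _ (by norm_num)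
          _ = δ := Real.rpow_one _
          _ ≤ 1 / 10 := by rw [hδ]; exact hδ10
      have g : 0 < δ ^ (10 - tl) := Real.rpow_pos_of_pos hδ0 _
      rw [e]
      nlinarith
    linarith
  rw [← hδ]
  refine ⟨?_, fun ω hω _ => ?_, fun ω hω _ => ?_⟩
  · have : (ae2Tan D π p dsp).P.pr (fun _ => True) = 1 := ent_pr_true _
    rw [this]; exact one_pos
  · have := key ω hω
    have e1 : (ae2Tan D π p dsp).δ = δ := hδ.symm
    rw [e1]
    have e2 := ae2_tan_be D π p ω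
    have e3 := ae2_tan_ka D π p ω
    rw [← hδ] at e2 e3
    rw [e2, e3]
    exact ⟨this.1, this.2.1⟩
  · have := key ω hω
    have e1 : (ae2Tan D π p dsp).δ = δ := hδ.symm
    rw [e1]
    have e2 := ae2_tan_be D π p ω
    have e3 := ae2_tan_ka D π p ω
    rw [← hδ] at e2 e3
    rw [e2, e3]
    exact this.2.2

/-! ## prediction from the prefix gates -/

/-- numbers within `δ^100` of a known one have at most `3` cells of depth `30` -/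
theorem ae2_g4_cells {δ : ℝ} (h0 : 0 < δ) (h1 : δ ≤ 1 / 10) (c : ℝ) :
    ∃ S : Finset ℤ, (S.card : ℝ) ≤ 3 ∧ ∀ x : ℝ, |x - c| ≤ δ ^ (100 : ℝ) → tcell δ 30 x ∈ S := by
  obtain ⟨M, hM⟩ : ∃ M : ℝ, M = 2 ^ (tlev δ 30) := ⟨_, rfl⟩
  have hM0 : 0 < M := by rw [hM]; positivity
  obtain ⟨R, hR⟩ : ∃ R : ℝ, R = δ ^ (100 : ℝ) := ⟨_, rfl⟩
  have hR0 : 0 < R := by rw [hR]; exact Real.rpow_pos_of_pos h0 _
  have hRM : R * M ≤ 1 / 2 := by
    have a1 : M ≤ 2 * δ ^ (-(30 : ℝ)) := by rw [hM]; exact ig_pow_lev_le δ 30 h0 (by linarith) (by norm_num)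
    have a2 : R * δ ^ (-(30 : ℝ)) = δ ^ (70 : ℝ) := by rw [hR, ← Real.rpow_add h0]; norm_num
    have a3 : δ ^ (70 : ℝ) ≤ 1 / 10 := by
      calc δ ^ (70 : ℝ) ≤ δ ^ (1 : ℝ) := Real.rpow_le_rpow_of_exponent_ge h0 (by linarith) (by norm_num)
        _ = δ := Real.rpow_one _
        _ ≤ 1 / 10 := h1
    have a4 := mul_le_mul_of_nonneg_left a1 hR0.le
    have a5 : R * (2 * δ ^ (-(30 : ℝ))) = 2 * (R * δ ^ (-(30 : ℝ))) := by ring
    rw [a5, a2] at a4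
    linarith
  rw [← hR]
  refine ⟨Finset.Icc ⌊(c - R) * M⌋ ⌊(c + R) * M⌋, ?_, fun x hx => ?_⟩
  · rw [Int.card_Icc]
    have hle : ⌊(c - R) * M⌋ ≤ ⌊(c + R) * M⌋ := Int.floor_le_floor (by nlinarith)
    have e : (((⌊(c + R) * M⌋ + 1 - ⌊(c - R) * M⌋).toNat : ℕ) : ℝ) = ((⌊(c + R) * M⌋ + 1 - ⌊(c - R) * M⌋ : ℤ) : ℝ) := by
      exact_mod_cast congrArg (fun z : ℤ => (z : ℝ)) (Int.toNat_of_nonneg (by omega))
    rw [e]
    push_cast
    have f1 := Int.floor_le ((c + R) * M)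
    have f2 := Int.lt_floor_add_one ((c - R) * M)
    nlinarith
  · rw [abs_le] at hx
    unfold tcell
    rw [← hM, Finset.mem_Icc]
    constructor
    · exact Int.floor_le_floor (mul_le_mul_of_nonneg_right (by linarith [hx.1]) hM0.le)
    · exact Int.floor_le_floor (mul_le_mul_of_nonneg_right (by linarith [hx.2]) hM0.le)

/-- real arithmetic of `ae2_bin_pr` -/
theorem ae2_g4_real {sa sz W b1 K1 dT : ℝ} (hsa : 0 < sa) (hsz : 0 < sz) (hW : 0 ≤ W) (hb : |b1| ≤ sa * sz * W) (hK : |K1| ≤ sz * W)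
    (hT : |dT| ≤ 2 * sa) : |K1 / sz| ≤ W ∧ |(b1 + dT * K1) / (sa * sz)| ≤ 3 * W := by
  constructor
  · rw [abs_div, abs_of_pos hsz, div_le_iff₀ hsz]; linarith
  · rw [abs_div, abs_of_pos (mul_pos hsa hsz), div_le_iff₀ (mul_pos hsa hsz)]
    have p : |dT * K1| ≤ 2 * sa * (sz * W) := by
      rw [abs_mul]
      exact mul_le_mul hT hK (abs_nonneg _) (by positivity)
    have := abs_add_le b1 (dT * K1)
    nlinarith

/-- small tolerance for `ae2_bin_pr` -/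
theorem ae2_g4_small (h q : ℝ) (hh : 0 < h) : ∃ t0 : ℝ, 0 < t0 ∧ t0 ≤ h ∧ (|q| + 3) * t0 ≤ h ∧ ∀ s : ℝ, 0 < s → s ≤ t0 → s < 1 ∧ s ^ h ≤ 1 / 10 := by
  obtain ⟨t3, ht3, H3⟩ := ae2_g3_small h 1 hh one_pos
  have hq : 0 < |q| + 3 := by positivity
  refine ⟨min t3 (h / (|q| + 3)), by positivity, ?_, ?_, fun s h0 hs => ?_⟩
  · refine (min_le_right _ _).trans ?_
    rw [div_le_iff₀ hq]
    nlinarith [abs_nonneg q]
  · have := min_le_right t3 (h / (|q| + 3))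
    rw [le_div_iff₀ hq] at this
    linarith
  · obtain ⟨a, b, -⟩ := H3 s h0 (hs.trans (min_le_left _ _))
    exact ⟨a, b⟩

/-- LEAF L-256-E2-G4.  **a row of a prefix gate and the standard side list the bins of the line** (06 l.527-545), classical.   `i0 = D.gt i`, `ρ : Row i0`, `Conn i0 1 ρ ω`, `ω` charged.   `split` + `nm_conn_uniq`: `Conn i0 j0 ρ ρ_j`, `D.labAt j ω = lab j0 ρ_j`.
(A) on `(i0, j0)`:  `|K_i - K_j| ≤ s^(b2 j0 - j0 - t)`, `b2 j0 - j0 - ζ = (1 - q)(De - j0)`;   `|β_i(T_j) - β_j(T_j)| ≤ s^(min (b2 i0) (b2 j0) - t)`, `min (b2 i0) (b2 j0) - b a ≥ gap - (|q|+1) t` (as in the header, `i0 ≥ a - t`);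
`β_j(t_a) - β_i(t_a) = (β_j(T_j) - β_i(T_j)) + (t_a - T_j)(K_j - K_i)`, `|t_a - T_j| ≤ s^a + s^(j0 - t) ≤ 2 s^a`.
So `e2K`, `e2B` of `ω` are within `3 s^(gap - (|q|+3) t) ≤ δ^100` of `(K_i - k̄) / s^ζ`, `(β_i(t_a) - k̄ t_a - R_a) / s^(b a)`, which are functions of `ρ` and of the value `x` of the side (`k̄`: `nm_kbar_val`, entry `kb`; `t_a`: entry `tc a`; `R_a`: entry `Rc`).
A number within `δ^100` of a known one has `≤ 3` cells `tcell δ 30`. -/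
theorem ae2_bin_pr (π : SfPar) (hπ : π.Valid) (h1 : π.c2 = 1) (h2 : π.q < 1) (hc : π.hyb = false) (C0 τ κ0 Λ : ℝ) (p : Ae2P) (hp : p.Ok π Λ)
    (i : ℝ) (hi : p.a ≤ i) (hi' : i ≤ p.a + 6 * p.h) :
    ∃ t0 : ℝ, 0 < t0 ∧ ∀ D : SfDoc, D.Fine π C0 τ κ0 t0 → ∀ (ρ : D.Row (D.gt i)) (x : NmZv D.Idx), ∃ S : Finset (ℤ × ℤ), (S.card : ℝ) ≤ 9 ∧
      ∀ ω : D.Row 1, D.Conn (D.gt i) 1 ρ ω → (D.P 1).p ω ≠ 0 → D.side π (ae2Q π p.De) (p.rt π).σ p.a ω = x → D.e2bin π p ω ∈ S := by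
  obtain ⟨t, ht, hth, htq, Hs⟩ := ae2_g4_small p.h π.q hp.h0
  refine ⟨t, ht, fun D hD ρ x => ?_⟩
  have hcore := hD.ok.core
  have hs0 : 0 < D.s := hcore.hs.1
  obtain ⟨hs1, hδ10⟩ := Hs D.s hs0 hD.sm
  have hh := hp.h0
  have ha0 : 0 < p.a := hp.root.ha.1
  have hgap := hp.hgap
  have g1 : p.gap π ≤ p.j - p.a := min_le_left _ _
  have g2 : p.gap π ≤ p.De - p.j := (min_le_right _ _).trans (min_le_left _ _)
  have g3 : p.gap π ≤ (1 - π.q) * (p.De - p.j) := (min_le_right _ _).trans (min_le_right _ _)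
  have hD1 := hp.hD1
  have hne : D.G.Nonempty := ⟨1, hcore.gate.1⟩
  have hiG : D.gt i ∈ D.G := nm_gt_mem D hne i
  have hjG : D.gt p.j ∈ D.G := nm_gt_mem D hne p.j
  have ni := abs_le.1 (nm_gt_near hD (i := i) (by linarith) (by linarith))
  have nj := abs_le.1 (nm_gt_near hD (i := p.j) (by linarith) (by linarith))
  have hij : D.gt i < D.gt p.j := by linarith [ni.2, nj.1]
  have hj1 : D.gt p.j < 1 := by linarith [nj.2]
  obtain ⟨δ, hδ⟩ : ∃ δ : ℝ, δ = D.s ^ p.h := ⟨_, rfl⟩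
  have hδ0 : 0 < δ := by rw [hδ]; exact Real.rpow_pos_of_pos hs0 _
  have hδ1 : δ ≤ 1 / 10 := by rw [hδ]; exact hδ10
  -- the known numbers
  obtain ⟨kb, hkb⟩ : ∃ kb : ℝ, kb = nmVal D.s (π.b2 p.De - p.De) x.2.1.1 := ⟨_, rfl⟩
  obtain ⟨ta, hta⟩ : ∃ ta : ℝ, ta = nmVal D.s p.a x.2.1.2.2 := ⟨_, rfl⟩
  obtain ⟨Ra, hRa⟩ : ∃ Ra : ℝ, Ra = nmVal D.s ((nmDsStr π p.De).b p.a) x.2.2.1 := ⟨_, rfl⟩
  obtain ⟨SB, hSB, mB⟩ := ae2_g4_cells hδ0 hδ1 (((D.lab (D.gt i) ρ).beAt ta - kb * ta - Ra) / D.s ^ ((nmDsStr π p.De).b p.a))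
  obtain ⟨SK, hSK, mK⟩ := ae2_g4_cells hδ0 hδ1 (((D.lab (D.gt i) ρ).K - kb) / D.s ^ (π.b2 p.De - p.De))
  refine ⟨SB ×ˢ SK, ?_, fun ω hω _ hx => ?_⟩
  · rw [Finset.card_product]
    push_cast
    have : (0 : ℝ) ≤ SB.card := Nat.cast_nonneg _
    have : (0 : ℝ) ≤ SK.card := Nat.cast_nonneg _
    nlinarith
  obtain ⟨ρ', c1, c2⟩ := hcore.split _ hiG _ hjG 1 hcore.gate.1 hij hj1 ρ ω hω
  have hlab : D.labAt p.j ω = D.lab (D.gt p.j) ρ' := nm_labAt_eq hcore hc (by linarith) hj1 c2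
  have ekb : D.kbar π (nmDsStr π p.De) ω = kb := by
    rw [nm_kbar_val, hkb, ← hx]; rfl
  have eta : (D.raw π (nmDsStr π p.De) ω).ta D.s p.a = ta := by
    rw [hta, ← hx]; rfl
  have eRa : (D.raw π (nmDsStr π p.De) ω).Ra D.s (ae2Q π p.De) p.a = Ra := by
    rw [hRa, ← hx]; rfl
  obtain ⟨A1, A2, -⟩ := hD.ok.aff.cmpA _ hiG _ hjG hij ρ ρ' c1
  obtain ⟨lI, hlI⟩ : ∃ lI : SfTest, lI = D.lab (D.gt i) ρ := ⟨_, rfl⟩
  obtain ⟨lJ, hlJ⟩ : ∃ lJ : SfTest, lJ = D.lab (D.gt p.j) ρ' := ⟨_, rfl⟩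
  have eT : D.T (D.gt p.j) ρ' = lJ.T := by rw [hlJ]; rfl
  rw [← hlI, ← hlJ, eT] at A1
  rw [← hlI, ← hlJ] at A2
  rw [← hlI] at mB mK
  -- exponents
  obtain ⟨ζ, hζ⟩ : ∃ ζ : ℝ, ζ = π.b2 p.De - p.De := ⟨_, rfl⟩
  have hba : (nmDsStr π p.De).b p.a = p.a + ζ := by
    rw [hζ]; unfold NmDs.b nmDsStr; ring
  obtain ⟨W, hW⟩ : ∃ W : ℝ, W = D.s ^ (399 * p.h) := ⟨_, rfl⟩
  have hW0 : 0 < W := by rw [hW]; exact Real.rpow_pos_of_pos hs0 _
  have hq1 : 1 - π.q ≤ |π.q| + 1 := by linarith [neg_abs_le π.q]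
  have hq0 : 0 < 1 - π.q := by linarith
  have hqt : (1 - π.q) * t ≤ (|π.q| + 1) * t := mul_le_mul_of_nonneg_right hq1 ht.le
  have h3t : 3 * t ≤ p.h := by
    have := mul_nonneg (abs_nonneg π.q) ht.le
    linarith
  have E2 : ζ + 399 * p.h ≤ min (π.b2 (D.gt i) - D.gt i) (π.b2 (D.gt p.j) - D.gt p.j) - t := by
    have e1 : ∀ y : ℝ, π.b2 y - y - ζ = (1 - π.q) * (p.De - y) := fun y => by rw [hζ]; unfold SfPar.b2; ring
    have f1 : (1 - π.q) * (p.De - p.j) - (1 - π.q) * t ≤ (1 - π.q) * (p.De - D.gt p.j) := by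
      have : (1 - π.q) * (p.De - p.j - t) ≤ (1 - π.q) * (p.De - D.gt p.j) := mul_le_mul_of_nonneg_left (by linarith [nj.2]) hq0.le
      linarith
    have f2 : (1 - π.q) * (p.De - D.gt p.j) ≤ (1 - π.q) * (p.De - D.gt i) := mul_le_mul_of_nonneg_left (by linarith) hq0.le
    have := e1 (D.gt i)
    have := e1 (D.gt p.j)
    rw [le_sub_iff_add_le, le_min_iff]
    constructor <;> linarith
  have E1 : p.a + ζ + 399 * p.h ≤ min (π.b2 (D.gt i)) (π.b2 (D.gt p.j)) - t := by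
    have e1 : ∀ y : ℝ, π.b2 y - (p.a + ζ) = (1 - π.q) * (p.De - y) + (y - p.a) := fun y => by rw [hζ]; unfold SfPar.b2; ring
    have f1 : 0 ≤ (1 - π.q) * (p.De - D.gt p.j) := mul_nonneg hq0.le (by linarith [nj.2])
    have f2 : (1 - π.q) * (p.De - p.j) ≤ (1 - π.q) * (p.De - D.gt i) := mul_le_mul_of_nonneg_left (by linarith [ni.2]) hq0.le
    have := e1 (D.gt i)
    have := e1 (D.gt p.j)
    rw [le_sub_iff_add_le, le_min_iff]
    constructor <;> linarith [ni.1, nj.1]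
  have B1 : |lJ.be - lI.beAt lJ.T| ≤ D.s ^ p.a * D.s ^ ζ * W := by
    rw [abs_sub_comm, hW, ← Real.rpow_add hs0, ← Real.rpow_add hs0]
    exact A1.trans (Real.rpow_le_rpow_of_exponent_ge hs0 hs1.le E1)
  have B2 : |lJ.K - lI.K| ≤ D.s ^ ζ * W := by
    rw [abs_sub_comm, hW, ← Real.rpow_add hs0]
    exact A2.trans (Real.rpow_le_rpow_of_exponent_ge hs0 hs1.le E2)
  -- times
  have B3 : |ta - lJ.T| ≤ 2 * D.s ^ p.a := by
    obtain ⟨n1, n2, n3⟩ := lay_near D π C0 t _ 1 hcore hjG hcore.gate.1 hj1 ρ' ω c2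
    rw [eT] at n1 n2
    have r1 : |D.T 1 ω - ta| ≤ D.s ^ p.a := by
      rw [← eta]; exact nm_rep_abs hs0 hs1 p.a (D.T 1 ω)
    have r2 : D.s ^ (D.gt p.j - t) ≤ D.s ^ p.a := Real.rpow_le_rpow_of_exponent_ge hs0 hs1.le (by linarith [nj.1])
    rw [abs_le] at r1 ⊢
    constructor <;> linarith [r1.1, r1.2]
  obtain ⟨R1, R2⟩ := ae2_g4_real (Real.rpow_pos_of_pos hs0 p.a) (Real.rpow_pos_of_pos hs0 ζ) hW0.le B1 B2 B3
  have hWδ : 3 * W ≤ δ ^ (100 : ℝ) := by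
    have e : W = δ ^ (299 : ℝ) * δ ^ (100 : ℝ) := by
      rw [hW, ← Real.rpow_add hδ0, hδ, ← Real.rpow_mul hs0.le]; congr 1; ring
    have f : δ ^ (299 : ℝ) ≤ 1 / 10 := by
      calc δ ^ (299 : ℝ) ≤ δ ^ (1 : ℝ) := Real.rpow_le_rpow_of_exponent_ge hδ0 (by linarith) (by norm_num)
        _ = δ := Real.rpow_one _
        _ ≤ 1 / 10 := hδ1
    have g : 0 < δ ^ (100 : ℝ) := Real.rpow_pos_of_pos hδ0 _
    have fg := mul_le_mul_of_nonneg_right f g.le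
    rw [e]
    linarith
  have eB : D.e2B π p.De p.a (D.labAt p.j ω) ω - (lI.beAt ta - kb * ta - Ra) / D.s ^ ((nmDsStr π p.De).b p.a)
      = ((lJ.be - lI.beAt lJ.T) + (ta - lJ.T) * (lJ.K - lI.K)) / (D.s ^ p.a * D.s ^ ζ) := by
    unfold SfDoc.e2B
    rw [ekb, eta, eRa, hlab, ← hlJ, hba, Real.rpow_add hs0, ← sub_div]
    congr 1
    unfold SfTest.beAt
    ring
  have eK : D.e2K π p.De (D.labAt p.j ω) ω - (lI.K - kb) / D.s ^ (π.b2 p.De - p.De) = (lJ.K - lI.K) / D.s ^ ζ := by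
    unfold SfDoc.e2K
    rw [ekb, hlab, ← hlJ, ← hζ, ← sub_div]
    congr 1
    ring
  unfold SfDoc.e2bin
  rw [← hδ, Finset.mem_product]
  refine ⟨mB _ ?_, mK _ ?_⟩
  · rw [eB]; exact R2.trans hWδ
  · rw [eK]; exact R1.trans (by linarith)

/-- a constant is absorbed by a negative power of a small scale -/
theorem ae2_th_aux_small (K e : ℝ) (hK : 0 < K) (he : 0 < e) : ∃ t0 : ℝ, 0 < t0 ∧ ∀ s : ℝ, 0 < s → s ≤ t0 → K ≤ s ^ (-e) := by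
  refine ⟨K ^ (-(1 / e)), Real.rpow_pos_of_pos hK _, fun s hs hst => ?_⟩
  have h1 : (K ^ (-(1 / e))) ^ (-e) ≤ s ^ (-e) := Real.rpow_le_rpow_of_nonpos hs hst (by linarith)
  rw [← Real.rpow_mul hK.le] at h1
  have h2 : -(1 / e) * -e = 1 := by field_simp
  rwa [h2, Real.rpow_one] at h1

theorem ae2_th_aux_tc (δ q y : ℝ) : tcell δ q y = ⌊y / msh δ q⌋ := by
  unfold tcell msh
  rw [div_div_eq_mul_div, div_one]

/-- a number and its cell -/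
theorem ae2_th_aux_cell (δ q y : ℝ) : (tcell δ q y : ℝ) * msh δ q ≤ y ∧ y < ((tcell δ q y : ℝ) + 1) * msh δ q := by
  have hm := ig_msh_pos δ q
  rw [ae2_th_aux_tc]
  exact ⟨(le_div_iff₀ hm).1 (Int.floor_le _), (div_lt_iff₀ hm).1 (Int.lt_floor_add_one _)⟩

theorem ae2_th_aux_trep (δ q y : ℝ) : trep δ q y = (tcell δ q y : ℝ) * msh δ q := by
  unfold trep msh
  rw [mul_one_div]

/-- cells of stored numbers in a window -/
theorem ae2_th_aux_cells {δ : ℝ} (h0 : 0 < δ) (h1 : δ < 1) {q : ℝ} (hq : 0 ≤ q) (Rm c R : ℝ) (hR : 0 ≤ R) (hqR : q ≤ Rm) :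
    ∃ S : Finset ℤ, (S.card : ℝ) ≤ 4 * R * δ ^ (-q) + 6 ∧ ∀ y : ℝ, |y - c| ≤ R → tcell δ q (trep δ Rm y) ∈ S := by
  have hm := ig_msh_pos δ q
  have hmR : msh δ Rm ≤ msh δ q := ig_msh_anti δ q Rm h0 h1 hqR
  obtain ⟨hfin, hcard⟩ := lay_floor_count {z : ℝ | |z - c| ≤ R + msh δ q} c (R + msh δ q) (msh δ q) hm (by linarith) (fun z hz => hz)
  refine ⟨hfin.toFinset, ?_, fun y hy => ?_⟩
  · rw [← Set.ncard_eq_toFinset_card _ hfin]
    refine hcard.trans ?_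
    have h2 : δ ^ q ≤ 2 * msh δ q := ig_le_msh δ q h0 h1 hq
    have h3 : 1 / msh δ q ≤ 2 * δ ^ (-q) := by
      rw [Real.rpow_neg h0.le, div_le_iff₀ hm]
      have hd : 0 < δ ^ q := Real.rpow_pos_of_pos h0 q
      have h7 : 2 * (δ ^ q)⁻¹ * msh δ q = (2 * msh δ q) / δ ^ q := by
        field_simp
      rw [h7, le_div_iff₀ hd]
      linarith
    have h4 : 2 * (R + msh δ q) / msh δ q + 2 = 2 * R * (1 / msh δ q) + 4 := by
      field_simp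
      ring
    rw [h4]
    have := mul_le_mul_of_nonneg_left h3 (by linarith : 0 ≤ 2 * R)
    linarith
  · rw [Set.Finite.mem_toFinset, ae2_th_aux_tc]
    refine ⟨trep δ Rm y, ?_, rfl⟩
    have h5 := ae2_th_aux_cell δ Rm y
    rw [← ae2_th_aux_trep] at h5
    have h6 : y < trep δ Rm y + msh δ Rm := by
      have := h5.2
      rw [add_mul, one_mul, ← ae2_th_aux_trep] at this
      exact this
    show |trep δ Rm y - c| ≤ R + msh δ q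
    rw [abs_le] at hy ⊢
    constructor <;> linarith [hy.1, hy.2, h5.1]

/-- **the time window**: the time of the label met at `De` is within `s^(a + u h - 2 t)` of the time of every row of the gate near `a + u h` connected to the (charged) final row -/
theorem ae2_th_aux_win (π : SfPar) (hc : π.hyb = false) (C0 τ κ0 Λ : ℝ) (p : Ae2P) (hp : p.Ok π Λ) (u : ℝ) (hu : 0 ≤ u) (hu6 : u ≤ 6)
    (t : ℝ) (ht1 : t ≤ p.h) (ht2 : p.De < 1 → t ≤ (1 - p.De) / 2) (D : SfDoc) (hD : D.Fine π C0 τ κ0 t)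
    (ρ : D.Row (D.gt (p.a + u * p.h))) (ω : D.Row 1) (hcn : D.Conn (D.gt (p.a + u * p.h)) 1 ρ ω) (hω : (D.P 1).p ω ≠ 0) :
    |(D.labAt p.De ω).T - D.T (D.gt (p.a + u * p.h)) ρ| ≤ D.s ^ (p.a + u * p.h - 2 * t) ∧
      D.s ^ (p.a + u * p.h + 2 * t) ≤ D.len (D.gt (p.a + u * p.h)) ∧ D.gt (p.a + u * p.h) ∈ D.G := by
  have hC := hD.ok.core
  obtain ⟨hs0, hs1⟩ := hC.hs
  have ht0 := hD.pos
  have ha0 : 0 < p.a := hp.root.ha.1
  have hh0 := hp.h0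
  have hgap : 400 * p.h ≤ p.j - p.a := hp.hgap.trans (min_le_left _ _)
  have hgap2 : 400 * p.h ≤ p.De - p.j := hp.hgap.trans ((min_le_right _ _).trans (min_le_left _ _))
  have huh : u * p.h ≤ 6 * p.h := mul_le_mul_of_nonneg_right hu6 hh0.le
  have huh0 : 0 ≤ u * p.h := mul_nonneg hu hh0.le
  have hD1 := hp.hD1
  have hne : D.G.Nonempty := ⟨1, hC.gate.1⟩
  have hi := nm_gt_mem D hne (p.a + u * p.h)
  have hnear := abs_le.1 (nm_gt_near hD (i := p.a + u * p.h) (by linarith) (by linarith [hp.haj, hp.hjD]))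
  have hi1 : D.gt (p.a + u * p.h) < 1 := by linarith [hnear.2, hp.haj, hp.hjD]
  obtain ⟨b1, b2, -, -⟩ := hC.base _ hi 1 hC.gate.1 hi1 ρ ω hcn
  rw [hC.hlen.1] at b2
  obtain ⟨l1, l2⟩ := hC.hlen.2 _ hi
  have l3 : D.len (D.gt (p.a + u * p.h)) ≤ D.s ^ (p.a + u * p.h - 2 * t) := l2.trans (lay_rpow_anti hs0 hs1 (by linarith [hnear.1]))
  have l4 : D.s ^ (p.a + u * p.h + 2 * t) ≤ D.len (D.gt (p.a + u * p.h)) := le_trans (lay_rpow_anti hs0 hs1 (by linarith [hnear.2])) l1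
  refine ⟨?_, l4, hi⟩
  have hW : 0 < D.s ^ (p.a + u * p.h - 2 * t) := Real.rpow_pos_of_pos hs0 _
  rcases eq_or_lt_of_le hD1 with h1 | h1
  · rw [h1, nm_labAt_one]
    have e : (D.lab 1 ω).T = D.T 1 ω := rfl
    rw [e, abs_le]
    constructor <;> linarith
  · have he := nm_gt_mem D hne p.De
    have hneare := abs_le.1 (nm_gt_near hD (i := p.De) (by linarith [hp.haj, hp.hjD]) hD1)
    have he1 : D.gt p.De < 1 := by linarith [hneare.2, ht2 h1]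
    have hpos : 0 < (D.P 1).p ω := lt_of_le_of_ne ((D.P 1).nonneg ω) (Ne.symm hω)
    obtain ⟨ρe, hce, -⟩ := hC.clPath hc _ he 1 hC.gate.1 he1 ω hpos
    rw [nm_labAt_eq hC hc h1.ne he1 hce]
    obtain ⟨c1, c2, -, -⟩ := hC.base _ he 1 hC.gate.1 he1 ρe ω hce
    rw [hC.hlen.1] at c2
    have m2 := (hC.hlen.2 _ he).2
    have m3 : D.len (D.gt p.De) ≤ D.s ^ (p.a + u * p.h - 2 * t) := m2.trans (lay_rpow_anti hs0 hs1 (by linarith [hneare.1]))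
    have e : (D.lab (D.gt p.De) ρe).T = D.T (D.gt p.De) ρe := rfl
    rw [e, abs_le]
    constructor <;> linarith

/-- the time root is an entry of the side -/
theorem ae2_th_aux_ta (D : SfDoc) (π : SfPar) (p : Ae2P) (ω : D.Row 1) (x : NmZv D.Idx) (hx : D.side π (ae2Q π p.De) (p.rt π).σ p.a ω = x) :
    (D.raw π (nmDsStr π p.De) ω).ta D.s p.a = (x.2.1.2.2 : ℝ) / (2 : ℝ) ^ nmLev D.s p.a := by
  rw [← hx]
  rfl

/-- LEAF L-256-E2-G5.  **a row of the gate near `a + u h` and the side list the time cell of depth `u`.**   `i0 = D.gt (a + u h)`;  `T_i ≤ T_De` and `T_De ≤ T_1 ≤ T_i + len i0` (`base` on `(i0, e0)` resp. `(i0, 1)`; classical path `ae2_cl_path`-type argument, or `De = 1`), `len i0 ≤ s^(a + u h - 2t)`: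
`th = (T_De - t_a) / s^a` lies in an interval of length `s^(u h - 2t)` known from `(ρ, x)`; storing moves it by `δ^Rm`; cells of mesh `≥ δ^u / 2`: at most `2 s^(-2t) + 4 ≤ s^(-acc)` (`lay_floor_count`). -/
theorem ae2_th_pr (π : SfPar) (hπ : π.Valid) (h1 : π.c2 = 1) (h2 : π.q < 1) (hc : π.hyb = false) (C0 τ κ0 Λ : ℝ) (p : Ae2P) (hp : p.Ok π Λ)
    (u : ℝ) (hu : 0 ≤ u) (hu6 : u ≤ 6) (acc : ℝ) (hacc : 0 < acc) :
    ∃ t0 : ℝ, 0 < t0 ∧ ∀ D : SfDoc, D.Fine π C0 τ κ0 t0 → ∀ (ρ : D.Row (D.gt (p.a + u * p.h))) (x : NmZv D.Idx), ∃ S : Finset ℤ,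
      (S.card : ℝ) ≤ D.s ^ (-acc) ∧ ∀ ω : D.Row 1, D.Conn (D.gt (p.a + u * p.h)) 1 ρ ω → (D.P 1).p ω ≠ 0 →
        D.side π (ae2Q π p.De) (p.rt π).σ p.a ω = x → tcell (D.s ^ p.h) u (D.smk π (p.rt π) ω).th ∈ S := by
  obtain ⟨t1, ht1, hsm⟩ := ae2_th_aux_small 11 (acc / 2) (by norm_num) (by positivity)
  obtain ⟨t0, ht0⟩ : ∃ t0 : ℝ, t0 = min (min p.h (acc / 4)) (min t1 (if p.De < 1 then (1 - p.De) / 2 else 1)) := ⟨_, rfl⟩
  have hif : 0 < (if p.De < 1 then (1 - p.De) / 2 else 1 : ℝ) := by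
    split_ifs with h
    · linarith
    · exact one_pos
  have a1 : t0 ≤ p.h := by rw [ht0]; exact (min_le_left _ _).trans (min_le_left _ _)
  have a2 : t0 ≤ acc / 4 := by rw [ht0]; exact (min_le_left _ _).trans (min_le_right _ _)
  have a3 : t0 ≤ t1 := by rw [ht0]; exact (min_le_right _ _).trans (min_le_left _ _)
  have a4 : p.De < 1 → t0 ≤ (1 - p.De) / 2 := by
    intro h
    have : t0 ≤ (if p.De < 1 then (1 - p.De) / 2 else 1 : ℝ) := by rw [ht0]; exact (min_le_right _ _).trans (min_le_right _ _)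
    rwa [if_pos h] at this
  have a0 : 0 < t0 := by
    rw [ht0]
    exact lt_min (lt_min hp.h0 (by positivity)) (lt_min ht1 hif)
  refine ⟨t0, a0, fun D hD ρ x => ?_⟩
  have hC := hD.ok.core
  obtain ⟨hs0, hs1⟩ := hC.hs
  have hδ0 : 0 < D.s ^ p.h := Real.rpow_pos_of_pos hs0 _
  have hδ1 : D.s ^ p.h < 1 := Real.rpow_lt_one hs0.le hs1 hp.h0
  have hsa : 0 < D.s ^ p.a := Real.rpow_pos_of_pos hs0 _
  obtain ⟨S, hS, hmem⟩ := ae2_th_aux_cells hδ0 hδ1 hu p.Rm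
    ((D.T (D.gt (p.a + u * p.h)) ρ - (x.2.1.2.2 : ℝ) / (2 : ℝ) ^ nmLev D.s p.a) / D.s ^ p.a) (D.s ^ (u * p.h - 2 * t0))
    (Real.rpow_pos_of_pos hs0 _).le (by linarith [hp.hRm])
  refine ⟨insert (tcell (D.s ^ p.h) u 0) S, ?_, fun ω hcn hω hx => ?_⟩
  · have c1 : ((insert (tcell (D.s ^ p.h) u 0) S).card : ℝ) ≤ (S.card : ℝ) + 1 := by exact_mod_cast Finset.card_insert_le _ _
    have c2 : D.s ^ (u * p.h - 2 * t0) * (D.s ^ p.h) ^ (-u) = D.s ^ (-(2 * t0)) := by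
      rw [← Real.rpow_mul hs0.le, ← Real.rpow_add hs0]
      congr 1
      ring
    have c3 : D.s ^ (-(2 * t0)) ≤ D.s ^ (-(acc / 2)) := lay_rpow_anti hs0 hs1 (by linarith)
    have c4 : (11 : ℝ) ≤ D.s ^ (-(acc / 2)) := hsm D.s hs0 (hD.sm.trans a3)
    have c5 : D.s ^ (-(acc / 2)) * D.s ^ (-(acc / 2)) = D.s ^ (-acc) := by
      rw [← Real.rpow_add hs0]
      congr 1
      ring
    have c6 : (1 : ℝ) ≤ D.s ^ (-(acc / 2)) := by linarith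
    calc ((insert (tcell (D.s ^ p.h) u 0) S).card : ℝ) ≤ 4 * (D.s ^ (u * p.h - 2 * t0) * (D.s ^ p.h) ^ (-u)) + 7 := by linarith
      _ ≤ 4 * D.s ^ (-(acc / 2)) + 7 * D.s ^ (-(acc / 2)) := by rw [c2]; linarith
      _ = 11 * D.s ^ (-(acc / 2)) := by ring
      _ ≤ D.s ^ (-(acc / 2)) * D.s ^ (-(acc / 2)) := mul_le_mul_of_nonneg_right c4 (by linarith)
      _ = _ := c5
  · obtain ⟨w1, -, -⟩ := ae2_th_aux_win π hc C0 τ κ0 Λ p hp u hu hu6 t0 a1 a4 D hD ρ ω hcn hω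
    have hta := ae2_th_aux_ta D π p ω x hx
    obtain ⟨μ, hμ⟩ : ∃ μ : ItMk, μ = (D.raw π (nmDsStr π p.De) ω).mark D.s π (ae2Q π p.De) p.a true := ⟨_, rfl⟩
    have hsmk : D.smk π (p.rt π) ω = nmStore (D.s ^ p.h) p.Rm p.B μ := by
      rw [hμ]
      rfl
    have hth : μ.th = ((D.labAt p.De ω).T - (x.2.1.2.2 : ℝ) / (2 : ℝ) ^ nmLev D.s p.a) / D.s ^ p.a := by
      rw [hμ, ← hta]
      rfl
    rw [hsmk]
    unfold nmStore
    split_ifs with hb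
    · refine Finset.mem_insert_of_mem (hmem μ.th ?_)
      rw [hth, ← sub_div, abs_div, abs_of_pos hsa, div_le_iff₀ hsa, ← Real.rpow_add hs0]
      refine le_trans (le_of_eq ?_) (w1.trans (le_of_eq ?_))
      · congr 1
        ring
      · congr 1
        ring
    · exact Finset.mem_insert_self _ _

/-- the marks of a charged final row are bounded: nothing is lost by the storing -/
theorem ae2_th_aux_mark (π : SfPar) (hc : π.hyb = false) (C0 τ κ0 Λ : ℝ) (p : Ae2P) (hp : p.Ok π Λ)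
    (t : ℝ) (ht1 : t ≤ p.h) (ht2 : p.De < 1 → t ≤ (1 - p.De) / 2) (D : SfDoc) (hD : D.Fine π C0 τ κ0 t) (ω : D.Row 1) (hω : (D.P 1).p ω ≠ 0) :
    |((D.raw π (nmDsStr π p.De) ω).mark D.s π (ae2Q π p.De) p.a true).th| ≤ 1 ∧
      |((D.raw π (nmDsStr π p.De) ω).mark D.s π (ae2Q π p.De) p.a true).r| ≤ 1 ∧
      ((D.raw π (nmDsStr π p.De) ω).mark D.s π (ae2Q π p.De) p.a true).k = 0 := by
  have hC := hD.ok.core
  obtain ⟨hs0, hs1⟩ := hC.hs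
  have ht0 := hD.pos
  have ha0 : 0 < p.a := hp.root.ha.1
  have hh0 := hp.h0
  have hgap : 400 * p.h ≤ p.j - p.a := hp.hgap.trans (min_le_left _ _)
  have hD1 := hp.hD1
  have hne : D.G.Nonempty := ⟨1, hC.gate.1⟩
  have hsa : 0 < D.s ^ p.a := Real.rpow_pos_of_pos hs0 _
  have hka : (D.raw π (nmDsStr π p.De) ω).ka D.s (ae2Q π p.De) p.a = 0 := nm_rep_zero _ _
  refine ⟨?_, ?_, ?_⟩
  · -- the time
    have hT : D.T 1 ω - D.s ^ p.a ≤ (D.labAt p.De ω).T ∧ (D.labAt p.De ω).T ≤ D.T 1 ω := by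
      rcases eq_or_lt_of_le hD1 with h1 | h1
      · rw [h1, nm_labAt_one]
        have e : (D.lab 1 ω).T = D.T 1 ω := rfl
        rw [e]
        constructor <;> linarith
      · have he := nm_gt_mem D hne p.De
        have hneare := abs_le.1 (nm_gt_near hD (i := p.De) (by linarith [hp.haj, hp.hjD]) hD1)
        have he1 : D.gt p.De < 1 := by linarith [hneare.2, ht2 h1]
        have hpos : 0 < (D.P 1).p ω := lt_of_le_of_ne ((D.P 1).nonneg ω) (Ne.symm hω)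
        obtain ⟨ρe, hce, -⟩ := hC.clPath hc _ he 1 hC.gate.1 he1 ω hpos
        rw [nm_labAt_eq hC hc h1.ne he1 hce]
        obtain ⟨c1, c2, -, -⟩ := hC.base _ he 1 hC.gate.1 he1 ρe ω hce
        rw [hC.hlen.1] at c2
        have m2 := (hC.hlen.2 _ he).2
        have m3 : D.len (D.gt p.De) ≤ D.s ^ p.a := m2.trans (lay_rpow_anti hs0 hs1 (by linarith [hneare.1, hp.hjD]))
        have e : (D.lab (D.gt p.De) ρe).T = D.T (D.gt p.De) ρe := rfl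
        rw [e]
        constructor <;> linarith
    have hrep := abs_le.1 (nm_rep_abs hs0 hs1 p.a (D.T 1 ω))
    have hle := nm_rep_le D.s p.a (D.T 1 ω)
    show |((D.labAt p.De ω).T - nmRep D.s p.a (D.T 1 ω)) / D.s ^ p.a| ≤ 1
    rw [abs_div, abs_of_pos hsa, div_le_one hsa, abs_le]
    constructor <;> linarith [hT.1, hT.2, hrep.1, hrep.2]
  · have hb : 0 < D.s ^ ((ae2Q π p.De).ds.b p.a) := Real.rpow_pos_of_pos hs0 _
    show |((D.raw π (nmDsStr π p.De) ω).be - ((D.raw π (nmDsStr π p.De) ω).Ra D.s (ae2Q π p.De) p.a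
      + ((D.raw π (nmDsStr π p.De) ω).Te - (D.raw π (nmDsStr π p.De) ω).ta D.s p.a) * (D.raw π (nmDsStr π p.De) ω).ka D.s (ae2Q π p.De) p.a))
        / D.s ^ ((ae2Q π p.De).ds.b p.a)| ≤ 1
    rw [hka, mul_zero, add_zero, abs_div, abs_of_pos hb, div_le_one hb]
    exact nm_rep_abs hs0 hs1 _ _
  · show ((D.raw π (nmDsStr π p.De) ω).kraw (ae2Q π p.De) - (D.raw π (nmDsStr π p.De) ω).ka D.s (ae2Q π p.De) p.a) * _ = 0
    rw [hka]
    have : (D.raw π (nmDsStr π p.De) ω).kraw (ae2Q π p.De) = 0 := rfl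
    rw [this, sub_zero, zero_mul]

/-- LEAF L-256-E2-G5.  **the side and the time cell of depth `u` confine the time of every predecessor at the gate near `a + u h`.**   The cell fixes the stored `th` within `δ^u`, hence `T_De = t_a + s^a th` within `2 s^(a + u h)`;
`|T_{i0} ρ' - T_De| ≤ len i0 + len e0 ≤ 2 s^(a + u h - 2t)`; the times of the gate are `len i0 ≥ s^(a + u h + 2t)`-separated (`grid`): `lay_sep_count`, at most `10 s^(-4t) + 1 ≤ s^(-acc)` values. -/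
theorem ae2_th_time (π : SfPar) (hπ : π.Valid) (h1 : π.c2 = 1) (h2 : π.q < 1) (hc : π.hyb = false) (C0 τ κ0 Λ : ℝ) (p : Ae2P) (hp : p.Ok π Λ)
    (u : ℝ) (hu : 0 ≤ u) (hu6 : u ≤ 6) (acc : ℝ) (hacc : 0 < acc) :
    ∃ t0 : ℝ, 0 < t0 ∧ ∀ D : SfDoc, D.Fine π C0 τ κ0 t0 → ∀ (x : NmZv D.Idx) (θ : ℤ), ∃ Lt : Finset ℝ, (Lt.card : ℝ) ≤ D.s ^ (-acc) ∧
      ∀ (ω : D.Row 1) (ρ' : D.Row (D.gt (p.a + u * p.h))), (D.P 1).p ω ≠ 0 → D.side π (ae2Q π p.De) (p.rt π).σ p.a ω = x →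
        tcell (D.s ^ p.h) u (D.smk π (p.rt π) ω).th = θ → D.Conn (D.gt (p.a + u * p.h)) 1 ρ' ω → D.T (D.gt (p.a + u * p.h)) ρ' ∈ Lt := by
  obtain ⟨t1, ht1, hsm⟩ := ae2_th_aux_small 5 (acc / 2) (by norm_num) (by positivity)
  obtain ⟨t0, ht0⟩ : ∃ t0 : ℝ, t0 = min (min p.h (acc / 8)) (min t1 (if p.De < 1 then (1 - p.De) / 2 else 1)) := ⟨_, rfl⟩
  have hif : 0 < (if p.De < 1 then (1 - p.De) / 2 else 1 : ℝ) := by
    split_ifs with h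
    · linarith
    · exact one_pos
  have a1 : t0 ≤ p.h := by rw [ht0]; exact (min_le_left _ _).trans (min_le_left _ _)
  have a2 : t0 ≤ acc / 8 := by rw [ht0]; exact (min_le_left _ _).trans (min_le_right _ _)
  have a3 : t0 ≤ t1 := by rw [ht0]; exact (min_le_right _ _).trans (min_le_left _ _)
  have a4 : p.De < 1 → t0 ≤ (1 - p.De) / 2 := by
    intro h
    have : t0 ≤ (if p.De < 1 then (1 - p.De) / 2 else 1 : ℝ) := by rw [ht0]; exact (min_le_right _ _).trans (min_le_right _ _)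
    rwa [if_pos h] at this
  have a0 : 0 < t0 := by
    rw [ht0]
    exact lt_min (lt_min hp.h0 (by positivity)) (lt_min ht1 hif)
  refine ⟨t0, a0, fun D hD x θ => ?_⟩
  have hC := hD.ok.core
  obtain ⟨hs0, hs1⟩ := hC.hs
  have hδ0 : 0 < D.s ^ p.h := Real.rpow_pos_of_pos hs0 _
  have hδ1 : D.s ^ p.h < 1 := Real.rpow_lt_one hs0.le hs1 hp.h0
  have hsa : 0 < D.s ^ p.a := Real.rpow_pos_of_pos hs0 _
  obtain ⟨W, hW⟩ : ∃ W : ℝ, W = D.s ^ (p.a + u * p.h - 2 * t0) := ⟨_, rfl⟩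
  have hW0 : 0 < W := by rw [hW]; exact Real.rpow_pos_of_pos hs0 _
  obtain ⟨l, hl⟩ : ∃ l : ℝ, l = D.s ^ (p.a + u * p.h + 2 * t0) := ⟨_, rfl⟩
  have hl0 : 0 < l := by rw [hl]; exact Real.rpow_pos_of_pos hs0 _
  obtain ⟨Sset, hSset⟩ : ∃ Sset : Set ℝ, Sset = {T : ℝ | ∃ (ω : D.Row 1) (ρ' : D.Row (D.gt (p.a + u * p.h))), (D.P 1).p ω ≠ 0 ∧
      D.side π (ae2Q π p.De) (p.rt π).σ p.a ω = x ∧ tcell (D.s ^ p.h) u (D.smk π (p.rt π) ω).th = θ ∧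
      D.Conn (D.gt (p.a + u * p.h)) 1 ρ' ω ∧ D.T (D.gt (p.a + u * p.h)) ρ' = T} := ⟨_, rfl⟩
  obtain ⟨x0, hx0⟩ : ∃ x0 : ℝ, x0 = (x.2.1.2.2 : ℝ) / (2 : ℝ) ^ nmLev D.s p.a + D.s ^ p.a * ((θ : ℝ) * msh (D.s ^ p.h) u) - W := ⟨_, rfl⟩
  have hwin : ∀ T ∈ Sset, x0 ≤ T ∧ T ≤ x0 + 4 * W := by
    intro T hT
    rw [hSset] at hT
    obtain ⟨ω, ρ', hω, hx, hθ, hcn, rfl⟩ := hT
    obtain ⟨w1, -, -⟩ := ae2_th_aux_win π hc C0 τ κ0 Λ p hp u hu hu6 t0 a1 a4 D hD ρ' ω hcn hω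
    obtain ⟨k1, k2, k3⟩ := ae2_th_aux_mark π hc C0 τ κ0 Λ p hp t0 a1 a4 D hD ω hω
    have hta := ae2_th_aux_ta D π p ω x hx
    obtain ⟨μ, hμ⟩ : ∃ μ : ItMk, μ = (D.raw π (nmDsStr π p.De) ω).mark D.s π (ae2Q π p.De) p.a true := ⟨_, rfl⟩
    rw [← hμ] at k1 k2 k3
    have hsmk : D.smk π (p.rt π) ω = nmStore (D.s ^ p.h) p.Rm p.B μ := by
      rw [hμ]
      rfl
    have hth : μ.th = ((D.labAt p.De ω).T - (x.2.1.2.2 : ℝ) / (2 : ℝ) ^ nmLev D.s p.a) / D.s ^ p.a := by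
      rw [hμ, ← hta]
      rfl
    have hB := hp.hB
    have hst : (nmStore (D.s ^ p.h) p.Rm p.B μ).th = trep (D.s ^ p.h) p.Rm μ.th := by
      unfold nmStore
      rw [if_pos ⟨by linarith, by linarith, by rw [k3, abs_zero]; linarith⟩]
    rw [hsmk, hst] at hθ
    have g1 := ae2_th_aux_cell (D.s ^ p.h) u (trep (D.s ^ p.h) p.Rm μ.th)
    rw [hθ] at g1
    have g2 := ae2_th_aux_cell (D.s ^ p.h) p.Rm μ.th
    rw [add_mul, one_mul, ← ae2_th_aux_trep] at g2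
    have g3 : msh (D.s ^ p.h) p.Rm ≤ msh (D.s ^ p.h) u := ig_msh_anti _ _ _ hδ0 hδ1 (by linarith [hp.hRm])
    have g4 : msh (D.s ^ p.h) u ≤ (D.s ^ p.h) ^ u := ig_msh_le _ _ hδ0
    have g5 : D.s ^ p.a * (D.s ^ p.h) ^ u ≤ W := by
      rw [hW, ← Real.rpow_mul hs0.le, ← Real.rpow_add hs0]
      exact lay_rpow_anti hs0 hs1 (by nlinarith)
    have g6 : D.s ^ p.a * msh (D.s ^ p.h) u ≤ W := (mul_le_mul_of_nonneg_left g4 hsa.le).trans g5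
    have hTe : (D.labAt p.De ω).T = (x.2.1.2.2 : ℝ) / (2 : ℝ) ^ nmLev D.s p.a + D.s ^ p.a * μ.th := by
      rw [hth]
      field_simp
      ring
    have g7 : D.s ^ p.a * ((θ : ℝ) * msh (D.s ^ p.h) u) ≤ D.s ^ p.a * μ.th := mul_le_mul_of_nonneg_left (by linarith [g1.1, g2.1]) hsa.le
    have g8 : D.s ^ p.a * μ.th ≤ D.s ^ p.a * ((θ : ℝ) * msh (D.s ^ p.h) u + 2 * msh (D.s ^ p.h) u) :=
      mul_le_mul_of_nonneg_left (by linarith [g1.2, g2.2]) hsa.le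
    rw [mul_add] at g8
    rw [← hW] at w1
    rw [abs_le] at w1
    rw [hx0]
    constructor <;> linarith [w1.1, w1.2]
  have hsep : ∀ T ∈ Sset, ∀ T' ∈ Sset, T ≠ T' → l ≤ |T - T'| := by
    intro T hT T' hT' hne
    rw [hSset] at hT hT'
    obtain ⟨ω, ρ', hω, hx, hθ, hcn, rfl⟩ := hT
    obtain ⟨ω2, ρ2, -, -, -, -, rfl⟩ := hT'
    obtain ⟨-, w2, w3⟩ := ae2_th_aux_win π hc C0 τ κ0 Λ p hp u hu hu6 t0 a1 a4 D hD ρ' ω hcn hω
    rw [hl]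
    exact w2.trans (hC.grid _ w3 ρ' ρ2 hne)
  obtain ⟨hfin, hcard⟩ := lay_sep_count Sset x0 (4 * W) l hl0 (by linarith) hwin hsep
  refine ⟨hfin.toFinset, ?_, fun ω ρ' hω hx hθ hcn => ?_⟩
  · rw [← Set.ncard_eq_toFinset_card _ hfin]
    refine hcard.trans ?_
    have c2 : W / l = D.s ^ (-(4 * t0)) := by
      rw [hW, hl, ← Real.rpow_sub hs0]
      congr 1
      ring
    have c3 : D.s ^ (-(4 * t0)) ≤ D.s ^ (-(acc / 2)) := lay_rpow_anti hs0 hs1 (by linarith)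
    have c4 : (5 : ℝ) ≤ D.s ^ (-(acc / 2)) := hsm D.s hs0 (hD.sm.trans a3)
    have c5 : D.s ^ (-(acc / 2)) * D.s ^ (-(acc / 2)) = D.s ^ (-acc) := by
      rw [← Real.rpow_add hs0]
      congr 1
      ring
    calc 4 * W / l + 1 = 4 * (W / l) + 1 := by ring
      _ ≤ 4 * D.s ^ (-(acc / 2)) + 1 * D.s ^ (-(acc / 2)) := by rw [c2]; linarith
      _ = 5 * D.s ^ (-(acc / 2)) := by ring
      _ ≤ D.s ^ (-(acc / 2)) * D.s ^ (-(acc / 2)) := mul_le_mul_of_nonneg_right c4 (by linarith)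
      _ = _ := c5
  · rw [Set.Finite.mem_toFinset, hSset]
    exact ⟨ω, ρ', hω, hx, hθ, hcn, rfl⟩

/-! ## angular cells -/

theorem ae2_xc_floor {a b : ℝ} (h : |a - b| ≤ 3) : ⌊a⌋ ∈ Finset.Icc (⌊b⌋ - 3) (⌊b⌋ + 3) := by
  rw [Finset.mem_Icc]
  have a1 := Int.floor_le a
  have a2 := Int.lt_floor_add_one a
  have b1 := Int.floor_le b
  have b2 := Int.lt_floor_add_one b
  rw [abs_le] at h
  constructor
  · have h3 : ((⌊b⌋ - 4 : ℤ) : ℝ) < ((⌊a⌋ : ℤ) : ℝ) := by push_cast; linarith [h.1]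
    have h' : ⌊b⌋ - 4 < ⌊a⌋ := by exact_mod_cast h3
    omega
  · have h3 : ((⌊a⌋ : ℤ) : ℝ) < ((⌊b⌋ + 4 : ℤ) : ℝ) := by push_cast; linarith [h.2]
    have h' : ⌊a⌋ < ⌊b⌋ + 4 := by exact_mod_cast h3
    omega

theorem ae2_xc_nval {Ω α : Type} [Fintype Ω] (P : FLaw Ω) (A : Ω → α) (f : Ω → ℝ)
    (h : ∀ ω ω', P.p ω ≠ 0 → P.p ω' ≠ 0 → A ω = A ω' → |f ω - f ω'| ≤ 3) :
    P.NVal (fun _ => True) (fun ω => ⌊f ω⌋) A 8 := by
  intro ω₀
  by_cases hex : ∃ ω₁, P.p ω₁ ≠ 0 ∧ A ω₁ = A ω₀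
  · obtain ⟨ω₁, h1, h2⟩ := hex
    refine ⟨Finset.Icc (⌊f ω₁⌋ - 3) (⌊f ω₁⌋ + 3), ?_, fun ω hω _ hA => ae2_xc_floor (h ω ω₁ hω h1 (hA.trans h2.symm))⟩
    rw [Int.card_Icc]
    have h7 : (⌊f ω₁⌋ + 3 + 1 - (⌊f ω₁⌋ - 3)).toNat = 7 := by
      have h8 : ⌊f ω₁⌋ + 3 + 1 - (⌊f ω₁⌋ - 3) = 7 := by ring
      rw [h8]; rfl
    rw [h7]; norm_num
  · exact ⟨∅, by simp, fun ω hω _ hA => absurd ⟨ω, hω, hA⟩ hex⟩

theorem ae2_xc_num1 {X X' xc F F' sv dz ee : ℝ} (hsv : 0 < sv) (h1 : |(X - xc) / sv - F| ≤ ee) (h2 : |(X' - xc) / sv - F'| ≤ ee)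
    (h3 : |X - X'| ≤ sv * dz) (h4 : ee ≤ dz / 4) : |F - F'| ≤ 3 / 2 * dz := by
  have h5 : |(X - X') / sv| ≤ dz := by
    rw [abs_div, abs_of_pos hsv, div_le_iff₀ hsv]; linarith
  have e : (X - xc) / sv - (X' - xc) / sv = (X - X') / sv := by ring
  rw [← e] at h5
  rw [abs_le] at *
  constructor <;> linarith [h1.1, h1.2, h2.1, h2.2, h5.1, h5.2]

theorem ae2_xc_num2 {X X' xc F F' sv dz ee : ℝ} (hsv : 0 < sv) (h1 : |(X - xc) / sv - F| ≤ ee) (h2 : |(X' - xc) / sv - F'| ≤ ee)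
    (h3 : |F - F'| ≤ dz) (h4 : ee ≤ dz / 4) : |X - X'| ≤ 3 / 2 * (sv * dz) := by
  have e : (X - xc) / sv - (X' - xc) / sv = (X - X') / sv := by ring
  have h5 : |(X - X') / sv| ≤ 3 / 2 * dz := by
    rw [← e]
    rw [abs_le] at *
    constructor <;> linarith [h1.1, h1.2, h2.1, h2.2, h3.1, h3.2]
  rw [abs_div, abs_of_pos hsv, div_le_iff₀ hsv] at h5
  linarith

/-- LEAF L-256-E2-G6.  **the angular cell of the common phase and the actual angular cell list each other, given `C_*`.**   `v = u De`, `F = D.fst ..`, `xc = (cs ω).X / 2^(nmLev s v)`; `NmRep.close` (entry `X` of `nmPhDist`): `|((ray 1 ω).X - xc) / s^v - F.X| ≤ s^e`.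
Meshes: `2^(-tlev δ z) ∈ (δ^z / 2, δ^z]`, `2^(-nmLev s (v + z h)) ∈ (s^(v + z h) / 2, s^(v + z h)]`, `δ^z = s^(z h)`.   An interval of length `≤ 3/2` mesh-bounds meets `≤ 5` cells (`lay_floor_count` or directly). -/
theorem ae2_xcell (D : SfDoc) (π : SfPar) (p : Ae2P) (dsp : ℝ → NmNm → NmNm → ItDsp) (K0 e z : ℝ) (hs : 0 < D.s ∧ D.s < 1)
    (hR : NmRep D π (p.rt π) K0 e) (hz : 0 ≤ z) (h0 : 0 < p.h) (hze : D.s ^ e ≤ (D.s ^ p.h) ^ z / 4) :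
    (D.P 1).NVal (fun _ => True) ((ae2Tan D π p dsp).Xn z) (pair (D.Xc (π.u p.De + z * p.h)) (D.cs π (p.rt π))) 8 ∧
    (D.P 1).NVal (fun _ => True) (D.Xc (π.u p.De + z * p.h)) (pair ((ae2Tan D π p dsp).Xn z) (D.cs π (p.rt π))) 8 := by
  obtain ⟨hs0, hs1⟩ := hs
  have hδ0 : 0 < D.s ^ p.h := Real.rpow_pos_of_pos hs0 _
  have hδ1 : D.s ^ p.h < 1 := Real.rpow_lt_one hs0.le hs1 h0
  have hsv : 0 < D.s ^ (π.u p.De) := Real.rpow_pos_of_pos hs0 _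
  have hpw : D.s ^ (π.u p.De + z * p.h) = D.s ^ (π.u p.De) * (D.s ^ p.h) ^ z := by
    rw [Real.rpow_add hs0, ← Real.rpow_mul hs0.le, mul_comm z p.h]
  have key : ∀ ω, (D.P 1).p ω ≠ 0 →
      |((D.ray 1 ω).X - ((D.cs π (p.rt π) ω).X : ℝ) / (2 : ℝ) ^ nmLev D.s (π.u p.De)) / D.s ^ (π.u p.De)
        - (D.fst π (p.rt π) (D.side π (p.rt π).q (p.rt π).σ (p.rt π).a ω)).X| ≤ D.s ^ e := by
    intro ω hω
    refine le_trans ?_ (hR.close ω hω)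
    unfold nmPhDist
    exact le_trans (le_max_left _ _) (le_trans (le_max_left _ _) (le_max_left _ _))
  constructor
  · refine ae2_xc_nval (D.P 1) (pair (D.Xc (π.u p.De + z * p.h)) (D.cs π (p.rt π)))
      (fun ω => (D.fst π (p.rt π) (D.side π (p.rt π).q (p.rt π).σ (p.rt π).a ω)).X * 2 ^ (tlev (D.s ^ p.h) z)) ?_
    intro ω ω' hω hω' hA
    have hA1 : D.Xc (π.u p.De + z * p.h) ω = D.Xc (π.u p.De + z * p.h) ω' := congrArg Prod.fst hA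
    have hA2 : D.cs π (p.rt π) ω = D.cs π (p.rt π) ω' := congrArg Prod.snd hA
    have k1 := key ω hω
    have k2 := key ω' hω'
    rw [← hA2] at k2
    have hX : |(D.ray 1 ω).X - (D.ray 1 ω').X| ≤ D.s ^ (π.u p.De) * (D.s ^ p.h) ^ z := by
      rw [← hpw]
      exact nm_close_of_cell hs0 hs1 hA1
    have hF := ae2_xc_num1 hsv k1 k2 hX hze
    have hm := ig_le_msh (D.s ^ p.h) z hδ0 hδ1 hz
    have hM : (0 : ℝ) < 2 ^ (tlev (D.s ^ p.h) z) := by positivity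
    have hmM : msh (D.s ^ p.h) z * 2 ^ (tlev (D.s ^ p.h) z) = 1 := by
      unfold msh; field_simp
    show |_ * 2 ^ (tlev (D.s ^ p.h) z) - _ * 2 ^ (tlev (D.s ^ p.h) z)| ≤ 3
    rw [← sub_mul, abs_mul, abs_of_pos hM]
    calc _ ≤ (3 / 2 * (2 * msh (D.s ^ p.h) z)) * 2 ^ (tlev (D.s ^ p.h) z) :=
          mul_le_mul_of_nonneg_right (by linarith) hM.le
      _ = 3 * (msh (D.s ^ p.h) z * 2 ^ (tlev (D.s ^ p.h) z)) := by ring
      _ = 3 := by rw [hmM, mul_one]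
  · refine ae2_xc_nval (D.P 1) (pair ((ae2Tan D π p dsp).Xn z) (D.cs π (p.rt π)))
      (fun ω => (D.ray 1 ω).X * (2 : ℝ) ^ nmLev D.s (π.u p.De + z * p.h)) ?_
    intro ω ω' hω hω' hA
    have hA1 : tcell (D.s ^ p.h) z (D.fst π (p.rt π) (D.side π (p.rt π).q (p.rt π).σ (p.rt π).a ω)).X
        = tcell (D.s ^ p.h) z (D.fst π (p.rt π) (D.side π (p.rt π).q (p.rt π).σ (p.rt π).a ω')).X := congrArg Prod.fst hA
    have hA2 : D.cs π (p.rt π) ω = D.cs π (p.rt π) ω' := congrArg Prod.snd hA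
    have k1 := key ω hω
    have k2 := key ω' hω'
    rw [← hA2] at k2
    have c1 := ae2_th_aux_cell (D.s ^ p.h) z (D.fst π (p.rt π) (D.side π (p.rt π).q (p.rt π).σ (p.rt π).a ω)).X
    have c2 := ae2_th_aux_cell (D.s ^ p.h) z (D.fst π (p.rt π) (D.side π (p.rt π).q (p.rt π).σ (p.rt π).a ω')).X
    rw [← hA1] at c2
    have hml := ig_msh_le (D.s ^ p.h) z hδ0
    have hF : |(D.fst π (p.rt π) (D.side π (p.rt π).q (p.rt π).σ (p.rt π).a ω)).X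
        - (D.fst π (p.rt π) (D.side π (p.rt π).q (p.rt π).σ (p.rt π).a ω')).X| ≤ (D.s ^ p.h) ^ z := by
      rw [abs_le]
      constructor <;> nlinarith [c1.1, c1.2, c2.1, c2.2]
    have hX := ae2_xc_num2 hsv k1 k2 hF hze
    rw [← hpw] at hX
    have hw := nm_wd_gt hs0 hs1 (π.u p.De + z * p.h)
    have hM : (0 : ℝ) < (2 : ℝ) ^ nmLev D.s (π.u p.De + z * p.h) := by positivity
    have hmM : nmWd D.s (π.u p.De + z * p.h) * (2 : ℝ) ^ nmLev D.s (π.u p.De + z * p.h) = 1 := by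
      unfold nmWd; field_simp
    show |_ * (2 : ℝ) ^ nmLev D.s (π.u p.De + z * p.h) - _ * (2 : ℝ) ^ nmLev D.s (π.u p.De + z * p.h)| ≤ 3
    rw [← sub_mul, abs_mul, abs_of_pos hM]
    calc _ ≤ (3 / 2 * (2 * nmWd D.s (π.u p.De + z * p.h))) * (2 : ℝ) ^ nmLev D.s (π.u p.De + z * p.h) :=
          mul_le_mul_of_nonneg_right (by linarith) hM.le
      _ = 3 * (nmWd D.s (π.u p.De + z * p.h) * (2 : ℝ) ^ nmLev D.s (π.u p.De + z * p.h)) := by ring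
      _ = 3 := by rw [hmM, mul_one]

end

end Claimed.Agent.R256
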