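import Claimed.Agent.R256.Act.E2.Defs
import Claimed.Agent.R256.Lay.SepKit

/-!
# Row 256, section Act, block E2, file 2: THE PAPER-FREE KIT      (architect helper46; prefix `ae2_`)

Finite laws (`R255/Ent`, `Lay/Sco`, `Lay/Bud`), one `SfDoc.Core` / `SfDoc.Ok` (`Soft/Doc`), real analysis (Mathlib).   Every `sorry` = ONE leaf `L-256-E2-K*`, plan in the docstring, prove IN PLACE, statements verbatim.
* `ae2_count`    causal counting (cyl:time-prediction) with an ARBITRARY conditioning `W`, observed time name `Θ`, end gate `e`:  `tp` on `(i,j)`, `sp` on `(j,e)`.      (also usable for X8 of Nm/MRK)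
* `ae2_sco_swap` scores under mutual lists;   `ae2_mi_read` a listed reading costs `log N`;   `ae2_rowpr_pair` lists of pairs.
* `ae2_extract_one`, `ae2_extract`   segment extraction ending at a gate `e ≤ 1`, bins witnessed by the final row (`lay_extract` for `e < 1`, `mincost` alone for `e = 1`).
* `ae2_num`, `ae2_dini`, `ae2_cnd_true`.
-/

set_option autoImplicit false

namespace Claimed.Agent.R256

open Claimed.Agent.R255
open Claimed.Agent.R255.FLaw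
open Filter Topology MeasureTheory
open Classical

/-- the popular values of `Θ` over one value of `W` -/
theorem ae2_count_pop {Ω : Type} [Fintype Ω] {β γ : Type} (P : FLaw Ω) (W : Ω → β) (Θ : Ω → γ) (Mp : ℝ) (hMp : 0 < Mp) (w : β) :
    ∃ Pop : Finset γ, (Pop.card : ℝ) ≤ Mp ∧ ∀ ω, P.p ω ≠ 0 → W ω = w → P.surC Θ W ω < Real.log Mp → Θ ω ∈ Pop := by
  refine ⟨(Finset.univ.filter (fun ω => P.p ω ≠ 0 ∧ W ω = w ∧ P.surC Θ W ω < Real.log Mp)).image Θ, ?_,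
    fun ω h1 h2 h3 => Finset.mem_image_of_mem _ (Finset.mem_filter.2 ⟨Finset.mem_univ _, h1, h2, h3⟩)⟩
  by_cases hne : ((Finset.univ.filter (fun ω => P.p ω ≠ 0 ∧ W ω = w ∧ P.surC Θ W ω < Real.log Mp)).image Θ).Nonempty
  · obtain ⟨θ0, hθ0⟩ := hne
    obtain ⟨ω0, hω0, -⟩ := Finset.mem_image.1 hθ0
    obtain ⟨-, hp0, hw0, -⟩ := Finset.mem_filter.1 hω0
    have hx : 0 < P.pr (fun ω => W ω = w) := (ent_pr_pos_iff P _).2 ⟨ω0, hw0, hp0⟩
    have key := ent_count P W Θ w ((Finset.univ.filter (fun ω => P.p ω ≠ 0 ∧ W ω = w ∧ P.surC Θ W ω < Real.log Mp)).image Θ)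
      (c := 1 / Mp) (by positivity) hx (by
        intro θ hθ
        obtain ⟨ω, hω, rfl⟩ := Finset.mem_image.1 hθ
        obtain ⟨-, hp, hw, hs⟩ := Finset.mem_filter.1 hω
        have h1 := ent_exp_neg_surC P Θ W hp
        have h2 : 1 / Mp < Real.exp (- P.surC Θ W ω) := by
          rw [← Real.exp_log hMp, one_div, ← Real.exp_neg]
          exact Real.exp_lt_exp.2 (by linarith)
        have hfW : P.fib W ω = P.pr (fun ω' => W ω' = w) := by
          unfold FLaw.fib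
          rw [hw]
        have hfp : P.fib (pair Θ W) ω = P.pr (fun ω' => Θ ω' = Θ ω ∧ W ω' = w) := by
          unfold FLaw.fib
          congr 1
          ext ω'
          simp only [pair, Prod.mk.injEq, hw]
        rw [h1, hfW, hfp, lt_div_iff₀ hx] at h2
        exact h2.le)
    rwa [one_div_one_div] at key
  · rw [Finset.not_nonempty_iff_eq_empty.1 hne]
    simpa using hMp.le

/-- LEAF L-256-E2-K1.  **causal counting.**   `U := {ω | E ω ∧ p ω ≠ 0 ∧ surC Θ W ω < log Mp}` (`pr` sees only charged points).   For a value `w` the set `Pop w` of the `θ` with `P(Θ = θ | W = w) > 1 / Mp` has `< Mp` elements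
(`ent_exp_neg_surC`: `exp (-surC) = fib (pair Θ W) / fib W`; the conditional probabilities of distinct values sum to `≤ 1`).   `U' := {ρ' : Row j | ∃ ω ∈ U, Conn j e ρ' ω}`, `S := {ρ : Row i | ∃ ρ' ∈ U', Conn i j ρ ρ'}`.
Times of the `U'`-rows above `ρ`: `trans` gives `Conn i e ρ ω`, so `W ω` is in the list of `hW` (`≤ N`), `Θ ω ∈ Pop (W ω)` (`≤ Mp`), `T_j ρ' ∈ Lt (W ω) (Θ ω)` (`≤ N'`): `ncard ≤ N N' Mp` (subset of a `Finset.biUnion`).
`tp (i,j)` with `pr S ≤ 1`, then `sp (j,e)` and monotonicity of `x ↦ x^(2/3)`.   Model: proof of `lay_extract_aux` (Lay/SepKit) for the use of `sp`. -/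
theorem ae2_count (D : SfDoc) (π : SfPar) (C0 t i j e : ℝ) (hD : D.Core π C0 t) (hi : i ∈ D.G) (hj : j ∈ D.G) (he : e ∈ D.G)
    (hij : i < j) (hje : j < e) {β γ : Type} (E : D.Row e → Prop) (W : D.Row e → β) (Θ : D.Row e → γ) (N N' Mp : ℝ)
    (hN : 0 ≤ N) (hN' : 0 ≤ N') (hMp : 0 < Mp)
    (hW : ∀ ρ : D.Row i, ∃ S : Finset β, (S.card : ℝ) ≤ N ∧ ∀ ω : D.Row e, D.Conn i e ρ ω → E ω → W ω ∈ S)
    (hΘ : ∀ (w : β) (θ : γ), ∃ Lt : Finset ℝ, (Lt.card : ℝ) ≤ N' ∧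
      ∀ (ω : D.Row e) (ρ' : D.Row j), E ω → W ω = w → Θ ω = θ → D.Conn j e ρ' ω → D.T j ρ' ∈ Lt) :
    (D.P e).pr (fun ω => E ω ∧ (D.P e).surC Θ W ω < Real.log Mp)
      ≤ D.s ^ (-t) * (D.s ^ (-t) * (N * N' * Mp) * D.s ^ (π.d * (j - i)) + D.s ^ (1 / t)) ^ ((2 : ℝ) / 3) + D.s ^ (1 / t) := by
  have hs := hD.hs
  have h0 : (D.P e).pr (fun ω => E ω ∧ (D.P e).surC Θ W ω < Real.log Mp)
      ≤ (D.P e).pr (fun ω => E ω ∧ (D.P e).p ω ≠ 0 ∧ (D.P e).surC Θ W ω < Real.log Mp) :=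
    ent_pr_mono _ (fun ω hp h => ⟨h.1, hp, h.2⟩)
  have hsp := hD.sp j hj e he hje (fun ω => E ω ∧ (D.P e).p ω ≠ 0 ∧ (D.P e).surC Θ W ω < Real.log Mp)
    (fun ρ' => ∃ ω, (E ω ∧ (D.P e).p ω ≠ 0 ∧ (D.P e).surC Θ W ω < Real.log Mp) ∧ D.Conn j e ρ' ω) (fun ω hU ρ' hc => ⟨ω, hU, hc⟩)
  have htp := hD.tp i hi j hj hij (fun ρ' => ∃ ω, (E ω ∧ (D.P e).p ω ≠ 0 ∧ (D.P e).surC Θ W ω < Real.log Mp) ∧ D.Conn j e ρ' ω)
    (fun ρ => ∃ ρ', (∃ ω, (E ω ∧ (D.P e).p ω ≠ 0 ∧ (D.P e).surC Θ W ω < Real.log Mp) ∧ D.Conn j e ρ' ω) ∧ D.Conn i j ρ ρ')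
    (N * N' * Mp) (fun ρ' hU ρ hc => ⟨ρ', hU, hc⟩) (by
      intro ρ _
      obtain ⟨SW, hSW1, hSW2⟩ := hW ρ
      choose Pop hPop1 hPop2 using (fun w => ae2_count_pop (D.P e) W Θ Mp hMp w)
      choose Lt hLt1 hLt2 using hΘ
      have c1 : ∀ w, (((Pop w).biUnion (fun θ => Lt w θ)).card : ℝ) ≤ Mp * N' := by
        intro w
        calc (((Pop w).biUnion (fun θ => Lt w θ)).card : ℝ) ≤ ((∑ θ ∈ Pop w, (Lt w θ).card : ℕ) : ℝ) := by
              exact_mod_cast Finset.card_biUnion_le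
          _ = ∑ θ ∈ Pop w, ((Lt w θ).card : ℝ) := by push_cast; rfl
          _ ≤ ∑ _θ ∈ Pop w, N' := Finset.sum_le_sum (fun θ _ => hLt1 w θ)
          _ = (Pop w).card * N' := by rw [Finset.sum_const, nsmul_eq_mul]
          _ ≤ Mp * N' := mul_le_mul_of_nonneg_right (hPop1 w) hN'
      have c2 : ((SW.biUnion (fun w => (Pop w).biUnion (fun θ => Lt w θ))).card : ℝ) ≤ N * N' * Mp := by
        calc ((SW.biUnion (fun w => (Pop w).biUnion (fun θ => Lt w θ))).card : ℝ)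
            ≤ ((∑ w ∈ SW, ((Pop w).biUnion (fun θ => Lt w θ)).card : ℕ) : ℝ) := by exact_mod_cast Finset.card_biUnion_le
          _ = ∑ w ∈ SW, (((Pop w).biUnion (fun θ => Lt w θ)).card : ℝ) := by push_cast; rfl
          _ ≤ ∑ _w ∈ SW, Mp * N' := Finset.sum_le_sum (fun w _ => c1 w)
          _ = SW.card * (Mp * N') := by rw [Finset.sum_const, nsmul_eq_mul]
          _ ≤ N * (Mp * N') := mul_le_mul_of_nonneg_right hSW1 (mul_nonneg hMp.le hN')
          _ = N * N' * Mp := by ring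
      refine le_trans ?_ c2
      rw [← Set.ncard_coe_finset]
      refine Nat.cast_le.2 (Set.ncard_le_ncard ?_ (Finset.finite_toSet _))
      rintro t' ⟨ρ', ⟨ω, ⟨hE, hp, hsur⟩, hc2⟩, hc1, rfl⟩
      have hc3 := hD.trans i hi j hj e he hij hje ρ ρ' ω hc1 hc2
      rw [Finset.mem_coe, Finset.mem_biUnion]
      refine ⟨W ω, hSW2 ω hc3 hE, ?_⟩
      rw [Finset.mem_biUnion]
      exact ⟨Θ ω, hPop2 (W ω) ω hp rfl hsur, hLt2 (W ω) (Θ ω) ω ρ' hE rfl rfl hc2⟩)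
  have hco : 0 ≤ D.s ^ (-t) * (N * N' * Mp) * D.s ^ (π.d * (j - i)) :=
    mul_nonneg (mul_nonneg (Real.rpow_nonneg hs.1.le _) (mul_nonneg (mul_nonneg hN hN') hMp.le)) (Real.rpow_nonneg hs.1.le _)
  have h1 := htp.trans (add_le_add_left (mul_le_of_le_one_right hco (ent_pr_le_one _ _)) _)
  have h2 := Real.rpow_le_rpow (ent_pr_nonneg _ _) h1 (show (0 : ℝ) ≤ 2 / 3 by norm_num)
  have h3 := mul_le_mul_of_nonneg_left h2 (Real.rpow_nonneg hs.1.le (-t))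
  linarith

section law

variable {Ω : Type} [Fintype Ω] {α β γ δ : Type}

/-- LEAF L-256-E2-K2.  **scores under mutual lists.**   `a = surC X C`, `a' = surC X (Ca, C)`: `lay_list_swap` (`W = Ca`);  `b = surC Xa Ca`, `b' = surC Xa (C, Ca)`: `lay_list_swap` (`W = C`);  `b' = surC Xa (Ca, C)`: `ent_surC_congr`;
`a' - b' = surC X (Xa, (Ca, C)) - surC Xa (X, (Ca, C))` (`lay_sur_incr`), both terms in `[0, log N + t]` off `e^-t` each (`ent_surC_nonneg`, `ent_surC_tail`).   Union bound `ent_pr_or_le`. -/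
theorem ae2_sco_swap (P : FLaw Ω) (X : Ω → α) (Xa : Ω → β) (C : Ω → γ) (Ca : Ω → δ) {N : ℝ} (hN : 1 ≤ N)
    (h1 : P.NVal (fun _ => True) Ca C N) (h2 : P.NVal (fun _ => True) C Ca N)
    (h3 : P.NVal (fun _ => True) X (pair Xa (pair Ca C)) N) (h4 : P.NVal (fun _ => True) Xa (pair X (pair Ca C)) N) (t : ℝ) :
    P.pr (fun ω => 3 * (Real.log N + t) < |P.surC X C ω - P.surC Xa Ca ω|) ≤ 6 * Real.exp (-t) := by
  have hN0 : 0 < N := by linarith
  have e1 := lay_list_swap P X Ca C hN h1 t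
  have e2 := lay_list_swap P Xa C Ca hN h2 t
  have e3 := ent_surC_tail P X (pair Xa (pair Ca C)) hN0 h3 t
  have e4 := ent_surC_tail P Xa (pair X (pair Ca C)) hN0 h4 t
  have hsub : P.pr (fun ω => 3 * (Real.log N + t) < |P.surC X C ω - P.surC Xa Ca ω|)
      ≤ P.pr (fun ω => (Real.log N + t < |P.surC X (pair Ca C) ω - P.surC X C ω| ∨ Real.log N + t < |P.surC Xa (pair C Ca) ω - P.surC Xa Ca ω|)
        ∨ (Real.log N + t < P.surC X (pair Xa (pair Ca C)) ω ∨ Real.log N + t < P.surC Xa (pair X (pair Ca C)) ω)) := by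
    refine ent_pr_mono P fun ω hω hs => ?_
    by_contra hcon
    simp only [not_or, not_lt] at hcon
    obtain ⟨⟨c1, c2⟩, c3, c4⟩ := hcon
    have hb : P.surC Xa (pair C Ca) ω = P.surC Xa (pair Ca C) ω := by
      refine ent_surC_congr P Xa Xa (pair C Ca) (pair Ca C) ω (fun ω' _ => ?_) (fun ω' _ _ => Iff.rfl)
      simp only [FLaw.pair, Prod.mk.injEq]
      exact and_comm
    have hi := lay_sur_incr P Xa X (pair Ca C) hω
    have n3 := ent_surC_nonneg P X (pair Xa (pair Ca C)) hω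
    have n4 := ent_surC_nonneg P Xa (pair X (pair Ca C)) hω
    rw [hb] at c2
    rw [abs_le] at c1 c2
    have : |P.surC X C ω - P.surC Xa Ca ω| ≤ 3 * (Real.log N + t) := by
      rw [abs_le]
      constructor <;> linarith [c1.1, c1.2, c2.1, c2.2]
    linarith
  refine hsub.trans ?_
  have u1 := ent_pr_or_le P
    (fun ω => Real.log N + t < |P.surC X (pair Ca C) ω - P.surC X C ω| ∨ Real.log N + t < |P.surC Xa (pair C Ca) ω - P.surC Xa Ca ω|)
    (fun ω => Real.log N + t < P.surC X (pair Xa (pair Ca C)) ω ∨ Real.log N + t < P.surC Xa (pair X (pair Ca C)) ω)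
  have u2 := ent_pr_or_le P (fun ω => Real.log N + t < |P.surC X (pair Ca C) ω - P.surC X C ω|)
    (fun ω => Real.log N + t < |P.surC Xa (pair C Ca) ω - P.surC Xa Ca ω|)
  have u3 := ent_pr_or_le P (fun ω => Real.log N + t < P.surC X (pair Xa (pair Ca C)) ω)
    (fun ω => Real.log N + t < P.surC Xa (pair X (pair Ca C)) ω)
  linarith

/-- LEAF L-256-E2-K2.  a reading listed by `(O, C)` carries at most `log N` more information than `O`:
`I(X; S | C) ≤ I(X; (S, O) | C) = I(X; O | C) + I(X; S | O, C) ≤ I(X; O | C) + H(S | O, C)`   (`ent_miC_mono`, `ent_miC_chain`, `ent_miC_le_right`, `ent_entC_le_log_nval`). -/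
theorem ae2_mi_read (P : FLaw Ω) (X : Ω → α) (S : Ω → β) (O : Ω → γ) (C : Ω → δ) {N : ℝ}
    (h : P.NVal (fun _ => True) S (pair O C) N) : P.miC X S C ≤ P.miC X O C + Real.log N := by
  have h1 : P.miC X S C ≤ P.miC X (pair S O) C :=
    ent_miC_mono P X (pair S O) S C fun ω ω' _ _ h5 _ => congrArg Prod.fst h5
  have h2 := ent_miC_chain P X S O C
  have h3 := ent_miC_le_right P X S (pair O C)
  have h4 := ent_entC_le_log_nval P S (pair O C) h
  linarith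

/-- conditioning on the sure event -/
theorem ae2_cnd_true (P : FLaw Ω) : P.cnd (fun _ => True) = P := by
  have h1 : P.pr (fun _ => True) = 1 := by
    unfold FLaw.pr
    simp only [if_true]
    exact P.sum_one
  unfold FLaw.cnd
  rw [dif_pos (by rw [h1]; exact one_pos)]
  cases P with
  | mk p hn hs =>
    simp only [FLaw.cond, FLaw.mk.injEq]
    funext ω
    simp only [if_true]
    rw [h1, div_one]

end law

/-- LEAF L-256-E2-K2.  lists of pairs (`Finset.biUnion` / product of the list of `A` with the lists of `B`) -/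
theorem ae2_rowpr_pair (D : SfDoc) (i : ℝ) {α β : Type} (E : D.Row 1 → Prop) (A : D.Row 1 → α) (B : D.Row 1 → β) (N1 N2 : ℝ)
    (hN2 : 0 ≤ N2) (h1 : D.RowPr i E A N1)
    (h2 : ∀ (ρ : D.Row i) (x : α), ∃ S : Finset β, (S.card : ℝ) ≤ N2 ∧ ∀ ω : D.Row 1, D.Conn i 1 ρ ω → E ω → A ω = x → B ω ∈ S) :
    D.RowPr i E (pair A B) (N1 * N2) := by
  intro ρ
  obtain ⟨S1, hS1, hm1⟩ := h1 ρ
  choose S2 hS2 hm2 using h2 ρ
  refine ⟨S1.biUnion fun x => (S2 x).image fun b => (x, b), ?_, ?_⟩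
  · have hc : ((S1.biUnion fun x => (S2 x).image fun b => (x, b)).card : ℝ) ≤ ∑ x ∈ S1, ((S2 x).card : ℝ) := by
      have h3 : (S1.biUnion fun x => (S2 x).image fun b => (x, b)).card ≤ ∑ x ∈ S1, (S2 x).card :=
        Finset.card_biUnion_le.trans (Finset.sum_le_sum fun x _ => Finset.card_image_le)
      exact_mod_cast h3
    refine hc.trans ?_
    calc ∑ x ∈ S1, ((S2 x).card : ℝ) ≤ ∑ _x ∈ S1, N2 := Finset.sum_le_sum fun x _ => hS2 x
      _ = S1.card * N2 := by rw [Finset.sum_const, nsmul_eq_mul]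
      _ ≤ N1 * N2 := mul_le_mul_of_nonneg_right hS1 hN2
  · intro ω hc hE
    refine Finset.mem_biUnion.2 ⟨A ω, hm1 ω hc hE, Finset.mem_image.2 ⟨B ω, hm2 (A ω) ω hc hE rfl, rfl⟩⟩

/-- LEAF L-256-E2-K3.  **segment extraction ending at the final gate**: `mincost` on `(i, 1)`; copy the proof of `lay_extract_aux` (Lay/SepKit) without the completion and without `sp`:
`B := {b | ∃ ρ, Ev ρ ∧ bin ρ = b}` (finite), `Ub b ρ := Ev ρ ∧ bin ρ = b`, `Sb b ρ0 := ∃ ρ, Ub b ρ ∧ Conn i 1 ρ0 ρ`. -/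
theorem ae2_extract_one (D : SfDoc) (π : SfPar) (C0 τ κ0 t i : ℝ) (hD : D.Ok π C0 τ κ0 t) (hc : 0 < π.c2)
    (hi : i ∈ D.G) (hi1 : i < 1) (ht : t ≤ κ0 * (1 - i))
    (Ev : D.Row 1 → Prop) (β : Type) (bin : D.Row 1 → β) (sg : β → SfTest)
    (ha : ∀ ρ0 : D.Row i, (({b | ∃ ρ, D.Conn i 1 ρ0 ρ ∧ Ev ρ ∧ bin ρ = b} : Set β).ncard : ℝ) ≤ D.s ^ (-(κ0 * (1 - i))))
    (hb : ∀ lam : SfTest, (({b | ∃ ρ, D.lab 1 ρ = lam ∧ Ev ρ ∧ bin ρ = b} : Set β).ncard : ℝ) ≤ D.s ^ (-(κ0 * (1 - i))))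
    (hsz : ∀ ρ, Ev ρ → (sg (bin ρ)).size ≤ D.s ^ (-(1 / t)))
    (hcost : ∀ ρ, Ev ρ → sfR2 (D.lab 1 ρ) (sg (bin ρ)) (D.len 1) ≤ D.s ^ (-((π.c2 - τ) * (1 - i)))) :
    (D.P 1).pr Ev ≤ D.s ^ (κ0 * (1 - i)) := by
  set B : Set β := {b | ∃ ρ, Ev ρ ∧ bin ρ = b} with hB
  have hBfin : B.Finite := by
    refine (Set.finite_range bin).subset ?_
    rintro b ⟨ρ, -, rfl⟩
    exact ⟨ρ, rfl⟩
  have : Finite B := hBfin.to_subtype
  set Ub : B → D.Row 1 → Prop := fun b ρ => Ev ρ ∧ bin ρ = b.1 with hUb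
  set Sb : B → D.Row i → Prop := fun b ρ0 => ∃ ρ, Ub b ρ ∧ D.Conn i 1 ρ0 ρ with hSb
  have hcount : ∀ (A : Set B) (A' : Set β), (∀ b ∈ A, b.1 ∈ A') → A' ⊆ B → (A.ncard : ℝ) ≤ (A'.ncard : ℝ) := by
    intro A A' h1 h2
    rw [← Set.ncard_image_of_injective A Subtype.val_injective]
    refine Nat.cast_le.2 (Set.ncard_le_ncard ?_ (hBfin.subset h2))
    rintro _ ⟨b, hb, rfl⟩
    exact h1 b hb
  have key := hD.aff.mincost i hi 1 hD.core.gate.1 hi1 ht B Sb Ub (fun b => sg b.1)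
    (by
      rintro b b' ρ' ⟨-, e1⟩ ⟨-, e2⟩
      exact Subtype.ext (e1.symm.trans e2))
    (fun b ρ' hU ρ hc => ⟨ρ', hU, hc⟩)
    (fun ρ0 => (hcount _ _ (by
        rintro b ⟨ρ, ⟨h1, e1⟩, hc⟩
        exact ⟨ρ, hc, h1, e1⟩) (by
        rintro b ⟨ρ, -, h2, h3⟩
        exact ⟨ρ, h2, h3⟩)).trans (ha ρ0))
    (fun lam => (hcount _ _ (by
        rintro b ⟨ρ, ⟨h1, e1⟩, hl⟩
        exact ⟨ρ, hl, h1, e1⟩) (by
        rintro b ⟨ρ, -, h2, h3⟩
        exact ⟨ρ, h2, h3⟩)).trans (hb lam))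
    (by
      rintro ⟨b, ρ, h1, rfl⟩
      exact hsz ρ h1)
    (by
      rintro - b ρ' ⟨h1, e1⟩
      rw [← e1]
      exact hcost ρ' h1)
    (fun h0 => absurd h0 hc.ne')
  refine le_trans (ent_pr_mono _ fun ρ _ hE => ?_) key
  exact ⟨⟨bin ρ, ρ, hE, rfl⟩, hE, rfl⟩

/-- LEAF L-256-E2-K3.  **segment extraction ending at a gate `e ≤ 1`**, bins witnessed by the final row, end label through `D.Met`.
`e < 1`: `lay_extract` with `bin' ρ' ω := bin ω` ((a): `trans`; (b), (c): `Met e lam ω = ∃ ρ', lab e ρ' = lam ∧ Conn e 1 ρ' ω` since `e ≠ 1`).   `e = 1`: `ae2_extract_one` and `s^x ≤ s^(-t) (s^x)^(2/3)` (`0 ≤ x`, `0 < t`... use `hD.core.hs`, `x = κ0 (1 - i) ≥ t`; if `t ≤ 0` still `s^(-t)`: assume `0 < t`). -/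
theorem ae2_extract (D : SfDoc) (π : SfPar) (C0 τ κ0 t i e : ℝ) (hD : D.Ok π C0 τ κ0 t) (ht0 : 0 < t) (hc : 0 < π.c2)
    (hi : i ∈ D.G) (he : e ∈ D.G) (hie : i < e) (ht : t ≤ κ0 * (e - i))
    (Ev : D.Row 1 → Prop) (β : Type) (bin : D.Row 1 → β) (sg : β → SfTest)
    (ha : ∀ ρ0 : D.Row i, (({b | ∃ ω, D.Conn i 1 ρ0 ω ∧ Ev ω ∧ bin ω = b} : Set β).ncard : ℝ) ≤ D.s ^ (-(κ0 * (e - i))))
    (hb : ∀ lam : SfTest, (({b | ∃ ω, D.Met e lam ω ∧ Ev ω ∧ bin ω = b} : Set β).ncard : ℝ) ≤ D.s ^ (-(κ0 * (e - i))))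
    (hsz : ∀ ω, Ev ω → (sg (bin ω)).size ≤ D.s ^ (-(1 / t)))
    (hcost : ∀ lam ω, D.Met e lam ω → Ev ω → sfR2 lam (sg (bin ω)) (D.len e) ≤ D.s ^ (-((π.c2 - τ) * (e - i)))) :
    (D.P 1).pr Ev ≤ D.s ^ (-t) * (D.s ^ (κ0 * (e - i))) ^ ((2 : ℝ) / 3) + D.s ^ (1 / t) := by
  have hs := hD.core.hs
  have hfin : ∀ A : Set β, A ⊆ Set.range bin → A.Finite := fun A hA => (Set.finite_range bin).subset hA
  rcases (hD.core.gate.2 e he).2.eq_or_lt with he1 | he1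
  · subst he1
    have hmet : ∀ lam ω, D.Met 1 lam ω ↔ D.lab 1 ω = lam := by
      intro lam ω
      unfold SfDoc.Met
      rw [if_pos rfl]
    have h1 := ae2_extract_one D π C0 τ κ0 t i hD hc hi hie ht Ev β bin sg ha
      (fun lam => by
        have := hb lam
        simp only [hmet] at this
        exact this)
      hsz (fun ρ hE => hcost (D.lab 1 ρ) ρ ((hmet _ _).2 rfl) hE)
    refine h1.trans ?_
    have hx : 0 < κ0 * (1 - i) := lt_of_lt_of_le ht0 ht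
    have e1 : (D.s ^ (κ0 * (1 - i))) ^ ((2 : ℝ) / 3) = D.s ^ (κ0 * (1 - i) * (2 / 3)) := by
      rw [← Real.rpow_mul hs.1.le]
    have e2 : D.s ^ (κ0 * (1 - i)) ≤ D.s ^ (κ0 * (1 - i) * (2 / 3)) :=
      Real.rpow_le_rpow_of_exponent_ge hs.1 hs.2.le (by linarith)
    have e3 : 1 ≤ D.s ^ (-t) := Real.one_le_rpow_of_pos_of_le_one_of_nonpos hs.1 hs.2.le (by linarith)
    have e4 : 0 ≤ D.s ^ (1 / t) := Real.rpow_nonneg hs.1.le _
    have e5 : 0 ≤ D.s ^ (κ0 * (1 - i) * (2 / 3)) := Real.rpow_nonneg hs.1.le _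
    rw [e1]
    nlinarith
  · have hmet : ∀ lam ω, D.Met e lam ω ↔ ∃ ρ : D.Row e, D.lab e ρ = lam ∧ D.Conn e 1 ρ ω := by
      intro lam ω
      unfold SfDoc.Met
      rw [if_neg he1.ne]
    refine lay_extract D π C0 τ κ0 t i e hD hc hi he hie he1 ht Ev β (fun _ ω => bin ω) sg (fun ρ0 => ?_) (fun lam => ?_)
      (fun ρ' ρ _ hE => hsz ρ hE) (fun ρ' ρ hcn hE => hcost (D.lab e ρ') ρ ((hmet _ _).2 ⟨ρ', rfl, hcn⟩) hE)
    · refine le_trans (Nat.cast_le.2 (Set.ncard_le_ncard ?_ (hfin _ ?_))) (ha ρ0)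
      · rintro b ⟨ρ', ρ, h1, h2, h3, h4⟩
        exact ⟨ρ, hD.core.trans i hi e he 1 hD.core.gate.1 hie he1 ρ0 ρ' ρ h1 h2, h3, h4⟩
      · rintro b ⟨ω, -, -, rfl⟩
        exact ⟨ω, rfl⟩
    · refine le_trans (Nat.cast_le.2 (Set.ncard_le_ncard ?_ (hfin _ ?_))) (hb lam)
      · rintro b ⟨ρ', ρ, h1, h2, h3, h4⟩
        exact ⟨ρ, (hmet _ _).2 ⟨ρ', h1, h2⟩, h3, h4⟩
      · rintro b ⟨ω, -, -, rfl⟩
        exact ⟨ω, rfl⟩

/-- the numerology of the line test at the boundary -/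
theorem ae2_num {d g : ℝ} (hd : 0 < d) (hd1 : d ≤ 1) (hg : 0 < g) (h : 1 - 2 * d ≤ g) :
    2 + 3 * d ≤ 2 * d + g + 2 * min 1 (2 * d) + min 1 (d + g) := by
  rcases le_total 1 (2 * d) with h1 | h1 <;> rcases le_total 1 (d + g) with h2 | h2
  · rw [min_eq_left h1, min_eq_left h2]; linarith
  · rw [min_eq_left h1, min_eq_right h2]; linarith
  · rw [min_eq_right h1, min_eq_left h2]; linarith
  · rw [min_eq_right h1, min_eq_right h2]; linarith

/-- LEAF L-256-E2-K4 (Mathlib only).  **from frequent right increments to the left Dini bound.**   `H` is Lipschitz, hence differentiable a.e. (`LipschitzWith.ae_differentiableAt_of_real` / `LipschitzWith.ae_differentiableAt`);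
at a point of differentiability the frequent bound gives `c - ε ≤ deriv H a` for all `ε` (`HasDerivAt.tendsto_slope_zero_right`, `Filter.Frequently` + `le_of_tendsto`-type argument), and the left slopes `(H a - H (a - h)) / h → deriv H a`. -/
theorem ae2_dini (H : ℝ → ℝ) (C c a0 a1 : ℝ) (hL : ∀ a a' : ℝ, |H a - H a'| ≤ C * |a - a'|)
    (hst : ∀ᵐ a : ℝ, a0 < a → a < a1 → ∀ ε : ℝ, 0 < ε → ∃ᶠ h in 𝓝[>] (0 : ℝ), (c - ε) * h ≤ H (a + h) - H a) :
    ∀ᵐ a : ℝ, a0 < a → a < a1 → ∀ ε : ℝ, 0 < ε → ∀ᶠ h in 𝓝[>] (0 : ℝ), (c - ε) * h ≤ H a - H (a - h) := by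
  have hLip : LipschitzWith (Real.toNNReal C) H := by
    refine LipschitzWith.of_dist_le_mul fun a a' => ?_
    rw [Real.dist_eq, Real.dist_eq]
    refine (hL a a').trans (mul_le_mul_of_nonneg_right ?_ (abs_nonneg _))
    exact Real.le_coe_toNNReal C
  filter_upwards [hLip.ae_differentiableAt_of_real, hst] with a hda hsa h0 h1 ε hε
  have hd : HasDerivAt H (deriv H a) a := hda.hasDerivAt
  have hpos : ∀ᶠ h in 𝓝[>] (0 : ℝ), 0 < h := self_mem_nhdsWithin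
  -- Step A
  have hA : ∀ ε' : ℝ, 0 < ε' → c - ε' ≤ deriv H a := by
    intro ε' hε'
    by_contra hlt
    have hlt' : deriv H a < c - ε' := not_le.1 hlt
    have hr := hd.tendsto_slope_zero_right
    have hev : ∀ᶠ h in 𝓝[>] (0 : ℝ), h⁻¹ • (H (a + h) - H a) < c - ε' := hr.eventually_lt_const hlt'
    refine (hsa h0 h1 ε' hε') ?_
    filter_upwards [hev, hpos] with h hh hh0
    rw [smul_eq_mul, inv_mul_lt_iff₀ hh0] at hh
    rw [not_le]
    linarith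
  -- Step B
  have hB : c - ε < deriv H a := by
    have := hA (ε / 2) (by linarith)
    linarith
  have hneg : Tendsto (fun h : ℝ => -h) (𝓝[>] (0 : ℝ)) (𝓝[≠] (0 : ℝ)) := by
    refine tendsto_nhdsWithin_iff.2 ⟨?_, ?_⟩
    · exact (continuous_neg.tendsto' (0 : ℝ) 0 neg_zero).mono_left nhdsWithin_le_nhds
    · filter_upwards [hpos] with h hh
      simp only [Set.mem_compl_iff, Set.mem_singleton_iff, neg_eq_zero]
      exact hh.ne'
  have hl := hd.tendsto_slope_zero.comp hneg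
  have hev : ∀ᶠ h in 𝓝[>] (0 : ℝ), c - ε < ((fun t => t⁻¹ • (H (a + t) - H a)) ∘ fun h : ℝ => -h) h := hl.eventually_const_lt hB
  filter_upwards [hev, hpos] with h hh hh0
  simp only [Function.comp, smul_eq_mul] at hh
  have e : (-h)⁻¹ * (H (a + -h) - H a) = h⁻¹ * (H a - H (a - h)) := by
    rw [inv_neg, ← sub_eq_add_neg]
    ring
  rw [e, lt_inv_mul_iff₀ hh0] at hh
  linarith

end Claimed.Agent.R256
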