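import Claimed.Agent.R256.Act.E2.Geo

/-!
# Row 256, section Act, block E2, file 5: THE MISMATCH PROPERTY, CLASSICAL      (architect helper46; prefix `ae2_`)      06 l.568-595

CLAIM (`ae2_mis`).  No function `I` of `(C, S)` predicts the slope `ka (Z ω)` of the line within `δ^χ` with probability `> tl`.
PROOF = minimality of the curvature cost on `[j, De]`: `ae2_extract` (Kit) with `i = j0 = D.gt j`, `e = e0 = D.gt De`, cost improvement `τc = w / (2 (De - j))`, `w = χ h / 2`.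
 `Ev ω := (D.P 1).p ω ≠ 0 ∧ |I (C ω, S ω) - ka (Z ω)| < δ^χ`.
 GROUP of `ω` := `D.e2grp π p w ω = (T_j, [K_j]_{ζ + w}, [β_j(T_j)]_{b j + w})` of the label `D.labAt j ω`;   SHEAR of a group `(T, m, n)` := `ae2Sg`: time `T`, slope `m / 2^lev`, value `n / 2^lev` at the time `T`.
 (a) a starting row sees ONE group: `D.labAt j ω = lab j0 ρ0` for every `Conn j0 1 ρ0 ω` (`nm_labAt_eq`).
 (c) `ae2_mis_cost`.      (b) `ae2_mis_lab`.
-/

set_option autoImplicit false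

namespace Claimed.Agent.R256

open Claimed.Agent.R255
open Claimed.Agent.R255.FLaw (pair)
open Classical

noncomputable section

/-- the group of a final row -/
def SfDoc.e2grp (D : SfDoc) (π : SfPar) (p : Ae2P) (w : ℝ) : D.Row 1 → ℝ × ℤ × ℤ := fun ω =>
  ((D.labAt p.j ω).T, nmCell D.s (π.b2 p.De - p.De + w) (D.labAt p.j ω).K, nmCell D.s ((nmDsStr π p.De).b p.j + w) (D.labAt p.j ω).be)

/-- the shear of a group -/
def ae2Sg (s : ℝ) (π : SfPar) (p : Ae2P) (w : ℝ) (b : ℝ × ℤ × ℤ) : SfTest :=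
  layShear b.1 ((b.2.2 : ℝ) / (2 : ℝ) ^ nmLev s ((nmDsStr π p.De).b p.j + w)) ((b.2.1 : ℝ) / (2 : ℝ) ^ nmLev s (π.b2 p.De - p.De + w)) 0

/-- the success event of a predictor -/
def SfDoc.e2Ev (D : SfDoc) (π : SfPar) (p : Ae2P) (dsp : ℝ → NmNm → NmNm → ItDsp) (χ R : ℝ) (I : NmNm × LttS → ℝ) (ω : D.Row 1) : Prop :=
  (D.P 1).p ω ≠ 0 ∧ |I (D.cs π (p.rt π) ω, (ae2Tan D π p dsp).ltS R ω) - ae2Ka (D.s ^ p.h) (D.e2Z π p ω)| < (D.s ^ p.h) ^ χ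

theorem ae2_mis_eqns_cite : True := by
  have := @SfDoc.e2grp.eq_1; have := @ae2Sg.eq_1; have := @SfDoc.e2Ev.eq_1
  trivial

/-- the shear of the group of a final row, in terms of representatives -/
theorem ae2_mc_sg (D : SfDoc) (π : SfPar) (p : Ae2P) (w : ℝ) (ω : D.Row 1) :
    ae2Sg D.s π p w (D.e2grp π p w ω) = layShear (D.labAt p.j ω).T (nmRep D.s ((nmDsStr π p.De).b p.j + w) (D.labAt p.j ω).be)
      (nmRep D.s (π.b2 p.De - p.De + w) (D.labAt p.j ω).K) 0 := rfl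

/-- classical: the label met at a later gate is the label of a row connected to the row of the earlier gate -/
theorem ae2_mc_path {D : SfDoc} {π : SfPar} {C0 t : ℝ} (hD : D.Core π C0 t) (hc : π.hyb = false) {i e : ℝ} (hi : i ∈ D.G) (he : e ∈ D.G)
    (hie : i < e) {lam : SfTest} {ω : D.Row 1} (hm : D.Met e lam ω) {ρ : D.Row i} (h : D.Conn i 1 ρ ω) :
    ∃ ρ' : D.Row e, D.lab e ρ' = lam ∧ D.Conn i e ρ ρ' := by
  by_cases he1 : e = 1
  · subst he1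
    unfold SfDoc.Met at hm
    rw [if_pos rfl] at hm
    exact ⟨ω, hm, h⟩
  · have he1' : e < 1 := lt_of_le_of_ne (hD.gate.2 e he).2 he1
    unfold SfDoc.Met at hm
    rw [if_neg he1] at hm
    obtain ⟨ρ', h1, h2⟩ := hm
    obtain ⟨ρ'', h3, h4⟩ := hD.split i hi e he 1 hD.gate.1 hie he1' ρ ω h
    have h5 := nm_conn_uniq hD hc he he1' h2 h4
    subst h5
    exact ⟨ρ', h1, h3⟩

/-- the cost of the end label after subtraction of the rounded shear of a connected earlier label -/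
theorem ae2_mc_core {D : SfDoc} {π : SfPar} {C0 τ κ0 t : ℝ} (hD : D.Ok π C0 τ κ0 t) {i e : ℝ} (hi : i ∈ D.G) (he : e ∈ D.G) (hie : i < e)
    (ρ : D.Row i) (ρ' : D.Row e) (h : D.Conn i e ρ ρ') (x y Z : ℝ)
    (z1 : Z ≤ min (π.b2 i) (π.b2 e) - t) (z2 : Z ≤ y) (z3 : Z ≤ i - t + x) (z4 : Z ≤ e - t + (min (π.b2 i - i) (π.b2 e - e) - t))
    (z5 : Z ≤ e - t + x) :
    sfR2 (D.lab e ρ') (layShear (D.lab i ρ).T (nmRep D.s y (D.lab i ρ).be) (nmRep D.s x (D.lab i ρ).K) 0) (D.len e)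
      ≤ 5 * D.s ^ (-π.b2 e - 3 * t + Z) := by
  obtain ⟨s0, s1⟩ := hD.core.hs
  obtain ⟨o1, o2, -⟩ := hD.core.own e he ρ'
  obtain ⟨p0, p1⟩ := lay_pref2 D π C0 τ κ0 t e hD he
  obtain ⟨c1, c2, -⟩ := hD.aff.cmpA i hi e he hie ρ ρ' h
  obtain ⟨n1, n2, n3⟩ := lay_near D π C0 t i e hD.core hi he hie ρ ρ' h
  have l0 : 0 < D.len e := nm_len_pos hD.core he
  have l1 : D.len e ≤ D.s ^ (e - t) := (hD.core.hlen.2 e he).2
  have r1 := nm_rep_abs s0 s1 y (D.lab i ρ).be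
  have r2 := nm_rep_abs s0 s1 x (D.lab i ρ).K
  rw [lay_shear_R2, o1, o2]
  have hZ : 0 < D.s ^ Z := Real.rpow_pos_of_pos s0 _
  have hT : |(D.lab e ρ').T - (D.lab i ρ).T| ≤ D.s ^ (i - t) := by
    have e1 : (D.lab e ρ').T - (D.lab i ρ).T = D.T e ρ' - D.T i ρ := rfl
    rw [e1, abs_of_nonneg n1]
    linarith
  -- the five terms
  have q1 : D.s ^ (min (π.b2 i) (π.b2 e) - t) ≤ D.s ^ Z := lay_rpow_anti s0 s1 z1
  have q2 : D.s ^ y ≤ D.s ^ Z := lay_rpow_anti s0 s1 z2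
  have q3 : D.s ^ (i - t) * D.s ^ x ≤ D.s ^ Z := by
    rw [← Real.rpow_add s0]; exact lay_rpow_anti s0 s1 z3
  have q4 : D.s ^ (e - t) * D.s ^ (min (π.b2 i - i) (π.b2 e - e) - t) ≤ D.s ^ Z := by
    rw [← Real.rpow_add s0]; exact lay_rpow_anti s0 s1 z4
  have q5 : D.s ^ (e - t) * D.s ^ x ≤ D.s ^ Z := by
    rw [← Real.rpow_add s0]; exact lay_rpow_anti s0 s1 z5
  have t1 : |(D.lab e ρ').be - (nmRep D.s y (D.lab i ρ).be + ((D.lab e ρ').T - (D.lab i ρ).T) * nmRep D.s x (D.lab i ρ).K)| ≤ 3 * D.s ^ Z := by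
    have e1 : (D.lab e ρ').be - (nmRep D.s y (D.lab i ρ).be + ((D.lab e ρ').T - (D.lab i ρ).T) * nmRep D.s x (D.lab i ρ).K)
        = -((D.lab i ρ).beAt (D.T e ρ') - (D.lab e ρ').be) + ((D.lab i ρ).be - nmRep D.s y (D.lab i ρ).be)
          + ((D.lab e ρ').T - (D.lab i ρ).T) * ((D.lab i ρ).K - nmRep D.s x (D.lab i ρ).K) := by
      unfold SfTest.beAt SfDoc.T
      ring
    rw [e1]
    refine (abs_add_le _ _).trans ?_
    have e2 := abs_add_le (-((D.lab i ρ).beAt (D.T e ρ') - (D.lab e ρ').be)) ((D.lab i ρ).be - nmRep D.s y (D.lab i ρ).be)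
    rw [abs_neg] at e2
    have e3 : |((D.lab e ρ').T - (D.lab i ρ).T) * ((D.lab i ρ).K - nmRep D.s x (D.lab i ρ).K)| ≤ D.s ^ (i - t) * D.s ^ x := by
      rw [abs_mul]
      exact mul_le_mul hT r2 (abs_nonneg _) (Real.rpow_nonneg s0.le _)
    linarith
  have t2 : D.len e * |(D.lab e ρ').K - nmRep D.s x (D.lab i ρ).K| ≤ 2 * D.s ^ Z := by
    have e1 : |(D.lab e ρ').K - nmRep D.s x (D.lab i ρ).K| ≤ D.s ^ (min (π.b2 i - i) (π.b2 e - e) - t) + D.s ^ x := by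
      have e2 : (D.lab e ρ').K - nmRep D.s x (D.lab i ρ).K = -((D.lab i ρ).K - (D.lab e ρ').K) + ((D.lab i ρ).K - nmRep D.s x (D.lab i ρ).K) := by ring
      rw [e2]
      refine (abs_add_le _ _).trans ?_
      rw [abs_neg]
      linarith
    calc D.len e * |(D.lab e ρ').K - nmRep D.s x (D.lab i ρ).K|
        ≤ D.s ^ (e - t) * (D.s ^ (min (π.b2 i - i) (π.b2 e - e) - t) + D.s ^ x) :=
          mul_le_mul l1 e1 (abs_nonneg _) (Real.rpow_nonneg s0.le _)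
      _ ≤ 2 * D.s ^ Z := by rw [mul_add]; linarith
  calc D.r e ^ 2 / D.f e * (|(D.lab e ρ').be - (nmRep D.s y (D.lab i ρ).be + ((D.lab e ρ').T - (D.lab i ρ).T) * nmRep D.s x (D.lab i ρ).K)|
        + D.len e * |(D.lab e ρ').K - nmRep D.s x (D.lab i ρ).K|)
      ≤ D.s ^ (-π.b2 e - 3 * t) * (5 * D.s ^ Z) :=
        mul_le_mul p1 (by linarith) (add_nonneg (abs_nonneg _) (mul_nonneg l0.le (abs_nonneg _))) (Real.rpow_nonneg s0.le _)
    _ = 5 * D.s ^ (-π.b2 e - 3 * t + Z) := by rw [Real.rpow_add s0]; ring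

/-- the exponents of `ae2_mis_cost` -/
theorem ae2_mc_num {q De j e0 j0 t w aq : ℝ} (G1 : 400 * w ≤ De - j) (G2 : 400 * w ≤ (1 - q) * (De - j)) (hw : 0 < w) (ht : 0 < t)
    (T1 : t * (8 * (aq + 7)) ≤ w) (haq : 0 ≤ aq * t) (nj1 : -t ≤ j0 - j) (nj2 : j0 - j ≤ t) (ne1 : -t ≤ e0 - De) (ne2 : e0 - De ≤ t)
    (A1 : -(aq * t) ≤ q * (e0 - De)) (A2 : q * (e0 - De) ≤ aq * t) (A3 : -(aq * t) ≤ q * (j0 - j)) (A4 : q * (j0 - j) ≤ aq * t) :
    q * (e0 - 1) - (De - j) + w - (aq + 2) * t ≤ min (q * (j0 - 1)) (q * (e0 - 1)) - t ∧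
    q * (e0 - 1) - (De - j) + w - (aq + 2) * t ≤ q * (De - 1) + (j - De) + w ∧
    q * (e0 - 1) - (De - j) + w - (aq + 2) * t ≤ j0 - t + (q * (De - 1) - De + w) ∧
    q * (e0 - 1) - (De - j) + w - (aq + 2) * t ≤ e0 - t + (min (q * (j0 - 1) - j0) (q * (e0 - 1) - e0) - t) ∧
    q * (e0 - 1) - (De - j) + w - (aq + 2) * t ≤ e0 - t + (q * (De - 1) - De + w) := by
  refine ⟨?_, by linarith, by linarith, ?_, by linarith⟩
  · rw [le_sub_iff_add_le]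
    refine le_min ?_ ?_ <;> linarith
  · have : q * (e0 - 1) - (De - j) + w - (aq + 2) * t - (e0 - t) + t ≤ min (q * (j0 - 1) - j0) (q * (e0 - 1) - e0) := by
      refine le_min ?_ ?_ <;> linarith
    linarith

/-- the final exponent of `ae2_mis_cost` -/
theorem ae2_mc_num2 {De j e0 j0 t w aq b : ℝ} (hΔ : 0 < De - j) (G1 : 400 * w ≤ De - j) (hw : 0 < w) (ht : 0 < t)
    (T1 : t * (8 * (aq + 7)) ≤ w) (nj2 : j0 - j ≤ t) (ne1 : -t ≤ e0 - De) :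
    -((1 - w / (2 * (De - j))) * (e0 - j0)) ≤ -(w / 8) + (-b - 3 * t + (b - (De - j) + w - (aq + 2) * t)) := by
  have hτ : w / (2 * (De - j)) * (De - j) = w / 2 := by field_simp
  have hτ0 : 0 ≤ w / (2 * (De - j)) := by positivity
  have hτ1 : w / (2 * (De - j)) ≤ 1 := by
    rw [div_le_one (by positivity)]; linarith
  generalize w / (2 * (De - j)) = τc at *
  have h6 : (1 - τc) * ((De - j) - 2 * t) ≤ (1 - τc) * (e0 - j0) :=
    mul_le_mul_of_nonneg_left (by linarith) (by linarith)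
  have h7 : 0 ≤ τc * t := by positivity
  linarith

/-- LEAF L-256-E2-M1.  **(c), (sz): after subtraction of the shear of its group the end label is cheaper.**   `lam` = label met at `e0 = D.gt De` (`D.Met`: `e0 = 1`: own label; else a connected row `ρ'`), `lam_j = D.labAt j ω = lab j0 ρ`, `Conn j0 e0 ρ ρ'` (`ae2_cl_path` + `nm_conn_uniq`), `(T, m, n)` the group, `Kb`, `Bb` its representatives:
`|lam_j.K - Kb| ≤ s^(ζ + w)`, `|lam_j.be - Bb| ≤ s^(b j + w)` (`nmCell`: mesh `≤ s^depth`).   `lay_shear_R2`:  `sfR2 = r² / f (|lam.be - (Bb + (lam.T - T) Kb)| + len e0 |lam.K - Kb|)`, `lay_pref2`: `r² / f ≤ s^(-b2 e0 - 3t)`.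
`|lam.be - lam_j.beAt lam.T| ≤ s^(min (b2 j0) (b2 e0) - t)` ((A)), `min .. ≥ b j + w + ..` (`b2 j0 - b j = (1 - q)(De - j) ∓`, `b2 e0 - b j = De - j ∓`; `gap ≥ 400 h ≥ 400 w`);   `|lam.T - T| ≤ s^(j0 - t)` (`lay_near`), times `s^(ζ + w)`: `s^(b j + w - 2t)`;
`len e0 |lam.K - Kb| ≤ s^(e0 - t) (s^(b2 e0 - e0 - t) + s^(ζ + w)) ≤ 2 s^(b2 De - (|q|+3) t)`.   Total `≤ 5 s^(-(De - j) + w - (2|q| + 9) t) ≤ s^(-((1 - τc)(e0 - j0)))` since `(1 - τc)(e0 - j0) ≥ (De - j) - w / 2 - 2t`.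
Size: `lay_shear_size`, `|Bb| ≤ |lam_j.be| + 1 ≤ s^(-C0) + 1` (`bdd`), the same for `Kb` (`s^(ζ + w) ≤ s^(-|q| - 2)`). -/
theorem ae2_mis_cost (π : SfPar) (hπ : π.Valid) (h1 : π.c2 = 1) (h2 : π.q < 1) (hc : π.hyb = false) (C0 τ κ0 Λ : ℝ) (p : Ae2P) (hp : p.Ok π Λ)
    (w : ℝ) (hw : 0 < w) (hwh : w ≤ p.h) : ∃ t0 : ℝ, 0 < t0 ∧ ∀ t : ℝ, 0 < t → t ≤ t0 → ∀ D : SfDoc, D.Fine π C0 τ κ0 t →
    ∀ (lam : SfTest) (ω : D.Row 1), D.Met (D.gt p.De) lam ω → (D.P 1).p ω ≠ 0 →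
      sfR2 lam (ae2Sg D.s π p w (D.e2grp π p w ω)) (D.len (D.gt p.De))
        ≤ D.s ^ (-((π.c2 - w / (2 * (p.De - p.j))) * (D.gt p.De - D.gt p.j))) ∧
      (ae2Sg D.s π p w (D.e2grp π p w ω)).size ≤ D.s ^ (-(1 / t)) := by
  have hΔ : 0 < p.De - p.j := by linarith [hp.hjD]
  have ha0 : 0 < p.a := hp.root.ha.1
  have hj0' : 0 < p.j := by linarith [hp.haj]
  have hD1 := hp.hD1
  have g1 : p.gap π ≤ p.De - p.j := (min_le_right _ _).trans (min_le_left _ _)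
  have g2 : p.gap π ≤ (1 - π.q) * (p.De - p.j) := (min_le_right _ _).trans (min_le_right _ _)
  have G1 : 400 * w ≤ p.De - p.j := by linarith [hp.hgap]
  have G2 : 400 * w ≤ (1 - π.q) * (p.De - p.j) := by linarith [hp.hgap]
  have hq0 := abs_nonneg π.q
  have hC0 := abs_nonneg C0
  refine ⟨min (min (w / (8 * (|π.q| + 7))) ((5 : ℝ) ^ (-(8 / w)))) (min (1 / (|C0| + |π.q| + 2)) (1 / 2)), by positivity, ?_⟩
  intro t ht ht0 D hD lam ω hm hω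
  have T1 : t * (8 * (|π.q| + 7)) ≤ w := (le_div_iff₀ (by positivity)).1 (ht0.trans ((min_le_left _ _).trans (min_le_left _ _)))
  have T2 : t ≤ (5 : ℝ) ^ (-(8 / w)) := ht0.trans ((min_le_left _ _).trans (min_le_right _ _))
  have T3 : t * (|C0| + |π.q| + 2) ≤ 1 := (le_div_iff₀ (by positivity)).1 (ht0.trans ((min_le_right _ _).trans (min_le_left _ _)))
  have T4 : t ≤ 1 / 2 := ht0.trans ((min_le_right _ _).trans (min_le_right _ _))
  have hcore := hD.ok.core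
  obtain ⟨s0, s1⟩ := hcore.hs
  have hst := hD.sm
  have hne : D.G.Nonempty := ⟨1, hcore.gate.1⟩
  have hjG : D.gt p.j ∈ D.G := nm_gt_mem D hne _
  have heG : D.gt p.De ∈ D.G := nm_gt_mem D hne _
  obtain ⟨nj1, nj2⟩ := abs_le.1 (nm_gt_near hD hj0'.le (by linarith : p.j ≤ 1))
  obtain ⟨ne1, ne2⟩ := abs_le.1 (nm_gt_near hD (by linarith : 0 ≤ p.De) hD1)
  have hqt : 0 ≤ |π.q| * t := by positivity
  have hje : D.gt p.j < D.gt p.De := by linarith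
  have hj1 : D.gt p.j < 1 := lt_of_lt_of_le hje (hcore.gate.2 _ heG).2
  have hω' : 0 < (D.P 1).p ω := lt_of_le_of_ne ((D.P 1).nonneg ω) (Ne.symm hω)
  obtain ⟨ρ, hρ, -⟩ := hcore.clPath hc _ hjG 1 hcore.gate.1 hj1 ω hω'
  have hlab : D.labAt p.j ω = D.lab (D.gt p.j) ρ := nm_labAt_eq hcore hc (by linarith) hj1 hρ
  obtain ⟨ρ', hl, hconn⟩ := ae2_mc_path hcore hc hjG heG hje hm hρ
  rw [ae2_mc_sg, hlab, ← hl]
  have hb : (nmDsStr π p.De).b p.j = π.q * (p.De - 1) + (p.j - p.De) := by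
    unfold NmDs.b nmDsStr SfPar.b2
    ring
  obtain ⟨A1, A2⟩ := abs_le.1 (show |π.q * (D.gt p.De - p.De)| ≤ |π.q| * t by
    rw [abs_mul]; exact mul_le_mul_of_nonneg_left (abs_le.2 ⟨ne1, ne2⟩) hq0)
  obtain ⟨A3, A4⟩ := abs_le.1 (show |π.q * (D.gt p.j - p.j)| ≤ |π.q| * t by
    rw [abs_mul]; exact mul_le_mul_of_nonneg_left (abs_le.2 ⟨nj1, nj2⟩) hq0)
  obtain ⟨A5, A6⟩ := abs_le.1 (show |π.q * (p.De - 1)| ≤ |π.q| * 1 by
    rw [abs_mul]; exact mul_le_mul_of_nonneg_left (abs_le.2 ⟨by linarith, by linarith⟩) hq0)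
  rw [hb]
  generalize D.gt p.j = j0 at *
  generalize D.gt p.De = e0 at *
  constructor
  · obtain ⟨z1, z2, z3, z4, z5⟩ := ae2_mc_num G1 G2 hw ht T1 hqt nj1 nj2 ne1 ne2 A1 A2 A3 A4
    have key := ae2_mc_core hD.ok hjG heG hje ρ ρ' hconn (π.b2 p.De - p.De + w) (π.q * (p.De - 1) + (p.j - p.De) + w)
      (π.b2 e0 - (p.De - p.j) + w - (|π.q| + 2) * t) z1 z2 z3 z4 z5
    refine key.trans ?_
    have h5 : (5 : ℝ) ≤ D.s ^ (-(w / 8)) := by
      have e1 : ((5 : ℝ) ^ (-(8 / w))) ^ (-(w / 8)) ≤ D.s ^ (-(w / 8)) :=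
        Real.rpow_le_rpow_of_nonpos s0 (hst.trans T2) (by linarith)
      rw [← Real.rpow_mul (by norm_num)] at e1
      have e2 : -(8 / w) * -(w / 8) = 1 := by field_simp
      rw [e2, Real.rpow_one] at e1
      exact e1
    calc 5 * D.s ^ (-π.b2 e0 - 3 * t + (π.b2 e0 - (p.De - p.j) + w - (|π.q| + 2) * t))
        ≤ D.s ^ (-(w / 8)) * D.s ^ (-π.b2 e0 - 3 * t + (π.b2 e0 - (p.De - p.j) + w - (|π.q| + 2) * t)) :=
          mul_le_mul_of_nonneg_right h5 (Real.rpow_nonneg s0.le _)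
      _ = D.s ^ (-(w / 8) + (-π.b2 e0 - 3 * t + (π.b2 e0 - (p.De - p.j) + w - (|π.q| + 2) * t))) := (Real.rpow_add s0 _ _).symm
      _ ≤ D.s ^ (-((π.c2 - w / (2 * (p.De - p.j))) * (e0 - j0))) := by
          refine lay_rpow_anti s0 s1 ?_
          rw [h1]
          exact ae2_mc_num2 hΔ G1 hw ht T1 nj2 ne1
  · obtain ⟨-, hsz⟩ := hcore.bdd j0 hjG ρ
    obtain ⟨-, -, -, hbe, hK⟩ := nm_pc_test_abs (D.lab j0 ρ)
    have r1 := nm_rep_abs s0 s1 (π.q * (p.De - 1) + (p.j - p.De) + w) (D.lab j0 ρ).be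
    have r2 := nm_rep_abs s0 s1 (π.b2 p.De - p.De + w) (D.lab j0 ρ).K
    have m1 : D.s ^ (-C0) ≤ D.s ^ (-(|C0| + |π.q| + 1)) := lay_rpow_anti s0 s1 (by linarith [le_abs_self C0])
    have m2 : D.s ^ (π.q * (p.De - 1) + (p.j - p.De) + w) ≤ D.s ^ (-(|C0| + |π.q| + 1)) := lay_rpow_anti s0 s1 (by linarith)
    have m3 : D.s ^ (π.b2 p.De - p.De + w) ≤ D.s ^ (-(|C0| + |π.q| + 1)) := lay_rpow_anti s0 s1 (by unfold SfPar.b2; linarith)
    have m4 : 2 * D.s ^ (-(|C0| + |π.q| + 1)) ≤ D.s ^ (-(1 / t)) := by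
      have e1 : (2 : ℝ) ≤ D.s ^ (-1 : ℝ) := by
        rw [Real.rpow_neg_one, le_inv_comm₀ (by norm_num) s0]
        linarith
      calc 2 * D.s ^ (-(|C0| + |π.q| + 1)) ≤ D.s ^ (-1 : ℝ) * D.s ^ (-(|C0| + |π.q| + 1)) :=
            mul_le_mul_of_nonneg_right e1 (Real.rpow_nonneg s0.le _)
        _ = D.s ^ ((-1 : ℝ) + -(|C0| + |π.q| + 1)) := (Real.rpow_add s0 _ _).symm
        _ ≤ D.s ^ (-(1 / t)) := by
            refine lay_rpow_anti s0 s1 ?_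
            have : |C0| + |π.q| + 2 ≤ 1 / t := by rw [le_div_iff₀ ht]; linarith
            linarith
    refine lay_shear_size _ _ _ _ _ ?_ ?_ (by rw [abs_zero]; exact Real.rpow_nonneg s0.le _)
    · have e1 : nmRep D.s (π.q * (p.De - 1) + (p.j - p.De) + w) (D.lab j0 ρ).be
          = (D.lab j0 ρ).be - ((D.lab j0 ρ).be - nmRep D.s (π.q * (p.De - 1) + (p.j - p.De) + w) (D.lab j0 ρ).be) := by ring
      rw [e1]
      refine (abs_sub _ _).trans ?_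
      linarith
    · have e1 : nmRep D.s (π.b2 p.De - p.De + w) (D.lab j0 ρ).K
          = (D.lab j0 ρ).K - ((D.lab j0 ρ).K - nmRep D.s (π.b2 p.De - p.De + w) (D.lab j0 ρ).K) := by ring
      rw [e1]
      refine (abs_sub _ _).trans ?_
      linarith

/-- lists of pairs, generic form -/
theorem ae2_ml_step {Ω α β : Type} (E : Ω → Prop) (A : Ω → α) (B : Ω → β) (n m : ℝ) (hm : 0 ≤ m)
    (hA : ∃ S : Finset α, (S.card : ℝ) ≤ n ∧ ∀ ω, E ω → A ω ∈ S)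
    (hB : ∀ ω₀, E ω₀ → ∃ S : Finset β, (S.card : ℝ) ≤ m ∧ ∀ ω, E ω → A ω = A ω₀ → B ω ∈ S) :
    ∃ S : Finset (α × β), (S.card : ℝ) ≤ n * m ∧ ∀ ω, E ω → (A ω, B ω) ∈ S := by
  obtain ⟨S1, hS1, hm1⟩ := hA
  have h2 : ∀ x : α, ∃ S : Finset β, (S.card : ℝ) ≤ m ∧ ∀ ω, E ω → A ω = x → B ω ∈ S := by
    intro x
    by_cases h : ∃ ω₀, E ω₀ ∧ A ω₀ = x
    · obtain ⟨ω₀, h0, rfl⟩ := h
      exact hB ω₀ h0
    · exact ⟨∅, by simpa using hm, fun ω hω hx => absurd ⟨ω, hω, hx⟩ h⟩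
  choose S2 hS2 hm2 using h2
  refine ⟨S1.biUnion fun x => (S2 x).image fun b => (x, b), ?_, ?_⟩
  · have hc : ((S1.biUnion fun x => (S2 x).image fun b => (x, b)).card : ℝ) ≤ ∑ x ∈ S1, ((S2 x).card : ℝ) := by
      have h3 : (S1.biUnion fun x => (S2 x).image fun b => (x, b)).card ≤ ∑ x ∈ S1, (S2 x).card :=
        Finset.card_biUnion_le.trans (Finset.sum_le_sum fun x _ => Finset.card_image_le)
      exact_mod_cast h3
    refine hc.trans ?_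
    calc ∑ x ∈ S1, ((S2 x).card : ℝ) ≤ ∑ _x ∈ S1, m := Finset.sum_le_sum fun x _ => hS2 x
      _ = S1.card * m := by rw [Finset.sum_const, nsmul_eq_mul]
      _ ≤ n * m := mul_le_mul_of_nonneg_right hS1 hm
  · intro ω hE
    exact Finset.mem_biUnion.2 ⟨A ω, hm1 ω hE, Finset.mem_image.2 ⟨B ω, hm2 (A ω) ω hE rfl, rfl⟩⟩

/-- integers which are pairwise close form a short list -/
theorem ae2_ml_int {Ω α : Type} (E : Ω → Prop) (A : Ω → α) (B : Ω → ℤ) (K : ℝ) (hK : 0 ≤ K)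
    (h : ∀ ω ω', E ω → E ω' → A ω = A ω' → |((B ω - B ω' : ℤ) : ℝ)| ≤ K) (ω₀ : Ω) :
    ∃ S : Finset ℤ, (S.card : ℝ) ≤ K + 1 ∧ ∀ ω, E ω → A ω = A ω₀ → B ω ∈ S := by
  obtain ⟨hf, hcard⟩ := nm_count_one K hK {b | ∃ ω, E ω ∧ A ω = A ω₀ ∧ B ω = b} (by
    rintro x ⟨ω, h1, h2, rfl⟩ y ⟨ω', h1', h2', rfl⟩
    exact h ω ω' h1 h1' (h2.trans h2'.symm))
  refine ⟨hf.toFinset, ?_, fun ω h1 h2 => hf.mem_toFinset.2 ⟨ω, h1, h2, rfl⟩⟩
  rwa [← Set.ncard_eq_toFinset_card _ hf]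

/-- classical: a charged final row which meets `lam` at the end gate: its rows at the two gates -/
theorem ae2_ml_path (π : SfPar) (hπ : π.Valid) (hc : π.hyb = false) (C0 τ κ0 Λ : ℝ) (p : Ae2P) (hp : p.Ok π Λ) :
    ∃ t0 : ℝ, 0 < t0 ∧ ∀ D : SfDoc, D.Fine π C0 τ κ0 t0 → ∀ (lam : SfTest) (ω : D.Row 1), D.Met (D.gt p.De) lam ω → (D.P 1).p ω ≠ 0 →
      ∃ (ρ : D.Row (D.gt p.j)) (ρe : D.Row (D.gt p.De)), D.Conn (D.gt p.j) (D.gt p.De) ρ ρe ∧ D.lab (D.gt p.De) ρe = lam ∧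
        D.labAt p.j ω = D.lab (D.gt p.j) ρ ∧ D.labAt p.De ω = lam := by
  obtain ⟨t1, ht1, g⟩ := ae2_cl_path π hπ hc C0 τ κ0 Λ p hp
  refine ⟨min t1 (if p.De < 1 then (1 - p.De) / 2 else 1), lt_min ht1 (by split_ifs with h <;> linarith), ?_⟩
  intro D hD lam ω hmet hω
  have hcore := hD.ok.core
  have ha0 : 0 < p.a := hp.root.ha.1
  obtain ⟨ρ, hρ, hlab, hrest⟩ := g D (nm_me_fine_mono hD (min_le_left _ _)) ω hω
  by_cases hD1 : p.De < 1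
  · obtain ⟨ρ', h1, h2, h3⟩ := hrest hD1
    have ne := nm_gt_near hD (by linarith [hp.hjD, hp.haj] : (0 : ℝ) ≤ p.De) hp.hD1
    have ht : min t1 (if p.De < 1 then (1 - p.De) / 2 else 1) ≤ (1 - p.De) / 2 := by
      refine (min_le_right _ _).trans ?_
      rw [if_pos hD1]
    rw [abs_le] at ne
    have hlt : D.gt p.De < 1 := by linarith [ne.2]
    unfold SfDoc.Met at hmet
    rw [if_neg (ne_of_lt hlt)] at hmet
    obtain ⟨ρ'', e1, e2⟩ := hmet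
    have := nm_conn_uniq hcore hc (nm_gt_mem D ⟨1, hcore.gate.1⟩ p.De) hlt e2 h2
    subst this
    exact ⟨ρ, ρ'', h1, e1, hlab, h3.trans e1⟩
  · have hDe : p.De = 1 := le_antisymm hp.hD1 (not_lt.1 hD1)
    have hgt : D.gt p.De = 1 := by rw [hDe]; exact nm_gt_self D hcore.gate.1
    unfold SfDoc.Met at hmet
    rw [if_pos hgt] at hmet
    have hl : D.labAt p.De ω = lam := by rw [hDe, nm_labAt_one]; exact hmet
    have key : ∀ e0 : ℝ, e0 = 1 → ∃ (ρ : D.Row (D.gt p.j)) (ρe : D.Row e0), D.Conn (D.gt p.j) e0 ρ ρe ∧ D.lab e0 ρe = lam ∧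
        D.labAt p.j ω = D.lab (D.gt p.j) ρ ∧ D.labAt p.De ω = lam := by
      intro e0 he0
      subst he0
      exact ⟨ρ, ω, hρ, hmet, hlab, hl⟩
    exact key _ hgt

/-- the geometry of the rows which meet `lam` at the end gate -/
theorem ae2_ml_geo (π : SfPar) (hπ : π.Valid) (hc : π.hyb = false) (C0 τ κ0 Λ : ℝ) (p : Ae2P) (hp : p.Ok π Λ)
    (w : ℝ) (hw : 0 < w) (hwh : w ≤ p.h) :
    ∃ t0 : ℝ, 0 < t0 ∧ ∀ t : ℝ, t ≤ t0 → ∀ D : SfDoc, D.Fine π C0 τ κ0 t → ∀ lam : SfTest,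
      (∀ ω : D.Row 1, D.Met (D.gt p.De) lam ω → (D.P 1).p ω ≠ 0 →
        D.labAt p.De ω = lam ∧ 0 ≤ lam.T - (D.labAt p.j ω).T ∧ lam.T - (D.labAt p.j ω).T ≤ D.s ^ (p.j - 2 * t) ∧
        |(D.labAt p.j ω).beAt lam.T - lam.be| ≤ D.s ^ ((nmDsStr π p.De).b p.j + w - 2 * t)) ∧
      (∀ ω ω' : D.Row 1, D.Met (D.gt p.De) lam ω → (D.P 1).p ω ≠ 0 → D.Met (D.gt p.De) lam ω' → (D.P 1).p ω' ≠ 0 →
        (D.labAt p.j ω).T = (D.labAt p.j ω').T) := by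
  obtain ⟨t1, ht1, g⟩ := ae2_ml_path π hπ hc C0 τ κ0 Λ p hp
  have hq0 := abs_nonneg π.q
  have hΔ : 0 < p.De - p.j := by linarith [hp.hjD]
  refine ⟨min t1 (min (w / (|π.q| + 1)) ((p.De - p.j) / 4)), lt_min ht1 (lt_min (by positivity) (by positivity)), ?_⟩
  intro t htt D hD lam
  have ht := hD.pos
  have htt1 : t ≤ t1 := htt.trans (min_le_left _ _)
  have httw : t ≤ w / (|π.q| + 1) := htt.trans ((min_le_right _ _).trans (min_le_left _ _))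
  have httΔ : t ≤ (p.De - p.j) / 4 := htt.trans ((min_le_right _ _).trans (min_le_right _ _))
  have hqt : (|π.q| + 1) * t ≤ w := by
    rw [le_div_iff₀ (by positivity)] at httw
    linarith
  have hcore := hD.ok.core
  have hs := hcore.hs
  have hne : D.G.Nonempty := ⟨1, hcore.gate.1⟩
  have ha0 : 0 < p.a := hp.root.ha.1
  have hj0 : 0 ≤ p.j := by linarith [hp.haj]
  have hj1 : p.j ≤ 1 := by linarith [hp.hjD, hp.hD1]
  have hi := nm_gt_mem D hne p.j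
  have he := nm_gt_mem D hne p.De
  have ni := nm_gt_near hD hj0 hj1
  have ne := nm_gt_near hD (by linarith [hp.hjD]) hp.hD1
  have hie : D.gt p.j < D.gt p.De := by
    rw [abs_le] at ni ne
    linarith [ni.1, ni.2, ne.1, ne.2]
  have hg1 : 400 * p.h ≤ p.De - p.j := hp.hgap.trans ((min_le_right _ _).trans (min_le_left _ _))
  have hg2 : 400 * p.h ≤ (1 - π.q) * (p.De - p.j) := hp.hgap.trans ((min_le_right _ _).trans (min_le_right _ _))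
  have hb : (nmDsStr π p.De).b p.j = π.b2 p.De + (p.j - p.De) := by
    unfold NmDs.b nmDsStr
    simp
  have hqi : |π.q * (D.gt p.j - p.j)| ≤ |π.q| * t := by
    rw [abs_mul]
    exact mul_le_mul_of_nonneg_left ni hq0
  have hqe : |π.q * (D.gt p.De - p.De)| ≤ |π.q| * t := by
    rw [abs_mul]
    exact mul_le_mul_of_nonneg_left ne hq0
  have hexp : (nmDsStr π p.De).b p.j + w - 2 * t ≤ min (π.b2 (D.gt p.j)) (π.b2 (D.gt p.De)) - t := by
    rw [hb]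
    rw [abs_le] at hqi hqe
    have e1 : π.b2 p.De + (p.j - p.De) + w ≤ π.b2 (D.gt p.j) := by
      unfold SfPar.b2
      nlinarith [hqi.1, hqi.2]
    have e2 : π.b2 p.De + (p.j - p.De) + w ≤ π.b2 (D.gt p.De) := by
      unfold SfPar.b2
      nlinarith [hqe.1, hqe.2]
    have := le_min e1 e2
    linarith
  constructor
  · intro ω hmet hω
    obtain ⟨ρ, ρe, hconn, hlam, hlj, hlD⟩ := g D (nm_me_fine_mono hD htt1) lam ω hmet hω
    obtain ⟨n1, n2, n3⟩ := lay_near D π C0 t _ _ hcore hi he hie ρ ρe hconn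
    have hc1 := (hD.ok.aff.cmpA _ hi _ he hie ρ ρe hconn).1
    have hT : D.T (D.gt p.De) ρe = lam.T := by rw [← hlam]; rfl
    have hTj : D.T (D.gt p.j) ρ = (D.labAt p.j ω).T := by rw [hlj]; rfl
    rw [hT] at n1 n2 hc1
    rw [hTj] at n1 n2
    rw [hlam, ← hlj] at hc1
    refine ⟨hlD, n1, ?_, hc1.trans (lay_rpow_anti hs.1 hs.2 hexp)⟩
    refine n2.le.trans (n3.trans (lay_rpow_anti hs.1 hs.2 ?_))
    rw [abs_le] at ni
    linarith [ni.1]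
  · intro ω ω' hmet hω hmet' hω'
    obtain ⟨ρ, ρe, hconn, hlam, hlj, -⟩ := g D (nm_me_fine_mono hD htt1) lam ω hmet hω
    obtain ⟨ρ', ρe', hconn', hlam', hlj', -⟩ := g D (nm_me_fine_mono hD htt1) lam ω' hmet' hω'
    have hT : D.T (D.gt p.De) ρe = D.T (D.gt p.De) ρe' := by
      show (D.lab _ ρe).T = (D.lab _ ρe').T
      rw [hlam, hlam']
    have := lay_start D π C0 t _ _ hcore hi he hie ρ ρ' ρe ρe' hconn hconn' hT
    rw [hlj, hlj']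
    exact this

/-- LEAF L-256-E2-M2.  **(b): an end label sees few groups of successful rows.**   Fix `lam`; all `ω` below satisfy `D.Met e0 lam ω`, `Ev ω`.
1. `nm_pred_end` (Nm/Contract; `q = ae2Q π De`, at `a` and at `a + 40 h`; `l(x, u De) = b1 De + x - De ≤ b1 De`): `nm(a, v0) ω`, `nm(a + 40 h, v0) ω` lie in lists of size `s^(-e)` depending on `lam`.
2. `NmRep.rep2`: `cs ω` in a list of `K0` given `nm(a, v0) ω`;  hypothesis `hN`: `S ω = ltS R ω` in a list of `N` given `(O_40 ω, cs ω) = ((nm(a + 40 h, v0) ω, cs ω), cs ω)`.   So `(cs, S, k̄)(ω)` has `≤ K0 N s^(-2e)` values (`k̄`: entry `kb` of the name, `nm_kbar_val`).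
3. `Ev`: `|I (cs, S) - trep δ 30 e2K| < δ^χ`, so `K_j = lam_j.K` lies within `s^ζ (δ^χ + δ^30) ≤ 2 s^(ζ + χ h)` of `k̄ + s^ζ I (cs, S)`: at most `4 s^(χ h - w) + 2 ≤ 6` cells of depth `ζ + w` (`w < χ h`; mesh `≥ s^(ζ+w) / 2`).
4. `T_j` is determined by `lam.T` (`lay_start`).      5. Given the slope cell (`Kb`): `lam_j.be = lam_j.beAt lam.T - (lam.T - T_j) K_j` is within `s^(min b2 - t) + s^(j0 - t) s^(ζ + w) ≤ 2 s^(b j + w - 2t)` of `lam.be - (lam.T - T_j) Kb`: at most `8 s^(-2t) + 2` cells of depth `b j + w`.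
Total `≤ K0 N s^(-2e) * 6 * (8 s^(-2t) + 2) ≤ N s^(-acc)`. -/
theorem ae2_mis_lab (π : SfPar) (hπ : π.Valid) (h1 : π.c2 = 1) (h2 : π.q < 1) (hc : π.hyb = false) (C0 τ κ0 Λ : ℝ) (p : Ae2P) (hp : p.Ok π Λ)
    (χ w : ℝ) (hw : 0 < w) (hwχ : w < χ * p.h) (hχ1 : χ ≤ 1) (K0 e R acc : ℝ) (hacc : 0 < acc) :
    ∃ t0 : ℝ, 0 < t0 ∧ ∀ D : SfDoc, D.Fine π C0 τ κ0 t0 → nmX π D t0 → NmRep D π (p.rt π) K0 e →
    ∀ (dsp : ℝ → NmNm → NmNm → ItDsp) (N : ℝ), 1 ≤ N →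
      (D.P 1).NVal (fun _ => True) ((ae2Tan D π p dsp).ltS R) (pair ((ae2Tan D π p dsp).O 40) (ae2Tan D π p dsp).Cs) N →
    ∀ (I : NmNm × LttS → ℝ) (lam : SfTest),
      (({b | ∃ ω, D.Met (D.gt p.De) lam ω ∧ D.e2Ev π p dsp χ R I ω ∧ D.e2grp π p w ω = b} : Set (ℝ × ℤ × ℤ)).ncard : ℝ) ≤ N * D.s ^ (-acc) := by
  have hh := hp.h0
  have hwh : w ≤ p.h := by nlinarith
  have ha0 : 0 < p.a := hp.root.ha.1
  have hga : 400 * p.h ≤ p.j - p.a := hp.hgap.trans (min_le_left _ _)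
  have hb1 : π.b1 p.De = π.b2 p.De + π.u p.De := by
    unfold SfPar.b1 SfPar.b2 SfPar.u
    ring
  have hl : ∀ a : ℝ, a ≤ p.De → (ae2Q π p.De).l π a (π.u (ae2Q π p.De).ds.De) ≤ π.b1 (ae2Q π p.De).ds.De := by
    intro a ha
    show π.b2 p.De + 1 * (a - p.De) + π.u p.De ≤ π.b1 p.De
    rw [hb1]
    linarith
  obtain ⟨t1, ht1, g1⟩ := nm_pred_end π hπ C0 τ κ0 (ae2Q π p.De) hp.root.q rfl rfl p.a
    ⟨ha0, by show p.a < p.De; linarith [hp.haj, hp.hjD]⟩ (hl _ (by linarith [hp.haj, hp.hjD]))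
    (fun h => by rw [hc] at h; cases h) (acc / 8) (by positivity)
  obtain ⟨t2, ht2, g2⟩ := nm_pred_end π hπ C0 τ κ0 (ae2Q π p.De) hp.root.q rfl rfl (p.a + 40 * p.h)
    ⟨by linarith, by show p.a + 40 * p.h < p.De; linarith [hp.haj, hp.hjD]⟩ (hl _ (by linarith [hp.haj, hp.hjD]))
    (fun h => by rw [hc] at h; cases h) (acc / 8) (by positivity)
  obtain ⟨t3, ht3, g3⟩ := ae2_ml_geo π hπ hc C0 τ κ0 Λ p hp w hw hwh
  obtain ⟨t4, ht4, g4⟩ := ae2_th_aux_small (80 * max K0 0 + 1) (acc / 2) (by positivity) (by positivity)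
  refine ⟨min (min t1 t2) (min (min t3 t4) (acc / 8)), lt_min (lt_min ht1 ht2) (lt_min (lt_min ht3 ht4) (by positivity)), ?_⟩
  intro D hD hX hRep dsp N hN1 hval I lam
  obtain ⟨t, htdef⟩ : ∃ t : ℝ, t = min (min t1 t2) (min (min t3 t4) (acc / 8)) := ⟨_, rfl⟩
  rw [← htdef] at hD hX
  have htt1 : t ≤ t1 := htdef ▸ (min_le_left _ _).trans (min_le_left _ _)
  have htt2 : t ≤ t2 := htdef ▸ (min_le_left _ _).trans (min_le_right _ _)
  have htt3 : t ≤ t3 := htdef ▸ (min_le_right _ _).trans ((min_le_left _ _).trans (min_le_left _ _))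
  have htt4 : t ≤ t4 := htdef ▸ (min_le_right _ _).trans ((min_le_left _ _).trans (min_le_right _ _))
  have htt5 : t ≤ acc / 8 := htdef ▸ (min_le_right _ _).trans (min_le_right _ _)
  have ht := hD.pos
  have hcore := hD.ok.core
  have hs := hcore.hs
  obtain ⟨G1, G2⟩ := g3 t htt3 D hD lam
  have hK80 := g4 D.s hs.1 (hD.sm.trans htt4)
  -- the event
  obtain ⟨E, hE⟩ : ∃ E : D.Row 1 → Prop, E = fun ω => D.Met (D.gt p.De) lam ω ∧ D.e2Ev π p dsp χ R I ω := ⟨_, rfl⟩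
  have hE1 : ∀ ω, E ω → D.Met (D.gt p.De) lam ω := fun ω h => by rw [hE] at h; exact h.1
  have hE2 : ∀ ω, E ω → (D.P 1).p ω ≠ 0 := fun ω h => by rw [hE] at h; exact h.2.1
  have hE3 : ∀ ω, E ω → |I (D.cs π (p.rt π) ω, (ae2Tan D π p dsp).ltS R ω) - trep (D.s ^ p.h) 30 (D.e2K π p.De (D.labAt p.j ω) ω)| < (D.s ^ p.h) ^ χ :=
    fun ω h => by rw [hE] at h; exact h.2.2
  have hpa : 0 < D.s ^ (-(acc / 8)) := Real.rpow_pos_of_pos hs.1 _
  have hp2t : 1 ≤ D.s ^ (-(2 * t)) := Real.one_le_rpow_of_pos_of_le_one_of_nonpos hs.1 hs.2.le (by linarith)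
  -- the lists
  have L1 : ∃ S : Finset NmNm, (S.card : ℝ) ≤ D.s ^ (-(acc / 8)) ∧ ∀ ω, E ω → D.nm π (ae2Q π p.De) p.a (π.u p.De) ω ∈ S := by
    obtain ⟨S, hS, hm⟩ := g1 D (nm_me_fine_mono hD htt1) (nm_me_x_mono hs htt1 hX) lam ()
    exact ⟨S, hS, fun ω h => hm ω (hE1 ω h) trivial rfl⟩
  have L2 := ae2_ml_step E (D.nm π (ae2Q π p.De) p.a (π.u p.De)) (D.nm π (ae2Q π p.De) (p.a + 40 * p.h) (π.u p.De)) _ _ hpa.le L1
    (fun ω₀ _ => by
      obtain ⟨S, hS, hm⟩ := g2 D (nm_me_fine_mono hD htt2) (nm_me_x_mono hs htt2 hX) lam ()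
      exact ⟨S, hS, fun ω h _ => hm ω (hE1 ω h) trivial rfl⟩)
  have L3 := ae2_ml_step E _ (D.cs π (p.rt π)) _ (max K0 0) (le_max_right _ _) L2
    (fun ω₀ _ => by
      obtain ⟨S, hS, hm⟩ := hRep.rep2 ω₀
      exact ⟨S, hS.trans (le_max_left _ _), fun ω h hA => hm ω (hE2 ω h) trivial (congrArg Prod.fst hA)⟩)
  have L4 := ae2_ml_step E _ (fun ω : D.Row 1 => (ae2Tan D π p dsp).ltS R ω) _ N (by linarith) L3
    (fun ω₀ _ => by
      obtain ⟨S, hS, hm⟩ := hval ω₀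
      refine ⟨S, hS, fun ω h hA => hm ω (hE2 ω h) trivial ?_⟩
      have e1 : D.nm π (ae2Q π p.De) (p.a + 40 * p.h) (π.u p.De) ω = D.nm π (ae2Q π p.De) (p.a + 40 * p.h) (π.u p.De) ω₀ :=
        congrArg (fun x => x.1.2) hA
      have e2 : D.cs π (p.rt π) ω = D.cs π (p.rt π) ω₀ := congrArg Prod.snd hA
      show ((D.nm π (ae2Q π p.De) (p.a + 40 * p.h) (π.u p.De) ω, D.cs π (p.rt π) ω), D.cs π (p.rt π) ω)
        = ((D.nm π (ae2Q π p.De) (p.a + 40 * p.h) (π.u p.De) ω₀, D.cs π (p.rt π) ω₀), D.cs π (p.rt π) ω₀)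
      rw [e1, e2])
  -- the slope cells
  have hkb : ∀ ω, E ω → D.kbar π (nmDsStr π p.De) ω = nmRep D.s (π.b2 p.De - p.De) lam.K := by
    intro ω h
    have := (G1 ω (hE1 ω h) (hE2 ω h)).1
    show (if true = true then nmRep D.s (π.b2 p.De - p.De) (D.labAt p.De ω).K else 0) = _
    rw [if_pos rfl, this]
  have hδ0 : 0 < D.s ^ p.h := Real.rpow_pos_of_pos hs.1 _
  have hδ1 : D.s ^ p.h < 1 := Real.rpow_lt_one hs.1.le hs.2 hh
  have hδ30 : (D.s ^ p.h) ^ (30 : ℝ) ≤ (D.s ^ p.h) ^ χ := Real.rpow_le_rpow_of_exponent_ge hδ0 hδ1.le (by linarith)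
  have hζ0 : 0 < D.s ^ (π.b2 p.De - p.De) := Real.rpow_pos_of_pos hs.1 _
  have PK : ∀ ω ω', E ω → E ω' →
      (((D.nm π (ae2Q π p.De) p.a (π.u p.De) ω, D.nm π (ae2Q π p.De) (p.a + 40 * p.h) (π.u p.De) ω), D.cs π (p.rt π) ω), (ae2Tan D π p dsp).ltS R ω)
        = (((D.nm π (ae2Q π p.De) p.a (π.u p.De) ω', D.nm π (ae2Q π p.De) (p.a + 40 * p.h) (π.u p.De) ω'), D.cs π (p.rt π) ω'), (ae2Tan D π p dsp).ltS R ω') →
      |((nmCell D.s (π.b2 p.De - p.De + w) (D.labAt p.j ω).K - nmCell D.s (π.b2 p.De - p.De + w) (D.labAt p.j ω').K : ℤ) : ℝ)| ≤ 9 := by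
    intro ω ω' h h' hA
    have e1 : D.cs π (p.rt π) ω = D.cs π (p.rt π) ω' := congrArg (fun x => x.1.2) hA
    have e2 : (ae2Tan D π p dsp).ltS R ω = (ae2Tan D π p dsp).ltS R ω' := congrArg Prod.snd hA
    have a1 := hE3 ω h
    have a2 := hE3 ω' h'
    rw [e1, e2] at a1
    have b1 := tl_abs_sub_trep hδ0 30 (D.e2K π p.De (D.labAt p.j ω) ω)
    have b2 := tl_abs_sub_trep hδ0 30 (D.e2K π p.De (D.labAt p.j ω') ω')
    have c1 : |D.e2K π p.De (D.labAt p.j ω) ω - D.e2K π p.De (D.labAt p.j ω') ω'| ≤ 4 * (D.s ^ p.h) ^ χ := by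
      rw [abs_lt] at a1 a2
      rw [abs_le] at b1 b2 ⊢
      constructor <;> linarith [a1.1, a1.2, a2.1, a2.2, b1.1, b1.2, b2.1, b2.2]
    have c2 : D.e2K π p.De (D.labAt p.j ω) ω - D.e2K π p.De (D.labAt p.j ω') ω'
        = ((D.labAt p.j ω).K - (D.labAt p.j ω').K) / D.s ^ (π.b2 p.De - p.De) := by
      unfold SfDoc.e2K
      rw [hkb ω h, hkb ω' h']
      ring
    rw [c2, abs_div, abs_of_pos hζ0, div_le_iff₀ hζ0, ← Real.rpow_mul hs.1.le, mul_assoc, ← Real.rpow_add hs.1] at c1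
    have c3 := nm_cell_close hs.1 hs.2 (p.h * χ + (π.b2 p.De - p.De)) (π.b2 p.De - p.De + w) c1
    refine c3.trans ?_
    have : D.s ^ (-(π.b2 p.De - p.De + w - (p.h * χ + (π.b2 p.De - p.De)))) ≤ 1 :=
      Real.rpow_le_one hs.1.le hs.2.le (by linarith)
    linarith
  have L5 := ae2_ml_step E _ (fun ω : D.Row 1 => nmCell D.s (π.b2 p.De - p.De + w) (D.labAt p.j ω).K) _ (9 + 1) (by norm_num) L4
    (fun ω₀ _ => ae2_ml_int E _ _ 9 (by norm_num) PK ω₀)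
  -- the value cells
  have PB : ∀ ω ω', E ω → E ω' →
      ((((D.nm π (ae2Q π p.De) p.a (π.u p.De) ω, D.nm π (ae2Q π p.De) (p.a + 40 * p.h) (π.u p.De) ω), D.cs π (p.rt π) ω), (ae2Tan D π p dsp).ltS R ω),
          nmCell D.s (π.b2 p.De - p.De + w) (D.labAt p.j ω).K)
        = ((((D.nm π (ae2Q π p.De) p.a (π.u p.De) ω', D.nm π (ae2Q π p.De) (p.a + 40 * p.h) (π.u p.De) ω'), D.cs π (p.rt π) ω'), (ae2Tan D π p dsp).ltS R ω'),
          nmCell D.s (π.b2 p.De - p.De + w) (D.labAt p.j ω').K) →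
      |((nmCell D.s ((nmDsStr π p.De).b p.j + w) (D.labAt p.j ω).be - nmCell D.s ((nmDsStr π p.De).b p.j + w) (D.labAt p.j ω').be : ℤ) : ℝ)|
        ≤ 6 * D.s ^ (-(2 * t)) + 1 := by
    intro ω ω' h h' hA
    have e1 : nmCell D.s (π.b2 p.De - p.De + w) (D.labAt p.j ω).K = nmCell D.s (π.b2 p.De - p.De + w) (D.labAt p.j ω').K := congrArg Prod.snd hA
    have a1 := nm_close_of_cell hs.1 hs.2 e1
    obtain ⟨-, n1, n2, n3⟩ := G1 ω (hE1 ω h) (hE2 ω h)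
    obtain ⟨-, -, -, n3'⟩ := G1 ω' (hE1 ω' h') (hE2 ω' h')
    have hT := G2 ω ω' (hE1 ω h) (hE2 ω h) (hE1 ω' h') (hE2 ω' h')
    have hb : (nmDsStr π p.De).b p.j = π.b2 p.De + (p.j - p.De) := by
      unfold NmDs.b nmDsStr
      simp
    have c1 : |(lam.T - (D.labAt p.j ω).T) * ((D.labAt p.j ω).K - (D.labAt p.j ω').K)| ≤ D.s ^ ((nmDsStr π p.De).b p.j + w - 2 * t) := by
      rw [abs_mul, abs_of_nonneg n1]
      calc (lam.T - (D.labAt p.j ω).T) * |(D.labAt p.j ω).K - (D.labAt p.j ω').K|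
          ≤ D.s ^ (p.j - 2 * t) * D.s ^ (π.b2 p.De - p.De + w) :=
            mul_le_mul n2 a1 (abs_nonneg _) (Real.rpow_nonneg hs.1.le _)
        _ = D.s ^ ((nmDsStr π p.De).b p.j + w - 2 * t) := by
            rw [← Real.rpow_add hs.1, hb]
            congr 1
            ring
    have c2 : (D.labAt p.j ω).be - (D.labAt p.j ω').be
        = ((D.labAt p.j ω).beAt lam.T - lam.be) - ((D.labAt p.j ω').beAt lam.T - lam.be)
          - (lam.T - (D.labAt p.j ω).T) * ((D.labAt p.j ω).K - (D.labAt p.j ω').K) := by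
      unfold SfTest.beAt
      rw [← hT]
      ring
    have c3 : |(D.labAt p.j ω).be - (D.labAt p.j ω').be| ≤ 3 * D.s ^ ((nmDsStr π p.De).b p.j + w - 2 * t) := by
      rw [c2]
      rw [abs_le] at n3 n3' c1 ⊢
      constructor <;> linarith [n3.1, n3.2, n3'.1, n3'.2, c1.1, c1.2]
    have c4 := nm_cell_close hs.1 hs.2 ((nmDsStr π p.De).b p.j + w - 2 * t) ((nmDsStr π p.De).b p.j + w) c3
    have e3 : -((nmDsStr π p.De).b p.j + w - ((nmDsStr π p.De).b p.j + w - 2 * t)) = -(2 * t) := by ring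
    rw [e3] at c4
    linarith
  have L6 := ae2_ml_step E _ (fun ω : D.Row 1 => nmCell D.s ((nmDsStr π p.De).b p.j + w) (D.labAt p.j ω).be) _ (6 * D.s ^ (-(2 * t)) + 1 + 1)
    (by linarith) L5 (fun ω₀ _ => ae2_ml_int E _ _ (6 * D.s ^ (-(2 * t)) + 1) (by linarith) PB ω₀)
  obtain ⟨S, hS, hm⟩ := L6
  have hN0 : 0 ≤ N := by linarith
  have hK0 : 0 ≤ max K0 0 := le_max_right _ _
  -- numerology
  obtain ⟨P, hP⟩ : ∃ P : ℝ, P = D.s ^ (-(acc / 8)) := ⟨_, rfl⟩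
  rw [← hP] at hS hpa
  have q2 : P * P = D.s ^ (-(acc / 4)) := by
    rw [hP, ← Real.rpow_add hs.1]
    congr 1
    ring
  have q4 : P * P * (P * P) = D.s ^ (-(acc / 2)) := by
    rw [q2, ← Real.rpow_add hs.1]
    congr 1
    ring
  have q8 : P * P * (P * P) * (P * P * (P * P)) = D.s ^ (-acc) := by
    rw [q4, ← Real.rpow_add hs.1]
    congr 1
    ring
  have hQ : D.s ^ (-(2 * t)) ≤ P * P := by
    rw [q2]
    exact lay_rpow_anti hs.1 hs.2 (by linarith)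
  have hnum : (S.card : ℝ) ≤ N * D.s ^ (-acc) := by
    calc (S.card : ℝ) ≤ P * P * max K0 0 * N * (9 + 1) * (6 * D.s ^ (-(2 * t)) + 1 + 1) := hS
      _ ≤ P * P * max K0 0 * N * (9 + 1) * (8 * (P * P)) :=
          mul_le_mul_of_nonneg_left (by linarith) (by positivity)
      _ = N * (P * P * (P * P)) * (80 * max K0 0) := by ring
      _ ≤ N * (P * P * (P * P)) * (P * P * (P * P)) :=
          mul_le_mul_of_nonneg_left (by rw [q4]; linarith) (by positivity)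
      _ = N * D.s ^ (-acc) := by rw [← q8]; ring
  rcases Set.eq_empty_or_nonempty ({b | ∃ ω, D.Met (D.gt p.De) lam ω ∧ D.e2Ev π p dsp χ R I ω ∧ D.e2grp π p w ω = b} : Set (ℝ × ℤ × ℤ))
    with hemp | ⟨b0, ω0, hm0, hev0, -⟩
  · rw [hemp]
    simp only [Set.ncard_empty, Nat.cast_zero]
    exact mul_nonneg hN0 (Real.rpow_nonneg hs.1.le _)
  · refine le_trans ?_ hnum
    have hsub : ({b | ∃ ω, D.Met (D.gt p.De) lam ω ∧ D.e2Ev π p dsp χ R I ω ∧ D.e2grp π p w ω = b} : Set (ℝ × ℤ × ℤ))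
        ⊆ ↑(S.image fun x => ((D.labAt p.j ω0).T, x.1.2, x.2)) := by
      rintro b ⟨ω, h1', h2', rfl⟩
      have hEω : E ω := by rw [hE]; exact ⟨h1', h2'⟩
      rw [Finset.coe_image]
      refine ⟨_, hm ω hEω, ?_⟩
      unfold SfDoc.e2grp
      rw [G2 ω0 ω hm0 hev0.1 h1' h2'.1]
    have h3 := Set.ncard_le_ncard hsub (Finset.finite_toSet _)
    rw [Set.ncard_coe_finset] at h3
    exact_mod_cast h3.trans Finset.card_image_le


/-- the numerology of `ae2_mis`: `c = κ0 (De - j)`, `x = κ0 (e - i) ≥ c / 2` -/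
theorem ae2_mis_num (c tl : ℝ) (hc : 0 < c) (htl : 0 < tl) : ∃ t0 : ℝ, 0 < t0 ∧ ∀ t : ℝ, 0 < t → t ≤ t0 → ∀ s : ℝ, 0 < s → s < 1 → s ≤ t →
    ∀ x : ℝ, c / 2 ≤ x → (t ≤ x ∧ True) ∧ s ^ (-t) * (s ^ x) ^ ((2 : ℝ) / 3) + s ^ (1 / t) ≤ tl := by
  have hc6 : 0 < c / 6 := by positivity
  have hq : 0 < (tl / 2) ^ (1 / (c / 6)) := Real.rpow_pos_of_pos (by positivity) _
  refine ⟨min (min 1 (tl / 2)) (min (c / 6) ((tl / 2) ^ (1 / (c / 6)))),
    lt_min (lt_min one_pos (by positivity)) (lt_min hc6 hq), ?_⟩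
  intro t ht htt s hs0 hs1 hst x hx
  have a1 : t ≤ 1 := htt.trans ((min_le_left _ _).trans (min_le_left _ _))
  have a2 : t ≤ tl / 2 := htt.trans ((min_le_left _ _).trans (min_le_right _ _))
  have a3 : t ≤ c / 6 := htt.trans ((min_le_right _ _).trans (min_le_left _ _))
  have a4 : t ≤ (tl / 2) ^ (1 / (c / 6)) := htt.trans ((min_le_right _ _).trans (min_le_right _ _))
  refine ⟨⟨by linarith, trivial⟩, ?_⟩
  have b1 : s ^ (1 / t) ≤ tl / 2 := by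
    have : s ^ (1 / t) ≤ s ^ (1 : ℝ) :=
      Real.rpow_le_rpow_of_exponent_ge hs0 hs1.le (by rw [le_div_iff₀ ht]; linarith)
    rw [Real.rpow_one] at this
    linarith
  have b2 : s ^ (-t) * (s ^ x) ^ ((2 : ℝ) / 3) ≤ tl / 2 := by
    rw [← Real.rpow_mul hs0.le, ← Real.rpow_add hs0]
    calc s ^ (-t + x * (2 / 3)) ≤ s ^ (c / 6) :=
          Real.rpow_le_rpow_of_exponent_ge hs0 hs1.le (by linarith)
      _ ≤ ((tl / 2) ^ (1 / (c / 6))) ^ (c / 6) :=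
          Real.rpow_le_rpow hs0.le (hst.trans a4) hc6.le
      _ = tl / 2 := by
          rw [← Real.rpow_mul (by positivity)]
          have : 1 / (c / 6) * (c / 6) = 1 := by field_simp
          rw [this, Real.rpow_one]
  linarith

/-- LEAF L-256-E2-M3.  **the mismatch property** (assembly).   `w = χ h / 2`, `τc = χ h / (4 (De - j)) = w / (2 (De - j))`.   `ae2_extract` with `i = D.gt j`, `e = D.gt De`, `t = t0`; `ht`: `t0 ≤ κ0 (De - j) / 2 ≤ κ0 (e - i)`;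
(a): one group (header);  (b): `ae2_mis_lab` with `acc = κ0 (De - j) / 4`, `N ≤ s^(-κ0 (De - j) / 4)`, `e - i ≥ (De - j) - 2 t0`... so `N s^(-acc) ≤ s^(-κ0 (De - j) / 2) ≤ s^(-κ0 (e - i))` needs `e - i ≥ (De - j) / 2`;  (c), (sz): `ae2_mis_cost`.
Conclusion `pr Ev ≤ s^(-t) (s^(κ0 (e - i)))^(2/3) + s^(1/t) ≤ tl` for `D.s ≤ t0` small;  `pr {|I - ka| < δ^χ} = pr Ev` (`pr` sees charged points only: `ent_pr_congr`). -/
theorem ae2_mis (π : SfPar) (hπ : π.Valid) (h1 : π.c2 = 1) (h2 : π.q < 1) (hc : π.hyb = false) (C0 κ0 Λ : ℝ) (hκ0 : 0 < κ0) (p : Ae2P) (hp : p.Ok π Λ)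
    (χ : ℝ) (hχ : 0 < χ) (hχ1 : χ ≤ 1) (K0 e R : ℝ) :
    NmA π C0 (χ * p.h / (4 * (p.De - p.j))) κ0 fun tl D => NmRep D π (p.rt π) K0 e →
      ∀ (dsp : ℝ → NmNm → NmNm → ItDsp) (N : ℝ), 1 ≤ N → N ≤ D.s ^ (-(κ0 * (p.De - p.j) / 4)) →
        (D.P 1).NVal (fun _ => True) ((ae2Tan D π p dsp).ltS R) (pair ((ae2Tan D π p dsp).O 40) (ae2Tan D π p dsp).Cs) N →
      ∀ I : NmNm × LttS → ℝ,
        (D.P 1).pr (fun ω => |I (D.cs π (p.rt π) ω, (ae2Tan D π p dsp).ltS R ω) - ae2Ka (D.s ^ p.h) (D.e2Z π p ω)| < (D.s ^ p.h) ^ χ) ≤ tl := by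
  intro tl htl
  have hΔ : 0 < p.De - p.j := by linarith [hp.hjD]
  have hh := hp.h0
  have hw : 0 < χ * p.h / 2 := by positivity
  have hwh : χ * p.h / 2 ≤ p.h := by nlinarith
  have hwχ : χ * p.h / 2 < χ * p.h := by linarith
  have hτ : χ * p.h / 2 / (2 * (p.De - p.j)) = χ * p.h / (4 * (p.De - p.j)) := by
    field_simp
    ring
  have hacc : 0 < κ0 * (p.De - p.j) / 4 := by positivity
  obtain ⟨t1, ht1, g1⟩ := ae2_mis_cost π hπ h1 h2 hc C0 (χ * p.h / (4 * (p.De - p.j))) κ0 Λ p hp (χ * p.h / 2) hw hwh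
  obtain ⟨t2, ht2, g2⟩ := ae2_mis_lab π hπ h1 h2 hc C0 (χ * p.h / (4 * (p.De - p.j))) κ0 Λ p hp χ (χ * p.h / 2) hw hwχ hχ1
    K0 e R (κ0 * (p.De - p.j) / 4) hacc
  obtain ⟨t0, ht0, hle⟩ := ae2_mis_num (κ0 * (p.De - p.j)) tl (by positivity) htl
  refine ⟨min (min t1 t2) (min t0 ((p.De - p.j) / 4)), lt_min (lt_min ht1 ht2) (lt_min ht0 (by positivity)), ?_⟩
  intro D hD hX hRep dsp N hN1 hN hval I
  set t : ℝ := min (min t1 t2) (min t0 ((p.De - p.j) / 4)) with htdef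
  have htpos : 0 < t := hD.pos
  have htt1 : t ≤ t1 := (min_le_left _ _).trans (min_le_left _ _)
  have htt2 : t ≤ t2 := (min_le_left _ _).trans (min_le_right _ _)
  have htt0 : t ≤ t0 := (min_le_right _ _).trans (min_le_left _ _)
  have httΔ : t ≤ (p.De - p.j) / 4 := (min_le_right _ _).trans (min_le_right _ _)
  have hcore := hD.ok.core
  have hs := hcore.hs
  have hne : D.G.Nonempty := ⟨1, hcore.gate.1⟩
  have ha0 : 0 < p.a := hp.root.ha.1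
  have hj0 : 0 ≤ p.j := by linarith [hp.haj]
  have hj1 : p.j ≤ 1 := by linarith [hp.hjD, hp.hD1]
  have hi := nm_gt_mem D hne p.j
  have he := nm_gt_mem D hne p.De
  have ni := nm_gt_near hD hj0 hj1
  have ne := nm_gt_near hD (by linarith [hp.hjD]) hp.hD1
  rw [abs_le] at ni ne
  have hgap : (p.De - p.j) / 2 ≤ D.gt p.De - D.gt p.j := by linarith [ni.1, ni.2, ne.1, ne.2]
  have hie : D.gt p.j < D.gt p.De := by linarith
  have he1 : D.gt p.De ≤ 1 := (hcore.gate.2 _ he).2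
  have hi1 : D.gt p.j < 1 := by linarith
  have hκgap : κ0 * (p.De - p.j) / 2 ≤ κ0 * (D.gt p.De - D.gt p.j) := by nlinarith
  obtain ⟨hA, hB⟩ := hle t htpos htt0 D.s hs.1 hs.2 hD.sm (κ0 * (D.gt p.De - D.gt p.j)) hκgap
  have hone : (1 : ℝ) ≤ D.s ^ (-(κ0 * (D.gt p.De - D.gt p.j))) :=
    Real.one_le_rpow_of_pos_of_le_one_of_nonpos hs.1 hs.2.le (by linarith [hacc])
  -- every charged final row meets a label at the end gate
  have hmet : ∀ ω : D.Row 1, (D.P 1).p ω ≠ 0 → ∃ lam, D.Met (D.gt p.De) lam ω := by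
    intro ω hω
    by_cases h : D.gt p.De = 1
    · refine ⟨D.lab 1 ω, ?_⟩
      unfold SfDoc.Met
      rw [if_pos h]
    · have hlt : D.gt p.De < 1 := lt_of_le_of_ne he1 h
      obtain ⟨ρ, hρ, -⟩ := hcore.clPath hc _ he 1 hcore.gate.1 hlt ω (lt_of_le_of_ne ((D.P 1).nonneg ω) (Ne.symm hω))
      refine ⟨D.lab _ ρ, ?_⟩
      unfold SfDoc.Met
      rw [if_neg h]
      exact ⟨ρ, rfl, hρ⟩
  have key := ae2_extract D π C0 (χ * p.h / (4 * (p.De - p.j))) κ0 t (D.gt p.j) (D.gt p.De) hD.ok htpos (by rw [h1]; norm_num)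
    hi he hie hA.1 (D.e2Ev π p dsp χ R I) (ℝ × ℤ × ℤ) (D.e2grp π p (χ * p.h / 2)) (ae2Sg D.s π p (χ * p.h / 2)) ?_ ?_ ?_ ?_
  · calc _ = (D.P 1).pr (D.e2Ev π p dsp χ R I) :=
          ent_pr_congr _ fun ω hω => ⟨fun h => ⟨hω, h⟩, fun h => h.2⟩
      _ ≤ _ := key
      _ ≤ tl := hB
  · -- (a): one group
    intro ρ0
    refine le_trans ?_ hone
    have hsub : ({b | ∃ ω, D.Conn (D.gt p.j) 1 ρ0 ω ∧ D.e2Ev π p dsp χ R I ω ∧ D.e2grp π p (χ * p.h / 2) ω = b} : Set (ℝ × ℤ × ℤ)).Subsingleton := by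
      rintro b ⟨ω, hω, -, rfl⟩ b' ⟨ω', hω', -, rfl⟩
      have e1 := nm_labAt_eq hcore hc (ne_of_lt (by linarith [hp.hjD, hp.hD1] : p.j < 1)) hi1 hω
      have e2 := nm_labAt_eq hcore hc (ne_of_lt (by linarith [hp.hjD, hp.hD1] : p.j < 1)) hi1 hω'
      unfold SfDoc.e2grp
      rw [e1, e2]
    rcases hsub.eq_empty_or_singleton with h | ⟨b, h⟩
    · rw [h]; simp
    · rw [h]; simp
  · -- (b)
    intro lam
    refine (g2 D (nm_me_fine_mono hD htt2) (nm_me_x_mono hs htt2 hX) hRep dsp N hN1 hval I lam).trans ?_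
    have hp1 : 0 < D.s ^ (-(κ0 * (p.De - p.j) / 4)) := Real.rpow_pos_of_pos hs.1 _
    calc N * D.s ^ (-(κ0 * (p.De - p.j) / 4)) ≤ D.s ^ (-(κ0 * (p.De - p.j) / 4)) * D.s ^ (-(κ0 * (p.De - p.j) / 4)) :=
          mul_le_mul_of_nonneg_right hN hp1.le
      _ = D.s ^ (-(κ0 * (p.De - p.j) / 2)) := by
          rw [← Real.rpow_add hs.1]
          congr 1
          ring
      _ ≤ _ := Real.rpow_le_rpow_of_exponent_ge hs.1 hs.2.le (by linarith)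
  · -- (sz)
    intro ω hω
    obtain ⟨lam, hlam⟩ := hmet ω hω.1
    exact (g1 t htpos htt1 D hD lam ω hlam hω.1).2
  · -- (c)
    intro lam ω hlam hω
    have := (g1 t htpos htt1 D hD lam ω hlam hω.1).1
    rw [hτ] at this
    exact this

end

end Claimed.Agent.R256
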