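import Claimed.Agent.R256.Act.E2.Geo

/-!
# Row 256, section Act, block E2, file 4: THE PROBABILISTIC CLAUSES OF THE LINE TEST, CLASSICAL      (architect helper46; prefix `ae2_`)

`T = ae2Tan D π p dsp` (`= nmTan` at the boundary root), `Z = D.e2Z π p`, `δ = s^h`, `T.L = lg δ = h lgs`, `q = ae2Q π De`, `v0 = u De`.
* `ae2_time`  clause `time` of `Tan.LtPrb` for the REFINED side      (type A)      06 l.520-556
* `ae2_prof`  clause `prof` with the profile `M z = U(v0 + z h; a, v0) / h`      (flat sequence)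
* `ae2_stat`  clause `stat` from (ng)      (entropies only)      06 l.558-566
* `ae2_ent`   `H(O_1 | C) ≤ (𝓗(a + h, v0) - 𝓗(a, v0)) / h + σ` in units of `T.L`
-/

set_option autoImplicit false

namespace Claimed.Agent.R256

open Claimed.Agent.R255
open Claimed.Agent.R255.FLaw (pair)
open Filter Topology
open Classical

noncomputable section

/-- the numerics of `ae2_time` -/
theorem ae2_time_num (s t x d w ji acc : ℝ) (hs0 : 0 < s) (hs1 : s < 1) (hst : s ≤ t) (ht : 0 < t) (hx : 0 < x) (hd0 : 0 < d) (hd1 : d ≤ 1)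
    (h3 : 30 * t ≤ x) (h4 : t * x ≤ 1) (h6 : 11 * t ^ (x / 4) ≤ acc) (hji : w - 2 * t ≤ ji) :
    s ^ (-t) * (s ^ (-t) * (s ^ (-(x / 20)) * 9 * s ^ (-(x / 20)) * s ^ (-(x / 20)) * s ^ (-(d * w - x))) * s ^ (d * ji) + s ^ (1 / t)) ^ ((2 : ℝ) / 3)
      + s ^ (1 / t) ≤ acc := by
  have mo : ∀ {a b : ℝ}, b ≤ a → s ^ a ≤ s ^ b := fun h => Real.rpow_le_rpow_of_exponent_ge hs0 hs1.le h
  have hxt : x ≤ 1 / t := by rw [le_div_iff₀ ht]; linarith
  have e1 : s ^ (-t) * (s ^ (-(x / 20)) * 9 * s ^ (-(x / 20)) * s ^ (-(x / 20)) * s ^ (-(d * w - x))) * s ^ (d * ji)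
      = 9 * s ^ (-t + -(x / 20) + -(x / 20) + -(x / 20) + -(d * w - x) + d * ji) := by
    simp only [Real.rpow_add hs0]
    ring
  have e2 : s ^ (-t + -(x / 20) + -(x / 20) + -(x / 20) + -(d * w - x) + d * ji) ≤ s ^ (3 * x / 4) := by
    apply mo
    have : d * (w - 2 * t) ≤ d * ji := mul_le_mul_of_nonneg_left hji hd0.le
    nlinarith
  have e3 : s ^ (1 / t) ≤ s ^ (3 * x / 4) := mo (by linarith)
  have e4 : s ^ (1 / t) ≤ s ^ (x / 4) := mo (by linarith)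
  have hp : 0 < s ^ (3 * x / 4) := Real.rpow_pos_of_pos hs0 _
  have e5 : (s ^ (-t) * (s ^ (-(x / 20)) * 9 * s ^ (-(x / 20)) * s ^ (-(x / 20)) * s ^ (-(d * w - x))) * s ^ (d * ji) + s ^ (1 / t)) ^ ((2 : ℝ) / 3)
      ≤ 10 * s ^ (x / 2) := by
    rw [e1]
    have h10 : (10 : ℝ) ^ ((2 : ℝ) / 3) ≤ 10 := by
      calc (10 : ℝ) ^ ((2 : ℝ) / 3) ≤ (10 : ℝ) ^ (1 : ℝ) := Real.rpow_le_rpow_of_exponent_le (by norm_num) (by norm_num)
        _ = 10 := Real.rpow_one _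
    calc (9 * s ^ (-t + -(x / 20) + -(x / 20) + -(x / 20) + -(d * w - x) + d * ji) + s ^ (1 / t)) ^ ((2 : ℝ) / 3)
        ≤ (10 * s ^ (3 * x / 4)) ^ ((2 : ℝ) / 3) := by
          refine Real.rpow_le_rpow (by positivity) (by linarith) (by norm_num)
      _ = (10 : ℝ) ^ ((2 : ℝ) / 3) * s ^ (x / 2) := by
          rw [Real.mul_rpow (by norm_num) hp.le, ← Real.rpow_mul hs0.le]
          congr 2
          ring
      _ ≤ 10 * s ^ (x / 2) := mul_le_mul_of_nonneg_right h10 (Real.rpow_pos_of_pos hs0 _).le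
  have e6 : s ^ (-t) * (10 * s ^ (x / 2)) ≤ 10 * s ^ (x / 4) := by
    calc s ^ (-t) * (10 * s ^ (x / 2)) = 10 * s ^ (-t + x / 2) := by rw [Real.rpow_add hs0]; ring
      _ ≤ 10 * s ^ (x / 4) := mul_le_mul_of_nonneg_left (mo (by linarith)) (by norm_num)
  have e7 : s ^ (x / 4) ≤ t ^ (x / 4) := Real.rpow_le_rpow hs0.le hst (by linarith)
  have e8 := mul_le_mul_of_nonneg_left e5 (Real.rpow_pos_of_pos hs0 (-t)).le
  linarith

/-- the choice of the tolerance -/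
theorem ae2_time_t0 (x acc g : ℝ) (hx : 0 < x) (hacc : 0 < acc) (hg : 0 < g) :
    ∃ t : ℝ, 0 < t ∧ t ≤ g ∧ 30 * t ≤ x ∧ t * x ≤ 1 ∧ 11 * t ^ (x / 4) ≤ acc := by
  have hc : 0 < (acc / 11) ^ (4 / x) := Real.rpow_pos_of_pos (by positivity) _
  refine ⟨min (min g (x / 30)) (min (1 / x) ((acc / 11) ^ (4 / x))), by positivity, ?_, ?_, ?_, ?_⟩
  · exact (min_le_left _ _).trans (min_le_left _ _)
  · have := (min_le_left (min g (x / 30)) (min (1 / x) ((acc / 11) ^ (4 / x)))).trans (min_le_right _ _)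
    linarith
  · have := (min_le_right (min g (x / 30)) (min (1 / x) ((acc / 11) ^ (4 / x)))).trans (min_le_left _ _)
    calc _ ≤ 1 / x * x := mul_le_mul_of_nonneg_right this hx.le
      _ = 1 := by field_simp
  · have h1 := (min_le_right (min g (x / 30)) (min (1 / x) ((acc / 11) ^ (4 / x)))).trans (min_le_right _ _)
    have h2 : (min (min g (x / 30)) (min (1 / x) ((acc / 11) ^ (4 / x)))) ^ (x / 4) ≤ ((acc / 11) ^ (4 / x)) ^ (x / 4) :=
      Real.rpow_le_rpow (by positivity) h1 (by positivity)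
    rw [← Real.rpow_mul (by positivity), show 4 / x * (x / 4) = 1 by field_simp, Real.rpow_one] at h2
    linarith

/-- a positive lower bound of finitely many positive numbers -/
theorem ae2_time_min {ι : Type} (S : Finset ι) (f : ι → ℝ) (hf : ∀ z ∈ S, 0 < f z) : ∃ t : ℝ, 0 < t ∧ ∀ z ∈ S, t ≤ f z := by
  induction S using Finset.induction_on with
  | empty => exact ⟨1, one_pos, by simp⟩
  | insert a S _ ih =>
    obtain ⟨t, ht, h⟩ := ih fun z hz => hf z (Finset.mem_insert_of_mem hz)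
    refine ⟨min t (f a), lt_min ht (hf a (Finset.mem_insert_self _ _)), fun z hz => ?_⟩
    rcases Finset.mem_insert.1 hz with rfl | hz
    · exact min_le_right _ _
    · exact (min_le_left _ _).trans (h z hz)

/-- one pair of depths -/
theorem ae2_time_uv (π : SfPar) (hπ : π.Valid) (h1 : π.c2 = 1) (h2 : π.q < 1) (hc : π.hyb = false) (C0 τ κ0 Λ : ℝ)
    (hΛ : ∀ r : NmRt, r.Ok π Λ → ∀ i : ℝ, r.a ≤ i → i < r.q.ds.De →
      ∀ acc : ℝ, 0 < acc → ∃ e0 : ℝ, 0 < e0 ∧ ∃ t0 : ℝ, 0 < t0 ∧ ∀ D : SfDoc, D.Fine π C0 τ κ0 t0 → nmX π D t0 → ∀ G : D.Row 1 → Prop,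
      (r.σ.exact = true → r.σ.lin = false → (D.P 1).NVal G (D.Pc π r.q.ds r.σ.xs) (pair D.y0 (D.tc r.a)) (D.s ^ (-e0))) →
      D.RowPr (D.gt i) (fun ω => (D.P 1).p ω ≠ 0 ∧ G ω) (D.side π r.q r.σ r.a) (D.s ^ (-acc)))
    (p : Ae2P) (hp : p.Ok π Λ) (u v : ℝ) (hu : 0 ≤ u) (huv : u ≤ v) (hv : v ≤ 6) (acc : ℝ) (hacc : 0 < acc) :
    ∃ t0 : ℝ, 0 < t0 ∧ ∀ D : SfDoc, D.Fine π C0 τ κ0 t0 → nmX π D t0 → ∀ dsp : ℝ → NmNm → NmNm → ItDsp,
      (D.P 1).pr (fun ω => (D.P 1).surC ((ae2Tan D π p dsp).thn 0 v) (pair (D.e2Z π p) ((ae2Tan D π p dsp).thn 0 u)) ω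
        < (π.d * (v - u) - acc) * (ae2Tan D π p dsp).L) ≤ acc := by
  have hh : 0 < p.h := hp.h0
  have ha0 : 0 < p.a := hp.root.ha.1
  have hgap : 400 * p.h ≤ p.j - p.a := hp.hgap.trans (min_le_left _ _)
  have hjD := hp.hjD
  have hD1 := hp.hD1
  have hL : ∀ (D : SfDoc) (dsp : ℝ → NmNm → NmNm → ItDsp), 0 < D.s → (ae2Tan D π p dsp).L = -(p.h * Real.log D.s) := by
    intro D dsp hs
    show lg (D.s ^ p.h) = _
    unfold lg
    rw [one_div, Real.log_inv, Real.log_rpow hs]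
  rcases huv.eq_or_lt with rfl | huv'
  · refine ⟨1, one_pos, fun D hD _ dsp => ?_⟩
    have hs := hD.ok.core.hs
    have hLp : 0 < (ae2Tan D π p dsp).L := by
      rw [hL D dsp hs.1]
      have := Real.log_neg hs.1 hs.2
      nlinarith
    rw [ent_pr_eq_zero]
    · exact hacc.le
    · intro ω hω hlt
      have h0 := ent_surC_nonneg (D.P 1) ((ae2Tan D π p dsp).thn 0 u) (pair (D.e2Z π p) ((ae2Tan D π p dsp).thn 0 u)) hω
      nlinarith
  · have hx : 0 < acc * p.h := mul_pos hacc hh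
    have hx20 : 0 < acc * p.h / 20 := by positivity
    have hv0 : 0 ≤ v := hu.trans huv
    have hu6 : u ≤ 6 := huv.trans hv
    have huh : 0 ≤ u * p.h := mul_nonneg hu hh.le
    have huh6 : u * p.h ≤ 6 * p.h := mul_le_mul_of_nonneg_right hu6 hh.le
    have hvh : 0 ≤ v * p.h := mul_nonneg hv0 hh.le
    have hvh6 : v * p.h ≤ 6 * p.h := mul_le_mul_of_nonneg_right hv hh.le
    have hw : 0 < (v - u) * p.h := mul_pos (by linarith) hh
    obtain ⟨e0, -, t1, ht1, H1⟩ := hΛ (p.rt π) hp.root (p.a + u * p.h) (show p.a ≤ _ by linarith) (show _ < p.De by linarith) (acc * p.h / 20) hx20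
    obtain ⟨t2, ht2, H2⟩ := ae2_bin_pr π hπ h1 h2 hc C0 τ κ0 Λ p hp (p.a + u * p.h) (by linarith) (by linarith)
    obtain ⟨t3, ht3, H3⟩ := ae2_th_pr π hπ h1 h2 hc C0 τ κ0 Λ p hp u hu hu6 (acc * p.h / 20) hx20
    obtain ⟨t4, ht4, H4⟩ := ae2_th_time π hπ h1 h2 hc C0 τ κ0 Λ p hp v hv0 hv (acc * p.h / 20) hx20
    obtain ⟨t, ht, htg, n3, n4, n6⟩ := ae2_time_t0 (acc * p.h) acc (min (min t1 t2) (min (min t3 t4) (min ((v - u) * p.h / 3) p.h))) hx hacc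
      (by positivity)
    have g1 : t ≤ t1 := htg.trans ((min_le_left _ _).trans (min_le_left _ _))
    have g2 : t ≤ t2 := htg.trans ((min_le_left _ _).trans (min_le_right _ _))
    have g3 : t ≤ t3 := htg.trans ((min_le_right _ _).trans ((min_le_left _ _).trans (min_le_left _ _)))
    have g4 : t ≤ t4 := htg.trans ((min_le_right _ _).trans ((min_le_left _ _).trans (min_le_right _ _)))
    have g5 : t ≤ (v - u) * p.h / 3 := htg.trans ((min_le_right _ _).trans ((min_le_right _ _).trans (min_le_left _ _)))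
    have g6 : t ≤ p.h := htg.trans ((min_le_right _ _).trans ((min_le_right _ _).trans (min_le_right _ _)))
    refine ⟨t, ht, fun D hD hX dsp => ?_⟩
    have hco := hD.ok.core
    have hs := hco.hs
    have hG : D.G.Nonempty := ⟨1, hco.gate.1⟩
    have ni := abs_le.1 (nm_gt_near hD (i := p.a + u * p.h) (by linarith) (by linarith))
    have nj := abs_le.1 (nm_gt_near hD (i := p.a + v * p.h) (by linarith) (by linarith))
    have hij : D.gt (p.a + u * p.h) < D.gt (p.a + v * p.h) := by nlinarith [ni.2, nj.1]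
    have hj1 : D.gt (p.a + v * p.h) < 1 := by linarith [nj.2]
    have R1 : D.RowPr (D.gt (p.a + u * p.h)) (fun ω => (D.P 1).p ω ≠ 0) (D.side π (ae2Q π p.De) (p.rt π).σ p.a) (D.s ^ (-(acc * p.h / 20))) := by
      intro ρ
      obtain ⟨S, hS, hm⟩ := H1 D (nm_me_fine_mono hD g1) (nm_me_x_mono hs g1 hX) (fun _ => True) (fun h => (Bool.false_ne_true h).elim) ρ
      exact ⟨S, hS, fun ω hcn hE => hm ω hcn ⟨hE, trivial⟩⟩
    have R2 := ae2_rowpr_pair D (D.gt (p.a + u * p.h)) (fun ω => (D.P 1).p ω ≠ 0) (D.side π (ae2Q π p.De) (p.rt π).σ p.a) (D.e2bin π p)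
      (D.s ^ (-(acc * p.h / 20))) 9 (by norm_num) R1 (fun ρ x => H2 D (nm_me_fine_mono hD g2) ρ x)
    have R3 := ae2_rowpr_pair D (D.gt (p.a + u * p.h)) (fun ω => (D.P 1).p ω ≠ 0) (pair (D.side π (ae2Q π p.De) (p.rt π).σ p.a) (D.e2bin π p))
      ((ae2Tan D π p dsp).thn 0 u) (D.s ^ (-(acc * p.h / 20)) * 9) (D.s ^ (-(acc * p.h / 20))) (Real.rpow_pos_of_pos hs.1 _).le R2
      (fun ρ x => by
        obtain ⟨S, hS, hm⟩ := H3 D (nm_me_fine_mono hD g3) ρ x.1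
        exact ⟨S, hS, fun ω hcn hE hx => hm ω hcn hE (congrArg Prod.fst hx)⟩)
    have cnt := ae2_count D π C0 t (D.gt (p.a + u * p.h)) (D.gt (p.a + v * p.h)) 1 hco (nm_gt_mem D hG _) (nm_gt_mem D hG _) hco.gate.1 hij hj1
      (fun ω => (D.P 1).p ω ≠ 0) (pair (D.e2Z π p) ((ae2Tan D π p dsp).thn 0 u)) ((ae2Tan D π p dsp).thn 0 v)
      (D.s ^ (-(acc * p.h / 20)) * 9 * D.s ^ (-(acc * p.h / 20))) (D.s ^ (-(acc * p.h / 20))) (D.s ^ (-(π.d * ((v - u) * p.h) - acc * p.h)))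
      (by have := Real.rpow_pos_of_pos hs.1 (-(acc * p.h / 20)); positivity) (Real.rpow_pos_of_pos hs.1 _).le (Real.rpow_pos_of_pos hs.1 _) R3
      (fun w θ => by
        obtain ⟨Lt, hLt, hm⟩ := H4 D (nm_me_fine_mono hD g4) w.1.1 θ
        exact ⟨Lt, hLt, fun ω ρ' hE hW hθ hcn => hm ω ρ' hE (congrArg (fun z => z.1.1) hW) hθ hcn⟩)
    have hlog : Real.log (D.s ^ (-(π.d * ((v - u) * p.h) - acc * p.h))) = (π.d * (v - u) - acc) * (ae2Tan D π p dsp).L := by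
      rw [hL D dsp hs.1, Real.log_rpow hs.1]
      ring
    rw [hlog] at cnt
    refine (ent_pr_mono (D.P 1) fun ω hω hlt => ⟨hω, hlt⟩).trans (cnt.trans ?_)
    exact ae2_time_num D.s t (acc * p.h) π.d ((v - u) * p.h) _ acc hs.1 hs.2 hD.sm ht hx hπ.d1.1 hπ.d1.2 n3 n4 n6 (by linarith [ni.2, nj.1])

/-- LEAF L-256-E2-S1.  **the conditional time score for the refined side.**   `Λ` = the constant of `nm_side_pr`.   Fix `u ≤ v` in `Q` (finitely many pairs: take the minimum of the `t0`).   `u = v`: the right side is negative, `surC ≥ 0` on the support.   `u < v`: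
`i = D.gt (a + u h)`, `j = D.gt (a + v h)` (`i < j < 1`: `|gt x - x| ≤ t0`, `(v - u) h > 2 t0`... `Q` is finite: `t0 <` a third of the least positive gap times `h`), `E ω := (D.P 1).p ω ≠ 0`,
`W := pair (D.e2Z π p) (T.thn 0 u)`, `Θ := T.thn 0 v`.   `hW`: `nm_side_pr` (coarse side: the hypothesis on `[P]` is vacuous, `G = True`) at the depth `a + u h`, then `ae2_rowpr_pair` twice with `ae2_bin_pr`, `ae2_th_pr`: `N = 9 s^(-2 e)`.
`hΘ`: `ae2_th_time` at `v`: `N' = s^(-e)`.   `ae2_count` with `Mp = exp ((d (v - u) - acc) T.L) = s^(-(d (v - u) - acc) h)`, `e = 1`:   bound `s^(-t) (9 s^(-t - 3e) s^(acc h - 2 d t) + s^(1/t))^(2/3) + s^(1/t) ≤ s^(acc h / 4) ≤ acc`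
for `e = acc h / 20`, `t0` small (`lay_close`-type numerics; `D.s ≤ t0`). -/
theorem ae2_time (π : SfPar) (hπ : π.Valid) (h1 : π.c2 = 1) (h2 : π.q < 1) (hc : π.hyb = false) (C0 τ κ0 : ℝ) : ∃ Λ : ℝ, ∀ p : Ae2P, p.Ok π Λ →
    ∀ Q : Finset ℝ, (∀ x ∈ Q, 0 ≤ x ∧ x ≤ 6) → ∀ acc : ℝ, 0 < acc → ∃ t0 : ℝ, 0 < t0 ∧ ∀ D : SfDoc, D.Fine π C0 τ κ0 t0 → nmX π D t0 →
    ∀ dsp : ℝ → NmNm → NmNm → ItDsp, ∀ u ∈ Q, ∀ v ∈ Q, u ≤ v →
      (D.P 1).pr (fun ω => (D.P 1).surC ((ae2Tan D π p dsp).thn 0 v) (pair (D.e2Z π p) ((ae2Tan D π p dsp).thn 0 u)) ω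
        < (π.d * (v - u) - acc) * (ae2Tan D π p dsp).L) ≤ acc := by
  obtain ⟨Λ, hΛ⟩ := nm_side_pr π hπ C0 τ κ0
  refine ⟨Λ, fun p hp Q hQ acc hacc => ?_⟩
  have H : ∀ z : ℝ × ℝ, ∃ t0 : ℝ, 0 < t0 ∧ (z.1 ∈ Q → z.2 ∈ Q → z.1 ≤ z.2 → ∀ D : SfDoc, D.Fine π C0 τ κ0 t0 → nmX π D t0 →
      ∀ dsp : ℝ → NmNm → NmNm → ItDsp,
      (D.P 1).pr (fun ω => (D.P 1).surC ((ae2Tan D π p dsp).thn 0 z.2) (pair (D.e2Z π p) ((ae2Tan D π p dsp).thn 0 z.1)) ω
        < (π.d * (z.2 - z.1) - acc) * (ae2Tan D π p dsp).L) ≤ acc) := by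
    intro z
    by_cases hz : z.1 ∈ Q ∧ z.2 ∈ Q ∧ z.1 ≤ z.2
    · obtain ⟨t0, ht0, h⟩ := ae2_time_uv π hπ h1 h2 hc C0 τ κ0 Λ hΛ p hp z.1 z.2 (hQ _ hz.1).1 hz.2.2 (hQ _ hz.2.1).2 acc hacc
      exact ⟨t0, ht0, fun _ _ _ => h⟩
    · exact ⟨1, one_pos, fun a b c => (hz ⟨a, b, c⟩).elim⟩
  choose f hf0 hf using H
  obtain ⟨t0, ht0, hle⟩ := ae2_time_min (Q ×ˢ Q) f fun z _ => hf0 z
  refine ⟨t0, ht0, fun D hD hX dsp u hu v hv huv => ?_⟩
  have hz := hle (u, v) (Finset.mem_product.2 ⟨hu, hv⟩)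
  exact hf (u, v) hu hv huv D (nm_me_fine_mono hD hz) (nm_me_x_mono hD.ok.core.hs hz hX) dsp

section seq

variable {π : SfPar} {C0 : ℝ} {κ : ℝ → ℝ} (S : NmSeq π C0 κ)

/-- scales tend to `0`: `(S.D n).s ≤ S.t n → 0` -/
theorem ae2_small (h x : ℝ) (hh : 0 < h) (hx : 0 < x) : ∀ᶠ n in uf, 0 < (S.D n).s ∧ (S.D n).s < 1 ∧ (S.D n).s ^ h < x := by
  have hpos : 0 < x ^ (1 / h) := Real.rpow_pos_of_pos hx _
  have hev : ∀ᶠ n in uf, S.t n < x ^ (1 / h) := S.lim.eventually_lt_const hpos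
  filter_upwards [hev] with n hn
  have hf := S.fine n 1 one_pos
  obtain ⟨h0, h1⟩ := hf.ok.core.hs
  refine ⟨h0, h1, ?_⟩
  calc (S.D n).s ^ h ≤ (S.t n) ^ h := Real.rpow_le_rpow h0.le hf.sm hh.le
    _ < (x ^ (1 / h)) ^ h := Real.rpow_lt_rpow hf.pos.le hn hh
    _ = x := by rw [← Real.rpow_mul hx.le, one_div, inv_mul_cancel₀ hh.ne', Real.rpow_one]

theorem ae2_prof_nval_mono {Ω α β : Type} [Fintype Ω] (P : FLaw Ω) {B : Ω → β} {A : Ω → α} {N N' : ℝ} (h : P.NVal (fun _ => True) B A N) (hN : N ≤ N') :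
    P.NVal (fun _ => True) B A N' := by
  intro ω₀
  obtain ⟨T, hT, hm⟩ := h ω₀
  exact ⟨T, hT.trans hN, hm⟩

/-- the finite-law core of `ae2_prof` -/
theorem ae2_prof_abs {Ω α β γ δ : Type} [Fintype Ω] (P : FLaw Ω) (X : Ω → α) (Xa : Ω → β) (C : Ω → γ) (Ca : Ω → δ) {N : ℝ} (hN : 1 ≤ N)
    (h1 : P.NVal (fun _ => True) Ca C N) (h2 : P.NVal (fun _ => True) C Ca N)
    (h3 : P.NVal (fun _ => True) X (pair Xa (pair Ca C)) N) (h4 : P.NVal (fun _ => True) Xa (pair X (pair Ca C)) N)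
    (acc L lgs h U : ℝ) (hh : 0 < h) (hlgs : 0 < lgs) (hL : L = h * lgs) (hL1 : 12 * Real.log N ≤ acc * L)
    (hL2 : 6 * Real.exp (-(acc * L / 12)) ≤ acc / 2)
    (hfl : P.pr (fun ω => acc * h / 4 < |P.surC Xa Ca ω / lgs - U|) ≤ acc / 2) :
    P.pr (fun ω => acc * L < |P.surC X C ω - U / h * L|) ≤ acc := by
  have hsw := ae2_sco_swap P X Xa C Ca hN h1 h2 h3 h4 (acc * L / 12)
  have hmono : P.pr (fun ω => acc * L < |P.surC X C ω - U / h * L|)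
      ≤ P.pr (fun ω => 3 * (Real.log N + acc * L / 12) < |P.surC X C ω - P.surC Xa Ca ω| ∨ acc * h / 4 < |P.surC Xa Ca ω / lgs - U|) := by
    refine ent_pr_mono P fun ω _ hω => ?_
    by_contra hcon
    push Not at hcon
    obtain ⟨c1, c2⟩ := hcon
    have e1 : U / h * L = U * lgs := by rw [hL]; field_simp
    have e2 : |P.surC Xa Ca ω - U * lgs| = |P.surC Xa Ca ω / lgs - U| * lgs := by
      rw [← abs_of_pos hlgs, ← abs_mul, abs_of_pos hlgs]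
      congr 1
      field_simp
    have e3 : |P.surC X C ω - U * lgs| ≤ |P.surC X C ω - P.surC Xa Ca ω| + |P.surC Xa Ca ω - U * lgs| := by
      have : P.surC X C ω - U * lgs = (P.surC X C ω - P.surC Xa Ca ω) + (P.surC Xa Ca ω - U * lgs) := by ring
      rw [this]
      exact abs_add_le _ _
    have e4 : |P.surC Xa Ca ω / lgs - U| * lgs ≤ acc * h / 4 * lgs := mul_le_mul_of_nonneg_right c2 hlgs.le
    rw [e1] at hω
    rw [e2] at e3
    have e5 : acc * h / 4 * lgs = acc * L / 4 := by rw [hL]; ring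
    have e6 := Real.log_nonneg hN
    linarith
  refine hmono.trans ((ent_pr_or_le P _ _).trans ?_)
  linarith

/-- LEAF L-256-E2-S2.  **the angular profile at the boundary root.**   `X = T.Xn z`, `C = T.Cs = cs`, `Xa = D.Xc (v0 + z h)`, `Ca = D.nm π q a v0`.   Mutual lists: `NmRep.rep1`, `rep2` (`K0`), `ae2_xcell` (`8`; refine the conditioning by `lay_nval_refine`); `N = max K0 8`.
`ae2_sco_swap` with `t = acc T.L / 12`: off `6 e^(-t)`, `|surC X C - surC Xa Ca| ≤ 3 (log N + t) ≤ acc T.L / 2` (`T.L = h lgs → ∞`).   `S.Flat`: `S.Hom (S.ats [NmAt.Xc x]) (S.ats [NmAt.nm q a v0])` with `e = acc h / 4`;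
`surC`, `entC` of the lists `ats [·]` = those of the entries (`ent_surC_congr`, `ent_entC_congr`: `fun y => [Sum.inr (Sum.inl y)]` etc. are injective), so `HC = S.U q x a v0`. -/
theorem ae2_prof (hπ : π.Valid) (h1 : π.c2 = 1) (h2 : π.q < 1) (Ds : Set ℝ) (hF : S.Flat Ds) (Λ : ℝ) (p : Ae2P) (hp : p.Ok π Λ) (hD : p.De ∈ Ds)
    (K0 e : ℝ) (he : 10 * p.h ≤ e) (z : ℝ) (hz : 0 ≤ z) (hz6 : z ≤ 6) (acc : ℝ) (hacc : 0 < acc) :
    ∀ᶠ n in uf, NmRep (S.D n) π (p.rt π) K0 e → ∀ dsp : ℝ → NmNm → NmNm → ItDsp,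
      ((S.D n).P 1).pr (fun ω => acc * (ae2Tan (S.D n) π p dsp).L
        < |((S.D n).P 1).surC ((ae2Tan (S.D n) π p dsp).Xn z) (ae2Tan (S.D n) π p dsp).Cs ω
            - S.U (ae2Q π p.De) (π.u p.De + z * p.h) p.a (π.u p.De) / p.h * (ae2Tan (S.D n) π p dsp).L|) ≤ acc := by
  have hh := hp.h0
  obtain ⟨N, hNdef⟩ : ∃ N : ℝ, N = max K0 8 := ⟨_, rfl⟩
  have hN8 : (8 : ℝ) ≤ N := by rw [hNdef]; exact le_max_right _ _
  have hNK : K0 ≤ N := by rw [hNdef]; exact le_max_left _ _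
  -- flatness
  have hHom := hF [NmAt.Xc (π.u p.De + z * p.h)] [NmAt.nm (ae2Q π p.De) p.a (π.u p.De)]
    (fun x hx => by
      rw [List.mem_singleton] at hx
      subst hx
      exact ⟨fun h => (by cases h), trivial⟩)
    (fun x hx => by
      rw [List.mem_singleton] at hx
      subst hx
      exact ⟨hp.root.q, hD, hp.root.ha.1.le, hp.root.ha.2.le, hp.root.hv⟩)
  have hHC : S.HC (S.ats [NmAt.Xc (π.u p.De + z * p.h)]) (S.ats [NmAt.nm (ae2Q π p.De) p.a (π.u p.De)])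
      = S.U (ae2Q π p.De) (π.u p.De + z * p.h) p.a (π.u p.De) := by
    unfold NmSeq.U NmSeq.HC
    congr 1
    funext n
    congr 1
    refine ent_entC_congr _ _ _ _ _ (fun ω ω' _ _ => ?_) (fun ω ω' _ _ _ => ?_)
    · simp [NmSeq.ats, SfDoc.ats, SfDoc.atq, NmSeq.nm]
    · simp [NmSeq.ats, SfDoc.ats, SfDoc.atq, NmSeq.Xc]
  have hfl := (hHom (acc * p.h / 4) (by positivity)).eventually_lt_const (show (0 : ℝ) < acc / 2 by positivity)
  rw [hHC] at hfl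
  have hs1 := ae2_small S p.h (1 / 2) hh (by norm_num)
  have hs2 := ae2_small S p.h (Real.exp (-(12 * Real.log N / acc))) hh (Real.exp_pos _)
  have hs3 := ae2_small S p.h (Real.exp (-(12 * Real.log (12 / acc) / acc))) hh (Real.exp_pos _)
  filter_upwards [hfl, hs1, hs2, hs3] with n hfl ⟨h0, h1', hs1⟩ ⟨_, _, hs2⟩ ⟨_, _, hs3⟩ hR dsp
  have hδ0 : 0 < (S.D n).s ^ p.h := Real.rpow_pos_of_pos h0 _
  have hlgs : 0 < (S.D n).lgs := by
    unfold SfDoc.lgs lg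
    exact Real.log_pos (by rw [one_div]; exact (one_lt_inv₀ h0).2 h1')
  have hL : (ae2Tan (S.D n) π p dsp).L = p.h * (S.D n).lgs := by
    show Real.log (1 / (S.D n).s ^ p.h) = p.h * Real.log (1 / (S.D n).s)
    rw [one_div, one_div, Real.log_inv, Real.log_inv, Real.log_rpow h0]
    ring
  have hLlog : (ae2Tan (S.D n) π p dsp).L = -Real.log ((S.D n).s ^ p.h) := by
    show Real.log (1 / (S.D n).s ^ p.h) = _
    rw [one_div, Real.log_inv]
  have hge : ∀ M : ℝ, (S.D n).s ^ p.h < Real.exp (-M) → M ≤ (ae2Tan (S.D n) π p dsp).L := by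
    intro M hM
    rw [hLlog]
    have := (Real.log_lt_log hδ0 hM).le
    rw [Real.log_exp] at this
    linarith
  have hze : (S.D n).s ^ e ≤ ((S.D n).s ^ p.h) ^ z / 4 := by
    have a1 : (S.D n).s ^ e ≤ (S.D n).s ^ (10 * p.h) := Real.rpow_le_rpow_of_exponent_ge h0 h1'.le he
    have a2 : (S.D n).s ^ (10 * p.h) = ((S.D n).s ^ p.h) ^ z * ((S.D n).s ^ p.h) ^ (10 - z) := by
      rw [← Real.rpow_add hδ0, ← Real.rpow_mul h0.le]
      congr 1
      ring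
    have a3 : ((S.D n).s ^ p.h) ^ (10 - z) ≤ ((S.D n).s ^ p.h) ^ (2 : ℝ) :=
      Real.rpow_le_rpow_of_exponent_ge hδ0 (by linarith) (by linarith)
    have a4 : ((S.D n).s ^ p.h) ^ (2 : ℝ) ≤ 1 / 4 := by
      rw [Real.rpow_two]
      nlinarith
    have a5 : 0 < ((S.D n).s ^ p.h) ^ z := Real.rpow_pos_of_pos hδ0 _
    rw [a2] at a1
    refine a1.trans ?_
    have := mul_le_mul_of_nonneg_left (a3.trans a4) a5.le
    linarith
  obtain ⟨x1, x2⟩ := ae2_xcell (S.D n) π p dsp K0 e z ⟨h0, h1'⟩ hR hz hh hze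
  have hsur : ∀ ω, ((S.D n).P 1).surC (S.ats [NmAt.Xc (π.u p.De + z * p.h)] n) (S.ats [NmAt.nm (ae2Q π p.De) p.a (π.u p.De)] n) ω
      = ((S.D n).P 1).surC ((S.D n).Xc (π.u p.De + z * p.h)) ((S.D n).nm π (ae2Q π p.De) p.a (π.u p.De)) ω := by
    intro ω
    refine ent_surC_congr _ _ _ _ _ ω (fun ω' _ => ?_) (fun ω' _ _ => ?_)
    · simp [NmSeq.ats, SfDoc.ats, SfDoc.atq]
    · simp [NmSeq.ats, SfDoc.ats, SfDoc.atq]
  simp only [hsur] at hfl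
  have hM2 := hge _ hs2
  have hM3 := hge _ hs3
  refine ae2_prof_abs ((S.D n).P 1) ((ae2Tan (S.D n) π p dsp).Xn z) ((S.D n).Xc (π.u p.De + z * p.h)) ((S.D n).cs π (p.rt π))
    ((S.D n).nm π (ae2Q π p.De) p.a (π.u p.De)) (N := N) (by linarith)
    (ae2_prof_nval_mono _ hR.rep1 hNK) (ae2_prof_nval_mono _ hR.rep2 hNK)
    (ae2_prof_nval_mono _ (lay_nval_refine _ x1 (fun ω ω' hω => by
      simp only [FLaw.pair, Prod.mk.injEq] at hω ⊢
      exact ⟨hω.1, hω.2.2⟩)) hN8)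
    (ae2_prof_nval_mono _ (lay_nval_refine _ x2 (fun ω ω' hω => by
      simp only [FLaw.pair, Prod.mk.injEq] at hω ⊢
      exact ⟨hω.1, hω.2.2⟩)) hN8)
    acc _ (S.D n).lgs p.h _ hh hlgs hL ?_ ?_ hfl.le
  · rw [div_le_iff₀ hacc] at hM2
    linarith
  · rw [div_le_iff₀ hacc] at hM3
    have b1 : Real.exp (-(acc * (ae2Tan (S.D n) π p dsp).L / 12)) ≤ Real.exp (-Real.log (12 / acc)) :=
      Real.exp_le_exp.2 (by linarith)
    have b2 : Real.exp (-Real.log (12 / acc)) = acc / 12 := by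
      rw [Real.exp_neg, Real.exp_log (by positivity), inv_div]
    rw [b2] at b1
    linarith

/-- the entropy budget of `ae2_stat` on one finite law -/
theorem ae2_stat_fin {Ω : Type} [Fintype Ω] (P : FLaw Ω) {α β γ δ ε σ : Type} (X : Ω → α) (Xa : Ω → β) (C : Ω → γ) (Ca : Ω → δ)
    (Nn : Ω → ε) (Sg : Ω → σ) {K0 K1 N : ℝ}
    (h1 : P.NVal (fun _ => True) Ca C K0) (h2 : P.NVal (fun _ => True) C Ca K0)
    (h3 : P.NVal (fun _ => True) X (pair Xa C) 8) (h4 : P.NVal (fun _ => True) Xa (pair X C) 8)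
    (h5 : P.NVal (fun _ => True) Ca Nn K1)
    (h6 : P.NVal (fun _ => True) Sg (pair (fun ω => (Nn ω, C ω)) C) N) :
    P.miC X Sg C ≤ P.entC Xa Ca - P.entC Xa Nn + Real.log N + 6 * (|Real.log K0| + Real.log 8 + |Real.log K1|) := by
  have l8 : 0 ≤ Real.log 8 := Real.log_nonneg (by norm_num)
  have a1 := ent_entC_le_log_nval P _ _ h1
  have a2 := ent_entC_le_log_nval P _ _ h2
  have a3 := ent_entC_le_log_nval P _ _ h3
  have a4 := ent_entC_le_log_nval P _ _ h4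
  have a5 := ent_entC_le_log_nval P _ _ h5
  have k0 := le_abs_self (Real.log K0)
  have k0' := abs_nonneg (Real.log K0)
  have k1 := le_abs_self (Real.log K1)
  have k1' := abs_nonneg (Real.log K1)
  have b0 := ae2_mi_read P X Sg (fun ω => (Nn ω, C ω)) C h6
  -- `H(X | Xa, Ca)`
  have c1 : P.entC X (pair Xa Ca) ≤ P.entC (pair C X) (pair Xa Ca) :=
    ent_entC_mono P _ _ _ fun ω ω' _ _ hh _ => congrArg Prod.snd hh
  have c2 := ent_entC_chain P C X (pair Xa Ca)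
  have c3 : P.entC C (pair Xa Ca) ≤ P.entC C Ca := ent_entC_anti P _ _ _ fun ω ω' _ _ hh => congrArg Prod.snd hh
  have c4 : P.entC X (pair C (pair Xa Ca)) ≤ P.entC X (pair Xa C) := by
    refine ent_entC_anti P _ _ _ fun ω ω' _ _ hh => ?_
    simp only [pair, Prod.mk.injEq] at hh ⊢
    exact ⟨hh.2.1, hh.1⟩
  -- `H(Ca | O)`
  have c5 : P.entC Ca (fun ω => (Nn ω, C ω)) ≤ P.entC Ca C := ent_entC_anti P _ _ _ fun ω ω' _ _ hh => congrArg Prod.snd hh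
  have b1 := lay_mi_swap P X Xa C Ca (fun ω => (Nn ω, C ω)) (|Real.log K0| + Real.log 8 + |Real.log K1|)
    (by linarith) (by linarith) (by linarith) (by linarith) (by linarith)
  -- `H(Xa | O)` from below
  have d1 : P.entC Xa Nn ≤ P.entC (pair C Xa) Nn := ent_entC_mono P _ _ _ fun ω ω' _ _ hh _ => congrArg Prod.snd hh
  have d2 := ent_entC_chain P C Xa Nn
  have d3 : P.entC Xa (pair C Nn) ≤ P.entC Xa (fun ω => (Nn ω, C ω)) := by
    refine ent_entC_anti P _ _ _ fun ω ω' _ _ hh => ?_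
    simp only [pair, Prod.mk.injEq] at hh ⊢
    exact ⟨hh.2, hh.1⟩
  have d4 : P.entC C Nn ≤ P.entC (pair Ca C) Nn := ent_entC_mono P _ _ _ fun ω ω' _ _ hh _ => congrArg Prod.snd hh
  have d5 := ent_entC_chain P Ca C Nn
  have d6 : P.entC C (pair Ca Nn) ≤ P.entC C Ca := ent_entC_anti P _ _ _ fun ω ω' _ _ hh => congrArg Prod.fst hh
  linarith

/-- LEAF L-256-E2-S3.  **stationarity.**   `ae2_mi_read`: `I(X; S | C) ≤ I(X; O_40 | C) + log N`.   `lay_mi_swap` (Lay/Bud) with `X = T.Xn 6`, `Xa = D.Xc (v0 + 6 h)`, `C = cs`, `Ca = nm(a, v0)`, `O = T.O 40 = (nm(a + 40 h, v0), cs)`,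
`l0 = log (max K0 8 * nmK0)`: `h1, h2`: `NmRep.rep1/2`; `h3, h4`: `ae2_xcell`; `h5`: `nm_nval_up`.   `entC Xa O ≥ entC Xa (nm(a + 40 h, v0)) - entC cs (nm(a + 40 h, v0)) ≥ .. - l0 - l0`.
`entC Xa Ca / lgs → U(v0 + 6h; a, v0)`, `entC Xa (nm(a + 40 h, v0)) / lgs → U(v0 + 6h; a + 40 h, v0)` along `uf` (`ulim_tendsto`; `UBdd`: `0 ≤ entC ≤ ent (Xc x) ≤ C lgs`, see `nm_me_ubdd` of Nm/Mem/Uf.lean if on main). -/
theorem ae2_stat (hπ : π.Valid) (h1 : π.c2 = 1) (h2 : π.q < 1) (Λ : ℝ) (p : Ae2P) (hp : p.Ok π Λ) (K0 e : ℝ) (he : 10 * p.h ≤ e) (R tl : ℝ) (htl : 0 < tl)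
    (hng : S.U (ae2Q π p.De) (π.u p.De + 6 * p.h) p.a (π.u p.De) - S.U (ae2Q π p.De) (π.u p.De + 6 * p.h) (p.a + 40 * p.h) (π.u p.De) ≤ tl * p.h / 4) :
    ∀ᶠ n in uf, NmRep (S.D n) π (p.rt π) K0 e → ∀ (dsp : ℝ → NmNm → NmNm → ItDsp) (N : ℝ), Real.log N ≤ tl / 4 * (ae2Tan (S.D n) π p dsp).L →
      ((S.D n).P 1).NVal (fun _ => True) ((ae2Tan (S.D n) π p dsp).ltS R) (pair ((ae2Tan (S.D n) π p dsp).O 40) (ae2Tan (S.D n) π p dsp).Cs) N →
      ((S.D n).P 1).miC ((ae2Tan (S.D n) π p dsp).Xn 6) ((ae2Tan (S.D n) π p dsp).ltS R) (ae2Tan (S.D n) π p dsp).Cs ≤ tl * (ae2Tan (S.D n) π p dsp).L := by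
  have hh : 0 < p.h := hp.h0
  have hq : (ae2Q π p.De).Ok π := nm_fam_ok π hπ _ hp.root.q
  have hε : 0 < tl * p.h / 16 := by positivity
  have hb1 : UBdd (S.hc (S.Xc (π.u p.De + 6 * p.h)) (S.nm (ae2Q π p.De) p.a (π.u p.De))) :=
    nm_pc_ubdd S (nm_pc_bd_X S) _ _
  have hb2 : UBdd (S.hc (S.Xc (π.u p.De + 6 * p.h)) (S.nm (ae2Q π p.De) (p.a + 40 * p.h) (π.u p.De))) :=
    nm_pc_ubdd S (nm_pc_bd_X S) _ _
  have e1 := eventually_lt_of_ulim_lt _ (S.U (ae2Q π p.De) (π.u p.De + 6 * p.h) p.a (π.u p.De) + tl * p.h / 16) hb1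
    (by show S.U (ae2Q π p.De) (π.u p.De + 6 * p.h) p.a (π.u p.De) < _; linarith)
  have e2 := eventually_gt_of_lt_ulim _ (S.U (ae2Q π p.De) (π.u p.De + 6 * p.h) (p.a + 40 * p.h) (π.u p.De) - tl * p.h / 16) hb2
    (by show _ < S.U (ae2Q π p.De) (π.u p.De + 6 * p.h) (p.a + 40 * p.h) (π.u p.De); linarith)
  have e3 := nm_pc_small S (6 * (|Real.log K0| + Real.log 8 + |Real.log nmK0|)) (tl * p.h / 8) (by positivity)
  filter_upwards [e1, e2, e3, ae2_small S p.h (1 / 4) hh (by norm_num)] with n f1 f2 f3 ⟨s0, s1, s4⟩ hR dsp N hN hV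
  have hl := nm_me_lgs_pos S n
  have hL : (ae2Tan (S.D n) π p dsp).L = p.h * (S.D n).lgs := by
    show lg ((S.D n).s ^ p.h) = p.h * lg (S.D n).s
    unfold lg
    rw [one_div, Real.log_inv, Real.log_rpow s0, one_div, Real.log_inv]
    ring
  have hze : (S.D n).s ^ e ≤ ((S.D n).s ^ p.h) ^ (6 : ℝ) / 4 := by
    have hδ0 : 0 < (S.D n).s ^ p.h := Real.rpow_pos_of_pos s0 _
    have g1 : (S.D n).s ^ e ≤ (S.D n).s ^ (10 * p.h) := Real.rpow_le_rpow_of_exponent_ge s0 s1.le he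
    have g2 : (S.D n).s ^ (10 * p.h) = ((S.D n).s ^ p.h) ^ (6 : ℝ) * ((S.D n).s ^ p.h) ^ (4 : ℝ) := by
      rw [← Real.rpow_mul s0.le, ← Real.rpow_mul s0.le, ← Real.rpow_add s0]
      congr 1; ring
    have g3 : ((S.D n).s ^ p.h) ^ (4 : ℝ) ≤ ((S.D n).s ^ p.h) ^ (1 : ℝ) :=
      Real.rpow_le_rpow_of_exponent_ge hδ0 (by linarith) (by norm_num)
    rw [Real.rpow_one] at g3
    have g4 : 0 < ((S.D n).s ^ p.h) ^ (6 : ℝ) := Real.rpow_pos_of_pos hδ0 _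
    rw [g2] at g1
    nlinarith
  obtain ⟨x1, x2⟩ := ae2_xcell (S.D n) π p dsp K0 e 6 ⟨s0, s1⟩ hR (by norm_num) hh hze
  have hup : ((S.D n).P 1).NVal (fun _ => True) ((S.D n).nm π (ae2Q π p.De) p.a (π.u p.De))
      ((S.D n).nm π (ae2Q π p.De) (p.a + 40 * p.h) (π.u p.De)) nmK0 :=
    nm_nval_up (S.D n) π hq s0 s1 (by linarith) le_rfl
  have key := ae2_stat_fin ((S.D n).P 1) ((ae2Tan (S.D n) π p dsp).Xn 6) ((S.D n).Xc (π.u p.De + 6 * p.h)) ((S.D n).cs π (p.rt π))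
    ((S.D n).nm π (ae2Q π p.De) p.a (π.u p.De)) ((S.D n).nm π (ae2Q π p.De) (p.a + 40 * p.h) (π.u p.De))
    ((ae2Tan (S.D n) π p dsp).ltS R) hR.rep1 hR.rep2 x1 x2 hup hV
  have f1' : ((S.D n).P 1).entC ((S.D n).Xc (π.u p.De + 6 * p.h)) ((S.D n).nm π (ae2Q π p.De) p.a (π.u p.De))
      < (S.U (ae2Q π p.De) (π.u p.De + 6 * p.h) p.a (π.u p.De) + tl * p.h / 16) * (S.D n).lgs := (div_lt_iff₀ hl).1 f1
  have f2' : (S.U (ae2Q π p.De) (π.u p.De + 6 * p.h) (p.a + 40 * p.h) (π.u p.De) - tl * p.h / 16) * (S.D n).lgs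
      < ((S.D n).P 1).entC ((S.D n).Xc (π.u p.De + 6 * p.h)) ((S.D n).nm π (ae2Q π p.De) (p.a + 40 * p.h) (π.u p.De)) := (lt_div_iff₀ hl).1 f2
  have f3' := (div_le_iff₀ hl).1 f3
  rw [hL] at hN ⊢
  have hng' := mul_le_mul_of_nonneg_right hng hl.le
  have hpos : 0 < tl * p.h * (S.D n).lgs := by positivity
  refine key.trans ?_
  nlinarith

/-- LEAF L-256-E2-S4.  **the entropy of the child name.**   `nm_gr_mean` (Nm/Grid) with `l = 1`; `T.O 1 = (nm(a + 1 * h, v0), cs)` and `entC (fun ω => (X ω, C ω)) C = entC X C` (`ent_entC_congr` / chain rule); `T.L = lg (s^h) = h lgs`. -/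
theorem ae2_ent (hπ : π.Valid) (h1 : π.c2 = 1) (h2 : π.q < 1) (hX : S.HasX) : ∃ Λ : ℝ, ∀ p : Ae2P, p.Ok π Λ → ∀ σ : ℝ, 0 < σ → ∀ᶠ n in uf,
    ∀ dsp : ℝ → NmNm → NmNm → ItDsp, ((S.D n).P 1).entC ((ae2Tan (S.D n) π p dsp).O 1) (ae2Tan (S.D n) π p dsp).Cs
      ≤ ((S.H (ae2Q π p.De) (p.a + p.h) (π.u p.De) - S.H (ae2Q π p.De) p.a (π.u p.De)) / p.h + σ) * (ae2Tan (S.D n) π p dsp).L := by
  obtain ⟨Λ, H⟩ := nm_gr_mean hπ S hX
  refine ⟨Λ, fun p hp σ hσ => ?_⟩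
  have hh := hp.h0
  have hle : (p.rt π).a + 1 * (p.rt π).h ≤ (p.rt π).q.ds.De := by
    show p.a + 1 * p.h ≤ p.De
    have g1 : p.gap π ≤ p.j - p.a := min_le_left _ _
    have g2 := hp.hgap
    have g3 := hp.hjD
    linarith
  have h3 := H (p.rt π) hp.root hp.h0 1 one_pos hle σ hσ
  have h4 := ae2_small S p.h 1 hp.h0 one_pos
  filter_upwards [h3, h4] with n a1 a2 dsp
  obtain ⟨s0, s1, -⟩ := a2
  have hL : (ae2Tan (S.D n) π p dsp).L = p.h * (S.D n).lgs := by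
    show lg ((S.D n).s ^ p.h) = p.h * lg (S.D n).s
    unfold lg
    rw [one_div, one_div, Real.log_inv, Real.log_inv, Real.log_rpow s0]
    ring
  have hlgs : 0 < (S.D n).lgs := by
    show 0 < lg (S.D n).s
    unfold lg
    rw [one_div, Real.log_inv]
    have := Real.log_neg s0 s1
    linarith
  have hpos : 0 < p.h * (S.D n).lgs := mul_pos hh hlgs
  have e1 : ((S.D n).P 1).entC ((ae2Tan (S.D n) π p dsp).O 1) (ae2Tan (S.D n) π p dsp).Cs
      = ((S.D n).P 1).entC ((S.D n).nm π (ae2Q π p.De) (p.a + 1 * p.h) (π.u p.De)) ((S.D n).cs π (p.rt π)) := by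
    rw [ae2_tan_O, ae2_tan_Cs]
    apply ent_entC_congr
    · intro ω ω' _ _
      exact Iff.rfl
    · intro ω ω' _ _ hY
      exact ⟨fun h => (Prod.mk.inj h).1, fun h => Prod.ext h hY⟩
  rw [e1, hL]
  have a3 := (abs_le.mp a1.1).2
  have a4 : ((S.D n).P 1).entC ((S.D n).nm π (ae2Q π p.De) (p.a + 1 * p.h) (π.u p.De)) ((S.D n).cs π (p.rt π)) / (p.h * (S.D n).lgs)
      ≤ (S.H (ae2Q π p.De) (p.a + 1 * p.h) (π.u p.De) - S.H (ae2Q π p.De) p.a (π.u p.De)) / p.h + σ := by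
    have : ((S.D n).P 1).entC ((S.D n).nm π (ae2Q π p.De) (p.a + 1 * p.h) (π.u p.De)) ((S.D n).cs π (p.rt π)) / (p.h * (S.D n).lgs)
      - (S.H (ae2Q π p.De) (p.a + 1 * p.h) (π.u p.De) - S.H (ae2Q π p.De) p.a (π.u p.De)) / p.h ≤ σ := a3
    linarith
  rw [div_le_iff₀ hpos, one_mul] at a4
  rw [one_mul]
  exact a4

end seq

end

end Claimed.Agent.R256
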